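import Mathlib
import Vale.Agent.P031.Mertens
import Vale.Agent.P016.Defs

set_option linter.all false

section

section

open Finset
open scoped ComplexConjugate

namespace Vale.Agent.P016

/-- Two tuples of primes with the same product are permutations of each other. -/
theorem exists_perm_of_prod_eq {k : ℕ} (s t : Fin k → ℕ) (hs : ∀ i, (s i).Prime)
    (ht : ∀ i, (t i).Prime) (h : ∏ i, s i = ∏ i, t i) :
    ∃ σ : Equiv.Perm (Fin k), s = t ∘ σ := by
  have h1 : (List.ofFn s).Perm (List.ofFn t) := by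
    have hps : (List.ofFn s).Perm (Nat.primeFactorsList (∏ i, s i)) := by
      apply Nat.primeFactorsList_unique
      · rw [List.prod_ofFn]
      · intro p hp
        rw [List.mem_ofFn] at hp
        obtain ⟨i, rfl⟩ := hp
        exact hs i
    have hpt : (List.ofFn t).Perm (Nat.primeFactorsList (∏ i, t i)) := by
      apply Nat.primeFactorsList_unique
      · rw [List.prod_ofFn]
      · intro p hp
        rw [List.mem_ofFn] at hp
        obtain ⟨i, rfl⟩ := hp
        exact ht i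
    rw [h] at hps
    exact hps.trans hpt.symm
  have h2 : s ∘ Tuple.sort s = t ∘ Tuple.sort t := by
    apply List.ofFn_injective
    have h3 := (((Tuple.sort s).ofFn_comp_perm s).trans h1).trans
      ((Tuple.sort t).ofFn_comp_perm t).symm
    exact h3.eq_of_pairwise' (Tuple.monotone_sort s).sortedLE_ofFn.pairwise
      (Tuple.monotone_sort t).sortedLE_ofFn.pairwise
  refine ⟨(Tuple.sort s).symm.trans (Tuple.sort t), ?_⟩
  funext i
  have := congrFun h2 ((Tuple.sort s).symm i)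
  simpa using this

/-- At most `k!` tuples of `k` primes have a given product. -/
theorem card_tuples_le {k : ℕ} (P : Finset ℕ) (hP : ∀ q ∈ P, q.Prime) (n : ℕ) :
    #{t ∈ Fintype.piFinset (fun _ : Fin k => P) | ∏ i, t i = n} ≤ k.factorial := by
  classical
  rcases Finset.eq_empty_or_nonempty
    ({t ∈ Fintype.piFinset (fun _ : Fin k => P) | ∏ i, t i = n}) with h | ⟨t0, h0⟩
  · rw [h]; simp
  · have hsub : ({t ∈ Fintype.piFinset (fun _ : Fin k => P) | ∏ i, t i = n}) ⊆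
        (univ : Finset (Equiv.Perm (Fin k))).image (fun σ : Equiv.Perm (Fin k) => t0 ∘ ⇑σ) := by
      intro t ht
      rw [mem_filter, Fintype.mem_piFinset] at ht h0
      obtain ⟨σ, hσ⟩ := exists_perm_of_prod_eq t t0 (fun i => hP _ (ht.1 i))
        (fun i => hP _ (h0.1 i)) (ht.2.trans h0.2.symm)
      rw [mem_image]
      exact ⟨σ, mem_univ _, hσ.symm⟩
    refine (card_le_card hsub).trans (card_image_le.trans ?_)
    rw [Finset.card_univ, Fintype.card_perm, Fintype.card_fin]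

theorem map_prod_tuple {g : ℕ → ℂ} (g1 : g 1 = 1) (gm : ∀ a b, g (a * b) = g a * g b)
    {k : ℕ} (t : Fin k → ℕ) : ∏ i, g (t i) = g (∏ i, t i) := by
  let G : ℕ →* ℂ := { toFun := g, map_one' := g1, map_mul' := gm }
  exact (map_prod G t univ).symm

/-- The k-th power trick: a power of a prime sum as a sum over integers. -/
theorem sum_pow_eq {g : ℕ → ℂ} (g1 : g 1 = 1) (gm : ∀ a b, g (a * b) = g a * g b)
    (P S : Finset ℕ) (k : ℕ)
    (hmaps : ∀ t ∈ Fintype.piFinset (fun _ : Fin k => P), ∏ i, t i ∈ S) :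
    (∑ q ∈ P, g q) ^ k = ∑ n ∈ S,
      (#{t ∈ Fintype.piFinset (fun _ : Fin k => P) | ∏ i, t i = n} : ℂ) * g n := by
  classical
  rw [Finset.sum_pow']
  rw [← Finset.sum_fiberwise_of_maps_to hmaps]
  refine Finset.sum_congr rfl fun n _ => ?_
  have : ∀ t ∈ (Fintype.piFinset (fun _ : Fin k => P)).filter (fun t => ∏ i, t i = n),
      ∏ i, g (t i) = g n := by
    intro t ht
    rw [mem_filter] at ht
    rw [map_prod_tuple g1 gm, ht.2]
  rw [Finset.sum_congr rfl this, Finset.sum_const, nsmul_eq_mul]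

/-- Halasz-Montgomery duality combined with the k-th power trick. -/
theorem duality_bound {ι : Type*} (X : Finset ι) (f : ι → ℕ → ℂ) (P S : Finset ℕ) (k : ℕ)
    (V W : ℝ) (hP : ∀ q ∈ P, q.Prime)
    (hmaps : ∀ t ∈ Fintype.piFinset (fun _ : Fin k => P), ∏ i, t i ∈ S)
    (f1 : ∀ i ∈ X, f i 1 = 1) (fm : ∀ i ∈ X, ∀ a b, f i (a * b) = f i a * f i b)
    (fb : ∀ i ∈ X, ∀ n, ‖f i n‖ ≤ 1) (hV0 : 0 ≤ V) (hW0 : 0 ≤ W)
    (hV : ∀ i ∈ X, V ≤ ‖∑ q ∈ P, f i q‖)
    (hW : ∀ i ∈ X, ∀ j ∈ X, i ≠ j →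
      ‖∑ n ∈ S, f i n * conj (f j n)‖ ≤ W) :
    (#X : ℝ) * V ^ (2 * k) ≤
      (k.factorial : ℝ) * (#P : ℝ) ^ k * ((#S : ℝ) + (#X : ℝ) * W) := by
  classical
  set r : ℕ → ℝ := fun n => (#{t ∈ Fintype.piFinset (fun _ : Fin k => P) | ∏ i, t i = n} : ℝ)
    with hr
  rcases Nat.eq_zero_or_pos (#X) with h0 | hpos
  · rw [h0]
    simp only [Nat.cast_zero, zero_mul, add_zero]
    (clear * -; positivity)
  have hXpos : (0 : ℝ) < #X := by exact_mod_cast hpos
  -- unimodular factors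
  have hu : ∀ z : ℂ, ∃ u : ℂ, ‖u‖ = 1 ∧ u * z = ‖z‖ := by
    intro z
    rcases eq_or_ne z 0 with rfl | hz
    · exact ⟨1, by simp, by simp⟩
    · refine ⟨conj z / ‖z‖, ?_, ?_⟩
      · simp [hz]
      · rw [div_mul_eq_mul_div, mul_comm, Complex.mul_conj, Complex.normSq_eq_norm_sq]
        have : (‖z‖ : ℂ) ≠ 0 := by exact_mod_cast (norm_ne_zero_iff.mpr hz)
        field_simp
        push_cast
        ring
  choose u hu1 hu2 using fun i => hu ((∑ q ∈ P, f i q) ^ k)
  set g : ℕ → ℂ := fun n => ∑ i ∈ X, u i * f i n with hg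
  -- first inequality
  have hA : (#X : ℝ) * V ^ k ≤ ‖∑ n ∈ S, (r n : ℂ) * g n‖ := by
    have e1 : ∑ n ∈ S, (r n : ℂ) * g n = ∑ i ∈ X, ((‖(∑ q ∈ P, f i q) ^ k‖ : ℝ) : ℂ) := by
      simp only [hg, Finset.mul_sum]
      rw [Finset.sum_comm]
      refine Finset.sum_congr rfl fun i hi => ?_
      rw [← hu2 i, sum_pow_eq (f1 i hi) (fm i hi) P S k hmaps, Finset.mul_sum]
      refine Finset.sum_congr rfl fun n _ => ?_
      simp only [hr]
      push_cast
      ring
    rw [e1, ← Complex.ofReal_sum, Complex.norm_real, Real.norm_eq_abs,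
      abs_of_nonneg (Finset.sum_nonneg fun i _ => norm_nonneg _)]
    rw [← nsmul_eq_mul, ← Finset.sum_const]
    refine Finset.sum_le_sum fun i hi => ?_
    rw [norm_pow]
    exact pow_le_pow_left₀ hV0 (hV i hi) k
  -- Cauchy-Schwarz
  have hB : ‖∑ n ∈ S, (r n : ℂ) * g n‖ ^ 2 ≤
      (∑ n ∈ S, r n ^ 2) * ∑ n ∈ S, ‖g n‖ ^ 2 := by
    have h1 : ‖∑ n ∈ S, (r n : ℂ) * g n‖ ≤ ∑ n ∈ S, r n * ‖g n‖ := by
      refine (norm_sum_le _ _).trans (Finset.sum_le_sum fun n _ => ?_)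
      rw [norm_mul, Complex.norm_real, Real.norm_eq_abs, abs_of_nonneg (by simp only [hr, Nat.cast_nonneg])]
    calc ‖∑ n ∈ S, (r n : ℂ) * g n‖ ^ 2 ≤ (∑ n ∈ S, r n * ‖g n‖) ^ 2 :=
          pow_le_pow_left₀ (norm_nonneg _) h1 2
      _ ≤ _ := Finset.sum_mul_sq_le_sq_mul_sq _ _ _
  -- second moment of r
  have hR : ∑ n ∈ S, r n ^ 2 ≤ (k.factorial : ℝ) * (#P : ℝ) ^ k := by
    have hsum : ∑ n ∈ S, r n = (#P : ℝ) ^ k := by
      have := Finset.card_eq_sum_card_fiberwise (f := fun t : Fin k → ℕ => ∏ i, t i) hmaps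
      simp only [hr]
      rw [← Nat.cast_sum, ← this, Fintype.card_piFinset]
      simp only [prod_const, card_univ, Fintype.card_fin, Nat.cast_pow]
    calc ∑ n ∈ S, r n ^ 2 ≤ ∑ n ∈ S, (k.factorial : ℝ) * r n := by
          refine Finset.sum_le_sum fun n _ => ?_
          rw [sq]
          refine mul_le_mul_of_nonneg_right ?_ (by simp only [hr, Nat.cast_nonneg])
          simp only [hr]
          exact_mod_cast card_tuples_le P hP n
      _ = (k.factorial : ℝ) * (#P : ℝ) ^ k := by rw [← Finset.mul_sum, hsum]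
  -- second moment of g
  have hG : ∑ n ∈ S, ‖g n‖ ^ 2 ≤ (#X : ℝ) * (#S : ℝ) + (#X : ℝ) ^ 2 * W := by
    have e2 : ((∑ n ∈ S, ‖g n‖ ^ 2 : ℝ) : ℂ) =
        ∑ i ∈ X, ∑ j ∈ X, (u i * conj (u j)) * ∑ n ∈ S, f i n * conj (f j n) := by
      push_cast
      have : ∀ n ∈ S, ((‖g n‖ : ℂ)) ^ 2 =
          ∑ i ∈ X, ∑ j ∈ X, (u i * conj (u j)) * (f i n * conj (f j n)) := by
        intro n _
        rw [← Complex.ofReal_pow, ← Complex.normSq_eq_norm_sq, ← Complex.mul_conj]
        simp only [hg, map_sum, map_mul, sum_mul_sum]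
        refine Finset.sum_congr rfl fun i _ => Finset.sum_congr rfl fun j _ => ?_
        ring
      rw [Finset.sum_congr rfl this, Finset.sum_comm]
      refine Finset.sum_congr rfl fun i _ => ?_
      rw [Finset.sum_comm]
      refine Finset.sum_congr rfl fun j _ => ?_
      rw [Finset.mul_sum]
    have h3 : ∑ n ∈ S, ‖g n‖ ^ 2 =
        ‖∑ i ∈ X, ∑ j ∈ X, (u i * conj (u j)) * ∑ n ∈ S, f i n * conj (f j n)‖ := by
      rw [← e2, Complex.norm_real, Real.norm_eq_abs, abs_of_nonneg (by (clear * -; positivity))]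
    rw [h3]
    have h4 : ∀ i ∈ X, ∀ j ∈ X,
        ‖(u i * conj (u j)) * ∑ n ∈ S, f i n * conj (f j n)‖ ≤
          (if i = j then (#S : ℝ) else 0) + W := by
      intro i hi j hj
      rw [norm_mul, norm_mul, RCLike.norm_conj, hu1, hu1, one_mul, one_mul]
      split_ifs with hij
      · subst hij
        calc ‖∑ n ∈ S, f i n * conj (f i n)‖ ≤ ∑ n ∈ S, (1 : ℝ) := by
              refine (norm_sum_le _ _).trans (Finset.sum_le_sum fun n _ => ?_)
              rw [norm_mul, RCLike.norm_conj]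
              exact mul_le_one₀ (fb i hi n) (norm_nonneg _) (fb i hi n)
          _ = (#S : ℝ) := by simp
          _ ≤ (#S : ℝ) + W := by linarith only [hW0]
      · rw [zero_add]
        exact hW i hi j hj hij
    calc ‖∑ i ∈ X, ∑ j ∈ X, (u i * conj (u j)) * ∑ n ∈ S, f i n * conj (f j n)‖
        ≤ ∑ i ∈ X, ∑ j ∈ X, ((if i = j then (#S : ℝ) else 0) + W) := by
          refine (norm_sum_le _ _).trans (Finset.sum_le_sum fun i hi => ?_)
          exact (norm_sum_le _ _).trans (Finset.sum_le_sum fun j hj => h4 i hi j hj)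
      _ = (#X : ℝ) * (#S : ℝ) + (#X : ℝ) ^ 2 * W := by
          simp only [Finset.sum_add_distrib, Finset.sum_ite_eq, Finset.sum_const, nsmul_eq_mul]
          rw [Finset.sum_congr rfl (fun i (hi : i ∈ X) => if_pos hi)]
          simp only [Finset.sum_const, nsmul_eq_mul]
          ring
  have hfin : ((#X : ℝ) * V ^ k) ^ 2 ≤ ((k.factorial : ℝ) * (#P : ℝ) ^ k) *
      ((#X : ℝ) * (#S : ℝ) + (#X : ℝ) ^ 2 * W) := by
    calc ((#X : ℝ) * V ^ k) ^ 2 ≤ ‖∑ n ∈ S, (r n : ℂ) * g n‖ ^ 2 :=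
          pow_le_pow_left₀ (by (clear * - hpos hV0; positivity)) hA 2
      _ ≤ _ := hB
      _ ≤ _ := mul_le_mul hR hG (Finset.sum_nonneg fun n _ => by (clear * -; positivity)) (by (clear * -; positivity))
  have : (#X : ℝ) * ((#X : ℝ) * V ^ (2 * k)) ≤
      (#X : ℝ) * ((k.factorial : ℝ) * (#P : ℝ) ^ k * ((#S : ℝ) + (#X : ℝ) * W)) := by
    calc (#X : ℝ) * ((#X : ℝ) * V ^ (2 * k)) = ((#X : ℝ) * V ^ k) ^ 2 := by ring
      _ ≤ _ := hfin
      _ = _ := by ring
  exact le_of_mul_le_mul_left this hXpos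

/-- The form used in the main argument. -/
lemma HM {ι : Type*} (Q : Finset ℕ) (hQ : ∀ q ∈ Q, q.Prime) (k N Y : ℕ) (hY : ∀ q ∈ Q, q ≤ Y)
    (hN : Y ^ k < N) (X : Finset ι) (ψ : ι → ℕ → ℂ) (h1 : ∀ i ∈ X, ψ i 1 = 1)
    (hmul : ∀ i ∈ X, ∀ m n, ψ i (m * n) = ψ i m * ψ i n) (hb : ∀ i ∈ X, ∀ n, ‖ψ i n‖ ≤ 1)
    (B : ℝ) (hB : 0 ≤ B)
    (horth : ∀ i ∈ X, ∀ j ∈ X, i ≠ j →
      ‖∑ n ∈ range N, ψ i n * (starRingEnd ℂ) (ψ j n)‖ ≤ B)
    (ε : ℝ) (hε : 0 ≤ ε) (hS : ∀ i ∈ X, ε * Q.card ≤ ‖∑ q ∈ Q, ψ i q‖) :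
    (X.card : ℝ) * (ε ^ 2 * Q.card) ^ k ≤ (k.factorial : ℝ) * (N + X.card * B) := by
  have hmaps : ∀ t ∈ Fintype.piFinset (fun _ : Fin k => Q), ∏ i, t i ∈ range N := by
    intro t ht
    rw [Fintype.mem_piFinset] at ht
    rw [mem_range]
    refine lt_of_le_of_lt ?_ hN
    calc ∏ i, t i ≤ ∏ _i : Fin k, Y := Finset.prod_le_prod' fun i _ => hY _ (ht i)
      _ = Y ^ k := by simp only [prod_const, card_univ, Fintype.card_fin]
  have h := duality_bound X ψ Q (range N) k (ε * Q.card) B hQ hmaps h1 hmul hb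
    (by (clear * - hε; positivity)) hB hS horth
  rw [card_range] at h
  rcases Nat.eq_zero_or_pos k with rfl | hk
  · simpa only [pow_zero, mul_one, Nat.factorial_zero, Nat.cast_one, one_mul, ge_iff_le, mul_zero] using h
  rcases Nat.eq_zero_or_pos (#Q) with h0 | hpos
  · rw [h0]
    simp only [Nat.cast_zero, mul_zero]
    rw [zero_pow hk.ne', mul_zero]
    (clear * - hB; positivity)
  have hQpos : (0 : ℝ) < (#Q : ℝ) ^ k := by
    have : (0 : ℝ) < #Q := by exact_mod_cast hpos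
    (clear * - hpos; positivity)
  refine le_of_mul_le_mul_right ?_ hQpos
  calc (X.card : ℝ) * (ε ^ 2 * Q.card) ^ k * (#Q : ℝ) ^ k
      = (X.card : ℝ) * (ε * Q.card) ^ (2 * k) := by
        rw [pow_mul, mul_assoc, ← mul_pow]
        ring
    _ ≤ _ := h
    _ = _ := by ring

end Vale.Agent.P016
end
end

section

section

open Finset
open scoped ComplexConjugate

namespace Vale.Agent.P016

/-- Weighted power mean inequality. -/
lemma weighted_pow_le {ι : Type*} (X : Finset ι) (w s : ι → ℝ) (hw : ∀ i ∈ X, 0 ≤ w i)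
    (hs : ∀ i ∈ X, 0 ≤ s i) (k : ℕ) (hk : 1 ≤ k) :
    (∑ i ∈ X, w i * s i) ^ k ≤ (∑ i ∈ X, w i) ^ (k - 1) * ∑ i ∈ X, w i * s i ^ k := by
  rcases (Finset.sum_nonneg hw).eq_or_lt with h | h
  · have h0 : ∀ i ∈ X, w i = 0 := (Finset.sum_eq_zero_iff_of_nonneg hw).1 h.symm
    have h1 : ∑ i ∈ X, w i * s i = 0 := Finset.sum_eq_zero fun i hi => by rw [h0 i hi, zero_mul]
    have h2 : ∑ i ∈ X, w i * s i ^ k = 0 :=
      Finset.sum_eq_zero fun i hi => by rw [h0 i hi, zero_mul]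
    rw [h1, h2, zero_pow (by omega), mul_zero]
  · set V := ∑ i ∈ X, w i with hV
    have h1 := Real.pow_arith_mean_le_arith_mean_pow X (fun i => w i / V) s
      (fun i hi => div_nonneg (hw i hi) h.le)
      (by rw [← Finset.sum_div, ← hV, div_self h.ne']) hs k
    have h2 : ∑ i ∈ X, w i / V * s i = (∑ i ∈ X, w i * s i) / V := by
      rw [Finset.sum_div]
      exact Finset.sum_congr rfl fun i _ => by ring
    have h3 : ∑ i ∈ X, w i / V * s i ^ k = (∑ i ∈ X, w i * s i ^ k) / V := by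
      rw [Finset.sum_div]
      exact Finset.sum_congr rfl fun i _ => by ring
    rw [h2, h3, div_pow, div_le_div_iff₀ (by positivity) h] at h1
    have h4 : V ^ k = V ^ (k - 1) * V := by
      rw [← pow_succ]
      congr 1
      omega
    rw [h4] at h1
    have h5 : (∑ i ∈ X, w i * s i) ^ k * V ≤ (V ^ (k - 1) * ∑ i ∈ X, w i * s i ^ k) * V := by
      linarith only [h1]
    exact le_of_mul_le_mul_right h5 h

/-- Duality with weights: a bound for the `k`-th power mean. -/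
theorem duality_weighted {ι : Type*} (X : Finset ι) (w : ι → ℝ) (f : ι → ℕ → ℂ) (P S : Finset ℕ)
    (k : ℕ) (W : ℝ) (hP : ∀ q ∈ P, q.Prime) (hw : ∀ i ∈ X, 0 ≤ w i)
    (hmaps : ∀ t ∈ Fintype.piFinset (fun _ : Fin k => P), ∏ i, t i ∈ S)
    (f1 : ∀ i ∈ X, f i 1 = 1) (fm : ∀ i ∈ X, ∀ a b, f i (a * b) = f i a * f i b)
    (fb : ∀ i ∈ X, ∀ n, ‖f i n‖ ≤ 1) (hW0 : 0 ≤ W)
    (hW : ∀ i ∈ X, ∀ j ∈ X, i ≠ j →
      ‖∑ n ∈ S, f i n * conj (f j n)‖ ≤ W) :
    (∑ i ∈ X, w i * ‖∑ q ∈ P, f i q‖ ^ k) ^ 2 ≤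
      (k.factorial : ℝ) * (#P : ℝ) ^ k *
        ((#S : ℝ) * ∑ i ∈ X, w i ^ 2 + (∑ i ∈ X, w i) ^ 2 * W) := by
  classical
  set r : ℕ → ℝ := fun n => (#{t ∈ Fintype.piFinset (fun _ : Fin k => P) | ∏ i, t i = n} : ℝ)
    with hr
  -- unimodular factors
  have hu : ∀ z : ℂ, ∃ u : ℂ, ‖u‖ = 1 ∧ u * z = ‖z‖ := by
    intro z
    rcases eq_or_ne z 0 with rfl | hz
    · exact ⟨1, by simp, by simp⟩
    · refine ⟨conj z / ‖z‖, ?_, ?_⟩
      · simp [hz]
      · rw [div_mul_eq_mul_div, mul_comm, Complex.mul_conj, Complex.normSq_eq_norm_sq]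
        have : (‖z‖ : ℂ) ≠ 0 := by exact_mod_cast (norm_ne_zero_iff.mpr hz)
        field_simp
        push_cast
        ring
  choose u hu1 hu2 using fun i => hu ((∑ q ∈ P, f i q) ^ k)
  set g : ℕ → ℂ := fun n => ∑ i ∈ X, (w i : ℂ) * u i * f i n with hg
  -- first identity
  have hA : ∑ i ∈ X, w i * ‖∑ q ∈ P, f i q‖ ^ k = ‖∑ n ∈ S, (r n : ℂ) * g n‖ := by
    have e1 : ∑ n ∈ S, (r n : ℂ) * g n =
        ∑ i ∈ X, ((w i * ‖∑ q ∈ P, f i q‖ ^ k : ℝ) : ℂ) := by
      simp only [hg, Finset.mul_sum]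
      rw [Finset.sum_comm]
      refine Finset.sum_congr rfl fun i hi => ?_
      have e2 := hu2 i
      rw [norm_pow] at e2
      push_cast at e2 ⊢
      rw [← e2, sum_pow_eq (f1 i hi) (fm i hi) P S k hmaps, Finset.mul_sum, Finset.mul_sum]
      refine Finset.sum_congr rfl fun n _ => ?_
      simp only [hr]
      push_cast
      ring
    rw [e1, ← Complex.ofReal_sum, Complex.norm_real, Real.norm_eq_abs,
      abs_of_nonneg (Finset.sum_nonneg fun i hi => mul_nonneg (hw i hi) (by (clear * -; positivity)))]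
  -- Cauchy-Schwarz
  have hB : ‖∑ n ∈ S, (r n : ℂ) * g n‖ ^ 2 ≤
      (∑ n ∈ S, r n ^ 2) * ∑ n ∈ S, ‖g n‖ ^ 2 := by
    have h1 : ‖∑ n ∈ S, (r n : ℂ) * g n‖ ≤ ∑ n ∈ S, r n * ‖g n‖ := by
      refine (norm_sum_le _ _).trans (Finset.sum_le_sum fun n _ => ?_)
      rw [norm_mul, Complex.norm_real, Real.norm_eq_abs, abs_of_nonneg (by simp only [hr, Nat.cast_nonneg])]
    calc ‖∑ n ∈ S, (r n : ℂ) * g n‖ ^ 2 ≤ (∑ n ∈ S, r n * ‖g n‖) ^ 2 :=
          pow_le_pow_left₀ (norm_nonneg _) h1 2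
      _ ≤ _ := Finset.sum_mul_sq_le_sq_mul_sq _ _ _
  -- second moment of r
  have hR : ∑ n ∈ S, r n ^ 2 ≤ (k.factorial : ℝ) * (#P : ℝ) ^ k := by
    have hsum : ∑ n ∈ S, r n = (#P : ℝ) ^ k := by
      have := Finset.card_eq_sum_card_fiberwise (f := fun t : Fin k → ℕ => ∏ i, t i) hmaps
      simp only [hr]
      rw [← Nat.cast_sum, ← this, Fintype.card_piFinset]
      simp only [prod_const, card_univ, Fintype.card_fin, Nat.cast_pow]
    calc ∑ n ∈ S, r n ^ 2 ≤ ∑ n ∈ S, (k.factorial : ℝ) * r n := by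
          refine Finset.sum_le_sum fun n _ => ?_
          rw [sq]
          refine mul_le_mul_of_nonneg_right ?_ (by simp only [hr, Nat.cast_nonneg])
          simp only [hr]
          exact_mod_cast card_tuples_le P hP n
      _ = (k.factorial : ℝ) * (#P : ℝ) ^ k := by rw [← Finset.mul_sum, hsum]
  -- second moment of g
  have hG : ∑ n ∈ S, ‖g n‖ ^ 2 ≤
      (#S : ℝ) * ∑ i ∈ X, w i ^ 2 + (∑ i ∈ X, w i) ^ 2 * W := by
    have e2 : ((∑ n ∈ S, ‖g n‖ ^ 2 : ℝ) : ℂ) =
        ∑ i ∈ X, ∑ j ∈ X, ((w i : ℂ) * w j * (u i * conj (u j))) *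
          ∑ n ∈ S, f i n * conj (f j n) := by
      push_cast
      have : ∀ n ∈ S, ((‖g n‖ : ℂ)) ^ 2 =
          ∑ i ∈ X, ∑ j ∈ X, ((w i : ℂ) * w j * (u i * conj (u j))) * (f i n * conj (f j n)) := by
        intro n _
        rw [← Complex.ofReal_pow, ← Complex.normSq_eq_norm_sq, ← Complex.mul_conj]
        simp only [hg, map_sum, map_mul, Complex.conj_ofReal, sum_mul_sum]
        refine Finset.sum_congr rfl fun i _ => Finset.sum_congr rfl fun j _ => ?_
        ring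
      rw [Finset.sum_congr rfl this, Finset.sum_comm]
      refine Finset.sum_congr rfl fun i _ => ?_
      rw [Finset.sum_comm]
      refine Finset.sum_congr rfl fun j _ => ?_
      rw [Finset.mul_sum]
    have h3 : ∑ n ∈ S, ‖g n‖ ^ 2 =
        ‖∑ i ∈ X, ∑ j ∈ X, ((w i : ℂ) * w j * (u i * conj (u j))) *
          ∑ n ∈ S, f i n * conj (f j n)‖ := by
      rw [← e2, Complex.norm_real, Real.norm_eq_abs, abs_of_nonneg (by (clear * -; positivity))]
    rw [h3]
    have h4 : ∀ i ∈ X, ∀ j ∈ X,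
        ‖((w i : ℂ) * w j * (u i * conj (u j))) * ∑ n ∈ S, f i n * conj (f j n)‖ ≤
          (if i = j then (#S : ℝ) * w i ^ 2 else 0) + w i * w j * W := by
      intro i hi j hj
      have hwi := hw i hi
      have hwj := hw j hj
      rw [norm_mul, norm_mul, norm_mul, norm_mul, RCLike.norm_conj, hu1, hu1, Complex.norm_real,
        Complex.norm_real, Real.norm_eq_abs, Real.norm_eq_abs, abs_of_nonneg hwi,
        abs_of_nonneg hwj, one_mul, mul_one]
      split_ifs with hij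
      · subst hij
        have h5 : ‖∑ n ∈ S, f i n * conj (f i n)‖ ≤ (#S : ℝ) := by
          calc ‖∑ n ∈ S, f i n * conj (f i n)‖ ≤ ∑ n ∈ S, (1 : ℝ) := by
                refine (norm_sum_le _ _).trans (Finset.sum_le_sum fun n _ => ?_)
                rw [norm_mul, RCLike.norm_conj]
                exact mul_le_one₀ (fb i hi n) (norm_nonneg _) (fb i hi n)
            _ = (#S : ℝ) := by simp
        have h6 : w i * w i * ‖∑ n ∈ S, f i n * conj (f i n)‖ ≤ w i * w i * (#S : ℝ) :=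
          mul_le_mul_of_nonneg_left h5 (by (clear * - hwi; positivity))
        have h7 : 0 ≤ w i * w i * W := by (clear * - hwi hW0; positivity)
        linarith only [h6, h7]
      · rw [zero_add]
        exact mul_le_mul_of_nonneg_left (hW i hi j hj hij) (by (clear * - hwi hwj; positivity))
    calc ‖∑ i ∈ X, ∑ j ∈ X, ((w i : ℂ) * w j * (u i * conj (u j))) *
            ∑ n ∈ S, f i n * conj (f j n)‖
        ≤ ∑ i ∈ X, ∑ j ∈ X, ((if i = j then (#S : ℝ) * w i ^ 2 else 0) + w i * w j * W) := by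
          refine (norm_sum_le _ _).trans (Finset.sum_le_sum fun i hi => ?_)
          exact (norm_sum_le _ _).trans (Finset.sum_le_sum fun j hj => h4 i hi j hj)
      _ = (#S : ℝ) * ∑ i ∈ X, w i ^ 2 + (∑ i ∈ X, w i) ^ 2 * W := by
          simp only [Finset.sum_add_distrib, Finset.sum_ite_eq]
          rw [Finset.sum_congr rfl (fun i (hi : i ∈ X) => if_pos hi), ← Finset.mul_sum, sq,
            Finset.sum_mul_sum, Finset.sum_mul]
          congr 1
          refine Finset.sum_congr rfl fun i _ => ?_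
          rw [Finset.sum_mul]
  rw [hA]
  refine hB.trans ?_
  exact mul_le_mul hR hG (Finset.sum_nonneg fun n _ => by (clear * -; positivity)) (by (clear * -; positivity))

/-- The `L¹` form used in the main argument. -/
theorem L1HM {ι : Type*} (Q : Finset ℕ) (hQ : ∀ q ∈ Q, q.Prime) (k N Y : ℕ) (hk : 1 ≤ k)
    (hY : ∀ q ∈ Q, q ≤ Y)
    (hN : Y ^ k < N) (X : Finset ι) (w : ι → ℝ) (hw : ∀ i ∈ X, 0 ≤ w i) (χ : ι → ℕ → ℂ)
    (h1 : ∀ i ∈ X, χ i 1 = 1)
    (hmul : ∀ i ∈ X, ∀ m n, χ i (m * n) = χ i m * χ i n) (hb : ∀ i ∈ X, ∀ n, ‖χ i n‖ ≤ 1)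
    (B : ℝ) (hB : 0 ≤ B)
    (horth : ∀ i ∈ X, ∀ j ∈ X, i ≠ j →
      ‖∑ n ∈ range N, χ i n * (starRingEnd ℂ) (χ j n)‖ ≤ B) :
    (∑ i ∈ X, w i * ‖∑ q ∈ Q, χ i q‖) ^ (2 * k) ≤
      (∑ i ∈ X, w i) ^ (2 * k - 2) * ((k.factorial : ℝ) * (#Q : ℝ) ^ k *
        ((N : ℝ) * ∑ i ∈ X, w i ^ 2 + (∑ i ∈ X, w i) ^ 2 * B)) := by
  have hmaps : ∀ t ∈ Fintype.piFinset (fun _ : Fin k => Q), ∏ i, t i ∈ range N := by
    intro t ht
    rw [Fintype.mem_piFinset] at ht
    rw [mem_range]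
    refine lt_of_le_of_lt ?_ hN
    calc ∏ i, t i ≤ ∏ _i : Fin k, Y := Finset.prod_le_prod' fun i _ => hY _ (ht i)
      _ = Y ^ k := by simp only [prod_const, card_univ, Fintype.card_fin]
  have h := duality_weighted X w χ Q (range N) k B hQ hw hmaps h1 hmul hb hB horth
  rw [card_range] at h
  have hpm := weighted_pow_le X w (fun i => ‖∑ q ∈ Q, χ i q‖) hw (fun i _ => norm_nonneg _) k hk
  have hV0 : 0 ≤ ∑ i ∈ X, w i := Finset.sum_nonneg hw
  calc (∑ i ∈ X, w i * ‖∑ q ∈ Q, χ i q‖) ^ (2 * k)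
      = ((∑ i ∈ X, w i * ‖∑ q ∈ Q, χ i q‖) ^ k) ^ 2 := by rw [← pow_mul, mul_comm]
    _ ≤ ((∑ i ∈ X, w i) ^ (k - 1) * ∑ i ∈ X, w i * ‖∑ q ∈ Q, χ i q‖ ^ k) ^ 2 := by
        refine pow_le_pow_left₀ ?_ hpm 2
        exact pow_nonneg (Finset.sum_nonneg fun i hi => mul_nonneg (hw i hi) (norm_nonneg _)) k
    _ = (∑ i ∈ X, w i) ^ (2 * k - 2) * (∑ i ∈ X, w i * ‖∑ q ∈ Q, χ i q‖ ^ k) ^ 2 := by
        rw [mul_pow, ← pow_mul]
        congr 2
        omega
    _ ≤ _ := mul_le_mul_of_nonneg_left h (by (clear * - hV0; positivity))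

end Vale.Agent.P016
end
end

section

section

open Finset
open scoped ComplexConjugate

namespace Vale.Agent.P016

/-- The number of ordered factorizations of `n` into `k` factors is at most `k ^ Ω(n)`. -/
lemma card_finMul_le (k : ℕ) (n : ℕ) (hn : n ≠ 0) :
    #(Nat.finMulAntidiag k n) ≤ k ^ (ArithmeticFunction.cardFactors n) := by
  induction n using induction_on_primes with
  | zero => exact absurd rfl hn
  | one => simp only [Nat.finMulAntidiag_one, card_singleton, ArithmeticFunction.cardFactors_one, pow_zero, Std.le_refl]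
  | prime_mul p a hp ih =>
    have ha : a ≠ 0 := by
      rintro rfl
      exact hn (mul_zero p)
    have ih' := ih ha
    classical
    have hex : ∀ f ∈ Nat.finMulAntidiag k (p * a), ∃ i : Fin k, p ∣ f i := by
      intro f hf
      rw [Nat.mem_finMulAntidiag] at hf
      have h1 : p ∣ ∏ i, f i := by rw [hf.1]; exact dvd_mul_right p a
      obtain ⟨i, -, hi⟩ := (Prime.dvd_finsetProd_iff hp.prime f).1 h1
      exact ⟨i, hi⟩
    rcases Nat.eq_zero_or_pos k with hk0 | hk0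
    · subst hk0
      have : Nat.finMulAntidiag 0 (p * a) = ∅ := by
        apply Nat.finMulAntidiag_zero_left
        intro h
        exact hp.one_lt.ne' (Nat.eq_one_of_mul_eq_one_right h)
      rw [this]
      simp only [card_empty, zero_le]
    have : Nonempty (Fin k) := ⟨⟨0, hk0⟩⟩
    choose! I hI using hex
    have hcard : #(Nat.finMulAntidiag k (p * a)) ≤
        #((Finset.univ : Finset (Fin k)) ×ˢ Nat.finMulAntidiag k a) := by
      refine Finset.card_le_card_of_injOn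
        (fun f => (I f, Function.update f (I f) (f (I f) / p))) ?_ ?_
      · intro f hf
        have hf' := Finset.mem_coe.1 hf
        have hdvd := hI f hf'
        rw [Nat.mem_finMulAntidiag] at hf'
        simp only [Finset.coe_product, Set.mem_prod, Finset.mem_coe, Finset.mem_univ, true_and]
        rw [Nat.mem_finMulAntidiag]
        refine ⟨?_, ha⟩
        have h1 := Finset.prod_update_of_mem (Finset.mem_univ (I f)) f (f (I f) / p)
        rw [h1]
        have h2 : f (I f) * ∏ x ∈ Finset.univ \ {I f}, f x = p * a := by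
          rw [← hf'.1]
          rw [← Finset.prod_sdiff (Finset.singleton_subset_iff.2 (Finset.mem_univ (I f))),
            Finset.prod_singleton, mul_comm]
        obtain ⟨c, hc⟩ := hdvd
        rw [hc] at h2 ⊢
        rw [Nat.mul_div_cancel_left c hp.pos]
        have h3 : p * (c * ∏ x ∈ Finset.univ \ {I f}, f x) = p * a := by rw [← h2]; ring
        exact Nat.eq_of_mul_eq_mul_left hp.pos h3
      · intro f hf g hg hfg
        have hf' := hI f (Finset.mem_coe.1 hf)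
        have hg' := hI g (Finset.mem_coe.1 hg)
        simp only [Prod.mk.injEq] at hfg
        obtain ⟨h1, h2⟩ := hfg
        rw [← h1] at h2 hg'
        funext j
        by_cases hj : j = I f
        · have h3 := congrFun h2 (I f)
          rw [Function.update_self, Function.update_self] at h3
          rw [hj]
          calc f (I f) = f (I f) / p * p := (Nat.div_mul_cancel hf').symm
            _ = g (I f) / p * p := by rw [h3]
            _ = g (I f) := Nat.div_mul_cancel hg'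
        · have h3 := congrFun h2 j
          rw [Function.update_of_ne hj, Function.update_of_ne hj] at h3
          exact h3
    refine hcard.trans ?_
    rw [Finset.card_product, Finset.card_univ, Fintype.card_fin]
    rw [ArithmeticFunction.cardFactors_mul hp.ne_zero ha,
      ArithmeticFunction.cardFactors_apply_prime hp, pow_add, pow_one]
    exact Nat.mul_le_mul_left k ih'

/-- Duality with weights, general sets of integers with bounded multiplicity. -/
theorem duality_weighted_gen {ι : Type*} (X : Finset ι) (w : ι → ℝ) (f : ι → ℕ → ℂ) (P S : Finset ℕ)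
    (k : ℕ) (W R : ℝ)
    (hP : ∀ n, (#{t ∈ Fintype.piFinset (fun _ : Fin k => P) | ∏ i, t i = n} : ℝ) ≤ R) (hw : ∀ i ∈ X, 0 ≤ w i)
    (hmaps : ∀ t ∈ Fintype.piFinset (fun _ : Fin k => P), ∏ i, t i ∈ S)
    (f1 : ∀ i ∈ X, f i 1 = 1) (fm : ∀ i ∈ X, ∀ a b, f i (a * b) = f i a * f i b)
    (fb : ∀ i ∈ X, ∀ n, ‖f i n‖ ≤ 1) (hW0 : 0 ≤ W)
    (hW : ∀ i ∈ X, ∀ j ∈ X, i ≠ j →
      ‖∑ n ∈ S, f i n * conj (f j n)‖ ≤ W) :
    (∑ i ∈ X, w i * ‖∑ q ∈ P, f i q‖ ^ k) ^ 2 ≤
      R * (#P : ℝ) ^ k *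
        ((#S : ℝ) * ∑ i ∈ X, w i ^ 2 + (∑ i ∈ X, w i) ^ 2 * W) := by
  classical
  set r : ℕ → ℝ := fun n => (#{t ∈ Fintype.piFinset (fun _ : Fin k => P) | ∏ i, t i = n} : ℝ)
    with hr
  -- unimodular factors
  have hu : ∀ z : ℂ, ∃ u : ℂ, ‖u‖ = 1 ∧ u * z = ‖z‖ := by
    intro z
    rcases eq_or_ne z 0 with rfl | hz
    · exact ⟨1, by simp, by simp⟩
    · refine ⟨conj z / ‖z‖, ?_, ?_⟩
      · simp only [Complex.norm_div, RCLike.norm_conj, Complex.norm_real, norm_norm, ne_eq, norm_eq_zero, hz, not_false_eq_true, div_self]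
      · rw [div_mul_eq_mul_div, mul_comm, Complex.mul_conj, Complex.normSq_eq_norm_sq]
        have : (‖z‖ : ℂ) ≠ 0 := by exact_mod_cast (norm_ne_zero_iff.mpr hz)
        field_simp
        push_cast
        ring
  choose u hu1 hu2 using fun i => hu ((∑ q ∈ P, f i q) ^ k)
  set g : ℕ → ℂ := fun n => ∑ i ∈ X, (w i : ℂ) * u i * f i n with hg
  -- first identity
  have hA : ∑ i ∈ X, w i * ‖∑ q ∈ P, f i q‖ ^ k = ‖∑ n ∈ S, (r n : ℂ) * g n‖ := by
    have e1 : ∑ n ∈ S, (r n : ℂ) * g n =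
        ∑ i ∈ X, ((w i * ‖∑ q ∈ P, f i q‖ ^ k : ℝ) : ℂ) := by
      simp only [hg, Finset.mul_sum]
      rw [Finset.sum_comm]
      refine Finset.sum_congr rfl fun i hi => ?_
      have e2 := hu2 i
      rw [norm_pow] at e2
      push_cast at e2 ⊢
      rw [← e2, sum_pow_eq (f1 i hi) (fm i hi) P S k hmaps, Finset.mul_sum, Finset.mul_sum]
      refine Finset.sum_congr rfl fun n _ => ?_
      simp only [hr]
      push_cast
      ring
    rw [e1, ← Complex.ofReal_sum, Complex.norm_real, Real.norm_eq_abs,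
      abs_of_nonneg (Finset.sum_nonneg fun i hi => mul_nonneg (hw i hi) (by (clear * -; positivity)))]
  -- Cauchy-Schwarz
  have hB : ‖∑ n ∈ S, (r n : ℂ) * g n‖ ^ 2 ≤
      (∑ n ∈ S, r n ^ 2) * ∑ n ∈ S, ‖g n‖ ^ 2 := by
    have h1 : ‖∑ n ∈ S, (r n : ℂ) * g n‖ ≤ ∑ n ∈ S, r n * ‖g n‖ := by
      refine (norm_sum_le _ _).trans (Finset.sum_le_sum fun n _ => ?_)
      rw [norm_mul, Complex.norm_real, Real.norm_eq_abs, abs_of_nonneg (by simp only [hr, Nat.cast_nonneg])]
    calc ‖∑ n ∈ S, (r n : ℂ) * g n‖ ^ 2 ≤ (∑ n ∈ S, r n * ‖g n‖) ^ 2 :=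
          pow_le_pow_left₀ (norm_nonneg _) h1 2
      _ ≤ _ := Finset.sum_mul_sq_le_sq_mul_sq _ _ _
  -- second moment of r
  have hR : ∑ n ∈ S, r n ^ 2 ≤ R * (#P : ℝ) ^ k := by
    have hsum : ∑ n ∈ S, r n = (#P : ℝ) ^ k := by
      have := Finset.card_eq_sum_card_fiberwise (f := fun t : Fin k → ℕ => ∏ i, t i) hmaps
      simp only [hr]
      rw [← Nat.cast_sum, ← this, Fintype.card_piFinset]
      simp only [prod_const, card_univ, Fintype.card_fin, Nat.cast_pow]
    calc ∑ n ∈ S, r n ^ 2 ≤ ∑ n ∈ S, R * r n := by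
          refine Finset.sum_le_sum fun n _ => ?_
          rw [sq]
          refine mul_le_mul_of_nonneg_right ?_ (by simp only [hr, Nat.cast_nonneg])
          simp only [hr]
          exact hP n
      _ = R * (#P : ℝ) ^ k := by rw [← Finset.mul_sum, hsum]
  -- second moment of g
  have hG : ∑ n ∈ S, ‖g n‖ ^ 2 ≤
      (#S : ℝ) * ∑ i ∈ X, w i ^ 2 + (∑ i ∈ X, w i) ^ 2 * W := by
    have e2 : ((∑ n ∈ S, ‖g n‖ ^ 2 : ℝ) : ℂ) =
        ∑ i ∈ X, ∑ j ∈ X, ((w i : ℂ) * w j * (u i * conj (u j))) *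
          ∑ n ∈ S, f i n * conj (f j n) := by
      push_cast
      have : ∀ n ∈ S, ((‖g n‖ : ℂ)) ^ 2 =
          ∑ i ∈ X, ∑ j ∈ X, ((w i : ℂ) * w j * (u i * conj (u j))) * (f i n * conj (f j n)) := by
        intro n _
        rw [← Complex.ofReal_pow, ← Complex.normSq_eq_norm_sq, ← Complex.mul_conj]
        simp only [hg, map_sum, map_mul, Complex.conj_ofReal, sum_mul_sum]
        refine Finset.sum_congr rfl fun i _ => Finset.sum_congr rfl fun j _ => ?_
        ring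
      rw [Finset.sum_congr rfl this, Finset.sum_comm]
      refine Finset.sum_congr rfl fun i _ => ?_
      rw [Finset.sum_comm]
      refine Finset.sum_congr rfl fun j _ => ?_
      rw [Finset.mul_sum]
    have h3 : ∑ n ∈ S, ‖g n‖ ^ 2 =
        ‖∑ i ∈ X, ∑ j ∈ X, ((w i : ℂ) * w j * (u i * conj (u j))) *
          ∑ n ∈ S, f i n * conj (f j n)‖ := by
      rw [← e2, Complex.norm_real, Real.norm_eq_abs, abs_of_nonneg (by (clear * -; positivity))]
    rw [h3]
    have h4 : ∀ i ∈ X, ∀ j ∈ X,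
        ‖((w i : ℂ) * w j * (u i * conj (u j))) * ∑ n ∈ S, f i n * conj (f j n)‖ ≤
          (if i = j then (#S : ℝ) * w i ^ 2 else 0) + w i * w j * W := by
      intro i hi j hj
      have hwi := hw i hi
      have hwj := hw j hj
      rw [norm_mul, norm_mul, norm_mul, norm_mul, RCLike.norm_conj, hu1, hu1, Complex.norm_real,
        Complex.norm_real, Real.norm_eq_abs, Real.norm_eq_abs, abs_of_nonneg hwi,
        abs_of_nonneg hwj, one_mul, mul_one]
      split_ifs with hij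
      · subst hij
        have h5 : ‖∑ n ∈ S, f i n * conj (f i n)‖ ≤ (#S : ℝ) := by
          calc ‖∑ n ∈ S, f i n * conj (f i n)‖ ≤ ∑ n ∈ S, (1 : ℝ) := by
                refine (norm_sum_le _ _).trans (Finset.sum_le_sum fun n _ => ?_)
                rw [norm_mul, RCLike.norm_conj]
                exact mul_le_one₀ (fb i hi n) (norm_nonneg _) (fb i hi n)
            _ = (#S : ℝ) := by simp
        have h6 : w i * w i * ‖∑ n ∈ S, f i n * conj (f i n)‖ ≤ w i * w i * (#S : ℝ) :=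
          mul_le_mul_of_nonneg_left h5 (by (clear * - hwi; positivity))
        have h7 : 0 ≤ w i * w i * W := by (clear * - hwi hW0; positivity)
        linarith only [h6, h7]
      · rw [zero_add]
        exact mul_le_mul_of_nonneg_left (hW i hi j hj hij) (by (clear * - hwi hwj; positivity))
    calc ‖∑ i ∈ X, ∑ j ∈ X, ((w i : ℂ) * w j * (u i * conj (u j))) *
            ∑ n ∈ S, f i n * conj (f j n)‖
        ≤ ∑ i ∈ X, ∑ j ∈ X, ((if i = j then (#S : ℝ) * w i ^ 2 else 0) + w i * w j * W) := by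
          refine (norm_sum_le _ _).trans (Finset.sum_le_sum fun i hi => ?_)
          exact (norm_sum_le _ _).trans (Finset.sum_le_sum fun j hj => h4 i hi j hj)
      _ = (#S : ℝ) * ∑ i ∈ X, w i ^ 2 + (∑ i ∈ X, w i) ^ 2 * W := by
          simp only [Finset.sum_add_distrib, Finset.sum_ite_eq]
          rw [Finset.sum_congr rfl (fun i (hi : i ∈ X) => if_pos hi), ← Finset.mul_sum, sq,
            Finset.sum_mul_sum, Finset.sum_mul]
          congr 1
          refine Finset.sum_congr rfl fun i _ => ?_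
          rw [Finset.sum_mul]
  rw [hA]
  refine hB.trans ?_
  have hR0 : 0 ≤ R := le_trans (Nat.cast_nonneg _) (hP 0)
  exact mul_le_mul hR hG (Finset.sum_nonneg fun n _ => by (clear * -; positivity)) (by (clear * - hR0; positivity))

/-- The `L¹` form, general sets. -/
theorem L1HMgen {ι : Type*} (Q : Finset ℕ) (R : ℝ) (k N Y : ℕ)
    (hQ : ∀ n, (#{t ∈ Fintype.piFinset (fun _ : Fin k => Q) | ∏ i, t i = n} : ℝ) ≤ R) (hk : 1 ≤ k)
    (hY : ∀ q ∈ Q, q ≤ Y)
    (hN : Y ^ k < N) (X : Finset ι) (w : ι → ℝ) (hw : ∀ i ∈ X, 0 ≤ w i) (χ : ι → ℕ → ℂ)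
    (h1 : ∀ i ∈ X, χ i 1 = 1)
    (hmul : ∀ i ∈ X, ∀ m n, χ i (m * n) = χ i m * χ i n) (hb : ∀ i ∈ X, ∀ n, ‖χ i n‖ ≤ 1)
    (B : ℝ) (hB : 0 ≤ B)
    (horth : ∀ i ∈ X, ∀ j ∈ X, i ≠ j →
      ‖∑ n ∈ range N, χ i n * (starRingEnd ℂ) (χ j n)‖ ≤ B) :
    (∑ i ∈ X, w i * ‖∑ q ∈ Q, χ i q‖) ^ (2 * k) ≤
      (∑ i ∈ X, w i) ^ (2 * k - 2) * (R * (#Q : ℝ) ^ k *
        ((N : ℝ) * ∑ i ∈ X, w i ^ 2 + (∑ i ∈ X, w i) ^ 2 * B)) := by
  have hmaps : ∀ t ∈ Fintype.piFinset (fun _ : Fin k => Q), ∏ i, t i ∈ range N := by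
    intro t ht
    rw [Fintype.mem_piFinset] at ht
    rw [mem_range]
    refine lt_of_le_of_lt ?_ hN
    calc ∏ i, t i ≤ ∏ _i : Fin k, Y := Finset.prod_le_prod' fun i _ => hY _ (ht i)
      _ = Y ^ k := by simp only [prod_const, card_univ, Fintype.card_fin]
  have h := duality_weighted_gen X w χ Q (range N) k B R hQ hw hmaps h1 hmul hb hB horth
  rw [card_range] at h
  have hpm := weighted_pow_le X w (fun i => ‖∑ q ∈ Q, χ i q‖) hw (fun i _ => norm_nonneg _) k hk
  have hV0 : 0 ≤ ∑ i ∈ X, w i := Finset.sum_nonneg hw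
  calc (∑ i ∈ X, w i * ‖∑ q ∈ Q, χ i q‖) ^ (2 * k)
      = ((∑ i ∈ X, w i * ‖∑ q ∈ Q, χ i q‖) ^ k) ^ 2 := by rw [← pow_mul, mul_comm]
    _ ≤ ((∑ i ∈ X, w i) ^ (k - 1) * ∑ i ∈ X, w i * ‖∑ q ∈ Q, χ i q‖ ^ k) ^ 2 := by
        refine pow_le_pow_left₀ ?_ hpm 2
        exact pow_nonneg (Finset.sum_nonneg fun i hi => mul_nonneg (hw i hi) (norm_nonneg _)) k
    _ = (∑ i ∈ X, w i) ^ (2 * k - 2) * (∑ i ∈ X, w i * ‖∑ q ∈ Q, χ i q‖ ^ k) ^ 2 := by
        rw [mul_pow, ← pow_mul]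
        congr 2
        omega
    _ ≤ _ := mul_le_mul_of_nonneg_left h (by (clear * - hV0; positivity))

end Vale.Agent.P016
end
end

section

section

namespace Vale.Agent.P016

open Finset

lemma exists_char (p : ℕ) (hp : p.Prime) : ∃ e : ℕ → ℂ,
    (∀ m n, e (m * n) = e m * e n) ∧ e 1 = 1 ∧ (∀ n, e n = 0 ↔ p ∣ n) ∧
    (∀ m n, m ≡ n [MOD p] → e m = e n) ∧
    (∀ n : ℕ, ¬ p ∣ n → orderOf (e n) = orderOf (n : ZMod p)) := by
  have := Fact.mk hp
  classical
  obtain ⟨g, hg⟩ := IsCyclic.exists_generator (α := (ZMod p)ˣ)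
  have hcard : Fintype.card (ZMod p)ˣ = p - 1 := ZMod.card_units p
  have hpos : p - 1 ≠ 0 := by have := hp.two_le; omega
  have hζ := Complex.isPrimitiveRoot_exp (p - 1) hpos
  set ζ := Complex.exp (2 * Real.pi * Complex.I / ((p - 1 : ℕ) : ℂ)) with hζdef
  have hζu : IsUnit ζ := hζ.isUnit hpos
  have hmem : hζu.unit ∈ rootsOfUnity (Fintype.card (ZMod p)ˣ) ℂ := by
    rw [mem_rootsOfUnity, hcard]
    ext
    simpa only [Units.val_pow_eq_pow_val, IsUnit.unit_spec, Units.val_one] using hζ.pow_eq_one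
  let χ : MulChar (ZMod p) ℂ := MulChar.ofRootOfUnity hmem hg
  have hχg : χ (g : ZMod p) = ζ := by
    have := MulChar.ofRootOfUnity_spec hmem hg
    simpa [χ] using this
  have hog : orderOf g = p - 1 := by
    rw [orderOf_eq_card_of_forall_mem_zpowers hg, Nat.card_eq_fintype_card, hcard]
  -- order preserved on units
  have key : ∀ u : (ZMod p)ˣ, orderOf (χ (u : ZMod p)) = orderOf (u : ZMod p) := by
    intro u
    obtain ⟨k, hk⟩ := (Submonoid.mem_powers_iff u g).1 ((mem_powers_iff_mem_zpowers).2 (hg u))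
    have h1 : χ (u : ZMod p) = ζ ^ k := by
      rw [← hk, Units.val_pow_eq_pow_val, map_pow, hχg]
    rw [h1, orderOf_units, ← hk]
    have hoζ : orderOf ζ = p - 1 := hζ.eq_orderOf.symm
    have hfin : IsOfFinOrder ζ := isOfFinOrder_iff_pow_eq_one.2 ⟨p - 1, by omega, hζ.pow_eq_one⟩
    rw [hfin.orderOf_pow, orderOf_pow, hoζ, hog]
  refine ⟨fun n => χ (n : ZMod p), ?_, ?_, ?_, ?_, ?_⟩
  · intro m n
    push_cast
    rw [map_mul]
  · simp
  · intro n
    constructor
    · intro h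
      by_contra hn
      have hu : IsUnit (n : ZMod p) := by
        rw [isUnit_iff_ne_zero]
        intro h0
        exact hn ((ZMod.natCast_eq_zero_iff n p).1 h0)
      have := hu.map χ
      exact this.ne_zero h
    · intro h
      have h0 : (n : ZMod p) = 0 := (ZMod.natCast_eq_zero_iff n p).2 h
      simp only [h0]
      exact MulChar.map_zero χ
  · intro m n h
    have : (m : ZMod p) = (n : ZMod p) := (ZMod.natCast_eq_natCast_iff m n p).2 h
    simp only [this]
  · intro n hn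
    have hu : IsUnit (n : ZMod p) := by
      rw [isUnit_iff_ne_zero]
      intro h0
      exact hn ((ZMod.natCast_eq_zero_iff n p).1 h0)
    have := key hu.unit
    simpa only [IsUnit.unit_spec] using this

end Vale.Agent.P016
end
end

section

section

namespace Vale.Agent.P016

open Finset

noncomputable def cf (n t : ℕ) : ℝ :=
  ∑ d ∈ n.divisors.filter (fun d => (n / d) ∣ t), (ArithmeticFunction.moebius d : ℝ) / d

lemma sum_filter_dvd {M : Type*} [AddCommMonoid M] (m d : ℕ) (hm : 0 < m) (f : ℕ → M) :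
    ∑ t ∈ (range (m * d)).filter (fun t => m ∣ t), f t = ∑ j ∈ range d, f (m * j) := by
  symm
  refine Finset.sum_bij (fun j _ => m * j) ?_ ?_ ?_ ?_
  · intro j hj
    simp only [mem_range] at hj
    simp only [mem_filter, mem_range, dvd_mul_right, and_true]
    exact Nat.mul_lt_mul_of_pos_left hj hm
  · intro a _ b _ h
    exact Nat.eq_of_mul_eq_mul_left hm h
  · intro t ht
    simp only [mem_filter, mem_range] at ht
    obtain ⟨j, rfl⟩ := ht.2
    exact ⟨j, by simpa using Nat.lt_of_mul_lt_mul_left ht.1, rfl⟩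
  · intro j _
    rfl

lemma sum_cf_mul {f : ℕ → ℂ} (n : ℕ) :
    ∑ t ∈ Finset.range n, (cf n t : ℂ) * f t =
      ∑ d ∈ n.divisors, ((ArithmeticFunction.moebius d : ℂ) / d) * ∑ j ∈ range d, f (n / d * j) := by
  have h1 : ∀ t ∈ range n, (cf n t : ℂ) * f t =
      ∑ d ∈ n.divisors, (if (n / d) ∣ t then ((ArithmeticFunction.moebius d : ℂ) / d) * f t else 0) := by
    intro t _
    rw [cf, Finset.sum_filter]
    push_cast
    rw [Finset.sum_mul]
    refine Finset.sum_congr rfl fun d _ => ?_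
    split_ifs <;> simp
  rw [Finset.sum_congr rfl h1, Finset.sum_comm]
  refine Finset.sum_congr rfl fun d hd => ?_
  have hdn : d ∣ n := Nat.dvd_of_mem_divisors hd
  have hn : n ≠ 0 := (Nat.mem_divisors.1 hd).2
  have hpos : 0 < n / d := Nat.div_pos (Nat.le_of_dvd (Nat.pos_of_ne_zero hn) hdn)
    (Nat.pos_of_dvd_of_pos hdn (Nat.pos_of_ne_zero hn))
  rw [← Finset.sum_filter, ← Finset.mul_sum]
  congr 1
  have := sum_filter_dvd (n / d) d hpos f
  rw [Nat.div_mul_cancel hdn] at this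
  exact this

lemma cf_sum_pow (n : ℕ) (hn : 0 < n) (ζ : ℂ) (hζ : ζ ^ n = 1) :
    ∑ t ∈ Finset.range n, (cf n t : ℂ) * ζ ^ t = if orderOf ζ = n then 1 else 0 := by
  rw [sum_cf_mul (f := fun t => ζ ^ t) n]
  have h1 : ∀ d ∈ n.divisors, ((ArithmeticFunction.moebius d : ℂ) / d) *
      ∑ j ∈ range d, ζ ^ (n / d * j) =
      if d ∣ n / orderOf ζ then (ArithmeticFunction.moebius d : ℂ) else 0 := by
    intro d hd
    have hdn : d ∣ n := Nat.dvd_of_mem_divisors hd
    have hd0 : d ≠ 0 := (Nat.pos_of_dvd_of_pos hdn hn).ne'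
    have hoz : orderOf ζ ∣ n := orderOf_dvd_of_pow_eq_one hζ
    have hozpos : 0 < orderOf ζ := Nat.pos_of_dvd_of_pos hoz hn
    have hiff : d ∣ n / orderOf ζ ↔ ζ ^ (n / d) = 1 := by
      rw [← orderOf_dvd_iff_pow_eq_one]
      rw [Nat.dvd_div_iff_mul_dvd hoz, Nat.dvd_div_iff_mul_dvd hdn, mul_comm]
    have hgeom : ∑ j ∈ range d, ζ ^ (n / d * j) = if d ∣ n / orderOf ζ then (d : ℂ) else 0 := by
      simp_rw [pow_mul]
      split_ifs with h
      · rw [hiff] at h
        simp [h]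
      · rw [hiff] at h
        rw [geom_sum_eq h, ← pow_mul, Nat.div_mul_cancel hdn, hζ]
        simp
    rw [hgeom]
    split_ifs
    · have : (d : ℂ) ≠ 0 := by exact_mod_cast hd0
      (clear * - this; field_simp)
    · simp only [mul_zero]
  rw [Finset.sum_congr rfl h1, ← Finset.sum_filter]
  have hoz : orderOf ζ ∣ n := orderOf_dvd_of_pow_eq_one hζ
  have hozpos : 0 < orderOf ζ := Nat.pos_of_dvd_of_pos hoz hn
  have hq : 0 < n / orderOf ζ := Nat.div_pos (Nat.le_of_dvd hn hoz) hozpos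
  have hfilter : n.divisors.filter (fun d => d ∣ n / orderOf ζ) = (n / orderOf ζ).divisors := by
    ext d
    simp only [mem_filter, Nat.mem_divisors]
    constructor
    · rintro ⟨_, h⟩
      exact ⟨h, hq.ne'⟩
    · rintro ⟨h, _⟩
      exact ⟨⟨h.trans (Nat.div_dvd_of_dvd hoz), hn.ne'⟩, h⟩
  rw [hfilter]
  have hmu : ∑ d ∈ (n / orderOf ζ).divisors, (ArithmeticFunction.moebius d : ℂ) =
      if n / orderOf ζ = 1 then 1 else 0 := by
    have h := congrArg (fun f : ArithmeticFunction ℤ => f (n / orderOf ζ))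
      ArithmeticFunction.moebius_mul_coe_zeta
    simp only [ArithmeticFunction.coe_mul_zeta_apply, ArithmeticFunction.one_apply] at h
    have h' := congrArg (fun z : ℤ => (z : ℂ)) h
    push_cast at h'
    simpa only using h'
  rw [hmu]
  have : n / orderOf ζ = 1 ↔ orderOf ζ = n := by
    constructor
    · intro h
      have := Nat.div_mul_cancel hoz
      rw [h, one_mul] at this
      exact this
    · intro h
      rw [h, Nat.div_self hn]
  simp [this]

lemma cf_zero (n : ℕ) (hn : 0 < n) : cf n 0 = (Nat.totient n : ℝ) / n := by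
  have h := (ArithmeticFunction.sum_eq_iff_sum_mul_moebius_eq (R := ℝ)
    (f := fun n => (Nat.totient n : ℝ)) (g := fun n => (n : ℝ))).1
    (fun n _ => by exact_mod_cast Nat.sum_totient n) n hn
  rw [← h, Nat.sum_divisorsAntidiagonal (fun a b => (ArithmeticFunction.moebius a : ℝ) * (b : ℝ)),
    cf, Finset.sum_div]
  have : n.divisors.filter (fun d => (n / d) ∣ 0) = n.divisors := by simp
  rw [this]
  refine Finset.sum_congr rfl fun d hd => ?_
  have hdn : d ∣ n := Nat.dvd_of_mem_divisors hd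
  have hd0 : (d : ℝ) ≠ 0 := by exact_mod_cast (Nat.pos_of_dvd_of_pos hdn hn).ne'
  have hn0 : (n : ℝ) ≠ 0 := by exact_mod_cast hn.ne'
  rw [Nat.cast_div hdn hd0]
  field_simp

lemma sum_abs_cf_le (n : ℕ) (hn : 0 < n) :
    ∑ t ∈ range n, |cf n t| ≤ (n.divisors.card : ℝ) := by
  have h1 : ∀ t ∈ range n, |cf n t| ≤ ∑ d ∈ n.divisors, (if (n / d) ∣ t then 1 / (d : ℝ) else 0) := by
    intro t _
    rw [cf, ← Finset.sum_filter]
    refine (Finset.abs_sum_le_sum_abs _ _).trans (Finset.sum_le_sum fun d _ => ?_)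
    rw [abs_div, Nat.abs_cast]
    refine div_le_div_of_nonneg_right ?_ (Nat.cast_nonneg d)
    exact_mod_cast ArithmeticFunction.abs_moebius_le_one
  refine (Finset.sum_le_sum h1).trans ?_
  rw [Finset.sum_comm]
  have h2 : ∀ d ∈ n.divisors, ∑ t ∈ range n, (if (n / d) ∣ t then 1 / (d : ℝ) else 0) = 1 := by
    intro d hd
    have hdn : d ∣ n := Nat.dvd_of_mem_divisors hd
    have hdpos : 0 < d := Nat.pos_of_dvd_of_pos hdn hn
    have hpos : 0 < n / d := Nat.div_pos (Nat.le_of_dvd hn hdn) hdpos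
    rw [← Finset.sum_filter]
    have := sum_filter_dvd (n / d) d hpos (fun _ => 1 / (d : ℝ))
    rw [Nat.div_mul_cancel hdn] at this
    rw [this]
    have hd0 : (d : ℝ) ≠ 0 := by exact_mod_cast hdpos.ne'
    simp only [one_div, sum_const, card_range, nsmul_eq_mul, ne_eq, hd0, not_false_eq_true, mul_inv_cancel₀]
  rw [Finset.sum_congr rfl h2]
  simp only [sum_const, nsmul_eq_mul, mul_one, Std.le_refl]

lemma abs_cf_le (n t : ℕ) : |cf n t| ≤ 1 + Real.log n := by
  have h1 : |cf n t| ≤ ∑ d ∈ Icc 1 n, ((d : ℝ))⁻¹ := by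
    rw [cf]
    refine (Finset.abs_sum_le_sum_abs _ _).trans ?_
    refine (Finset.sum_le_sum (f := fun d => |(ArithmeticFunction.moebius d : ℝ) / d|)
      (g := fun d => ((d : ℝ))⁻¹) fun d _ => ?_).trans ?_
    · rw [abs_div, Nat.abs_cast, inv_eq_one_div]
      refine div_le_div_of_nonneg_right ?_ (Nat.cast_nonneg d)
      exact_mod_cast ArithmeticFunction.abs_moebius_le_one
    · refine Finset.sum_le_sum_of_subset_of_nonneg ?_ fun d _ _ => by positivity
      intro d hd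
      simp only [mem_filter, Nat.mem_divisors] at hd
      rw [mem_Icc]
      exact ⟨Nat.pos_of_dvd_of_pos hd.1.1 (Nat.pos_of_ne_zero hd.1.2),
        Nat.le_of_dvd (Nat.pos_of_ne_zero hd.1.2) hd.1.1⟩
  refine h1.trans ?_
  have := harmonic_le_one_add_log n
  rw [harmonic_eq_sum_Icc] at this
  push_cast at this
  exact this

end Vale.Agent.P016
end
end

section

section

namespace Vale.Agent.P016

open Finset

open Classical in
noncomputable def ech (p : ℕ) : ℕ → ℂ :=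
  if hp : p.Prime then Classical.choose (exists_char p hp) else fun _ => 1

lemma ech_spec (p : ℕ) (hp : p.Prime) :
    (∀ m n, ech p (m * n) = ech p m * ech p n) ∧ ech p 1 = 1 ∧ (∀ n, ech p n = 0 ↔ p ∣ n) ∧
    (∀ m n, m ≡ n [MOD p] → ech p m = ech p n) ∧
    (∀ n : ℕ, ¬ p ∣ n → orderOf (ech p n) = orderOf (n : ZMod p)) := by
  have : ech p = Classical.choose (exists_char p hp) := by
    simp only [ech, hp, ↓reduceDIte]
  rw [this]
  exact Classical.choose_spec (exists_char p hp)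

lemma ech_mul {p : ℕ} (hp : p.Prime) (m n : ℕ) : ech p (m * n) = ech p m * ech p n :=
  (ech_spec p hp).1 m n

lemma ech_one {p : ℕ} (hp : p.Prime) : ech p 1 = 1 := (ech_spec p hp).2.1

lemma ech_eq_zero {p : ℕ} (hp : p.Prime) {n : ℕ} : ech p n = 0 ↔ p ∣ n := (ech_spec p hp).2.2.1 n

lemma ech_congr {p : ℕ} (hp : p.Prime) {m n : ℕ} (h : m ≡ n [MOD p]) : ech p m = ech p n :=
  (ech_spec p hp).2.2.2.1 m n h

lemma ech_orderOf {p : ℕ} (hp : p.Prime) {n : ℕ} (h : ¬ p ∣ n) :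
    orderOf (ech p n) = orderOf (n : ZMod p) := (ech_spec p hp).2.2.2.2 n h

lemma ech_pow {p : ℕ} (hp : p.Prime) {n : ℕ} (h : ¬ p ∣ n) : ech p n ^ (p - 1) = 1 := by
  have := Fact.mk hp
  rw [← orderOf_dvd_iff_pow_eq_one, ech_orderOf hp h, orderOf_dvd_iff_pow_eq_one]
  apply ZMod.pow_card_sub_one_eq_one
  intro h0
  exact h ((ZMod.natCast_eq_zero_iff n p).1 h0)

lemma ech_norm_eq {p : ℕ} (hp : p.Prime) {n : ℕ} (h : ¬ p ∣ n) : ‖ech p n‖ = 1 := by
  have h1 := ech_pow hp h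
  have h2 : p - 1 ≠ 0 := by have := hp.two_le; omega
  exact Complex.norm_eq_one_of_pow_eq_one h1 h2

lemma ech_norm_le {p : ℕ} (hp : p.Prime) (n : ℕ) : ‖ech p n‖ ≤ 1 := by
  by_cases h : p ∣ n
  · rw [(ech_eq_zero hp).2 h]; simp only [norm_zero, zero_le_one]
  · exact (ech_norm_eq hp h).le

/-- `w_p = φ(p-1)/(p-1)`. -/
noncomputable def wt (p : ℕ) : ℝ := (Nat.totient (p - 1) : ℝ) / ((p - 1 : ℕ) : ℝ)

noncomputable def gp (p a : ℕ) : ℂ :=
  ∑ t ∈ Finset.Ico 1 (p - 1), (cf (p - 1) t : ℂ) * (ech p a) ^ t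

open Classical in
noncomputable def fp (p a : ℕ) : ℝ := if ¬ p ∣ a ∧ orderOf (a : ZMod p) = p - 1 then 1 else 0

open Classical in
noncomputable def up (p a : ℕ) : ℝ := if p ∣ a then 0 else 1

lemma gp_eq {p : ℕ} (hp : p.Prime) (a : ℕ) :
    gp p a = ((fp p a - wt p * up p a : ℝ) : ℂ) := by
  have hpos : 0 < p - 1 := by have := hp.two_le; omega
  by_cases h : p ∣ a
  · have h0 : ech p a = 0 := (ech_eq_zero hp).2 h
    have : gp p a = 0 := by
      rw [gp]
      refine Finset.sum_eq_zero fun t ht => ?_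
      rw [mem_Ico] at ht
      rw [h0, zero_pow (by omega), mul_zero]
    rw [this]
    simp only [fp, h, not_true_eq_false, false_and, ↓reduceIte, up, mul_zero, sub_self, Complex.ofReal_zero]
  · have h1 := cf_sum_pow (p - 1) hpos (ech p a) (ech_pow hp h)
    rw [Finset.range_eq_Ico, Finset.sum_eq_sum_Ico_succ_bot hpos] at h1
    simp only [pow_zero, mul_one] at h1
    have h2 : gp p a = (if orderOf (ech p a) = p - 1 then 1 else 0) - (cf (p - 1) 0 : ℂ) := by
      rw [← h1, gp]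
      ring
    rw [h2, cf_zero _ hpos, ech_orderOf hp h]
    simp only [fp, up, h, wt, not_false_eq_true, true_and, if_false, mul_one]
    push_cast
    split_ifs <;> simp

lemma wt_nonneg (p : ℕ) : 0 ≤ wt p := by unfold wt; positivity

lemma wt_le_one (p : ℕ) : wt p ≤ 1 := by
  unfold wt
  refine div_le_one_of_le₀ ?_ (by positivity)
  exact_mod_cast Nat.totient_le _

lemma gp_norm_le {p : ℕ} (hp : p.Prime) (a : ℕ) : ‖gp p a‖ ≤ 1 := by
  rw [gp_eq hp, Complex.norm_real, Real.norm_eq_abs]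
  have h1 := wt_nonneg p
  have h2 := wt_le_one p
  by_cases h : p ∣ a
  · simp only [fp, h, not_true_eq_false, false_and, ↓reduceIte, up, mul_zero, sub_self, abs_zero, zero_le_one]
  · simp only [fp, up, h, not_false_eq_true, true_and, if_false, mul_one]
    rw [abs_le]
    split_ifs <;> constructor <;> linarith

end Vale.Agent.P016
end
end

section

section

namespace Vale.Agent.P016

open Finset

lemma periodic_sum_aux (G : ℕ → ℂ) (L : ℕ) (hL : 0 < L) (hper : ∀ n, G (n + L) = G n)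
    (hb : ∀ n, ‖G n‖ ≤ 1) (hz : ∑ n ∈ range L, G n = 0) (N : ℕ) :
    ‖∑ n ∈ range N, G n‖ ≤ L := by
  induction N using Nat.strong_induction_on with
  | _ N ih =>
    by_cases h : N < L
    · calc ‖∑ n ∈ range N, G n‖ ≤ ∑ n ∈ range N, ‖G n‖ := norm_sum_le _ _
        _ ≤ ∑ n ∈ range N, (1 : ℝ) := Finset.sum_le_sum fun n _ => hb n
        _ = N := by simp
        _ ≤ L := by exact_mod_cast h.le
    · push Not at h
      obtain ⟨K, rfl⟩ := Nat.exists_eq_add_of_le h
      rw [Finset.sum_range_add, hz, zero_add]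
      have : ∀ n ∈ range K, G (L + n) = G n := fun n _ => by rw [add_comm]; exact hper n
      rw [Finset.sum_congr rfl this]
      exact ih K (by omega)

lemma periodic_sum (F : ℕ → ℂ) (L : ℕ) (hL : 0 < L) (hmul : ∀ m n, F (m * n) = F m * F n)
    (hper : ∀ m n, m ≡ n [MOD L] → F m = F n)
    (hb : ∀ n, ‖F n‖ ≤ 1) (n₀ : ℕ) (hco : Nat.Coprime n₀ L) (hne : F n₀ ≠ 1) (N : ℕ) :
    ‖∑ n ∈ Icc 1 N, F n‖ ≤ L := by
  have hS : ∑ n ∈ range L, F n = 0 := by
    have h1 : ∑ n ∈ range L, F n = ∑ n ∈ range L, F (n₀ * n) := by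
      symm
      refine Finset.sum_nbij (fun n => (n₀ * n) % L) ?_ ?_ ?_ ?_
      · intro n _
        simpa using Nat.mod_lt _ hL
      · intro a ha b hb hab
        simp only [coe_range, Set.mem_Iio] at ha hb
        have : n₀ * a ≡ n₀ * b [MOD L] := hab
        have := Nat.ModEq.cancel_left_of_coprime (by rwa [Nat.gcd_comm] ) this
        exact Nat.ModEq.eq_of_lt_of_lt this ha hb
      · intro b hb
        simp only [coe_range, Set.mem_Iio] at hb
        have hinj : Set.InjOn (fun n => (n₀ * n) % L) (range L : Set ℕ) := by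
          intro a ha b hb hab
          simp only [coe_range, Set.mem_Iio] at ha hb
          have : n₀ * a ≡ n₀ * b [MOD L] := hab
          have := Nat.ModEq.cancel_left_of_coprime (by rwa [Nat.gcd_comm] ) this
          exact Nat.ModEq.eq_of_lt_of_lt this ha hb
        have hmaps : Set.MapsTo (fun n => (n₀ * n) % L) (range L : Set ℕ) (range L : Set ℕ) := by
          intro n _
          simpa only [coe_range, Set.mem_Iio] using Nat.mod_lt _ hL
        have := Finset.surjOn_of_injOn_of_card_le _ hmaps hinj le_rfl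
        exact this (by simpa using hb)
      · intro n _
        exact hper _ _ (Nat.mod_modEq _ _).symm
    simp_rw [hmul] at h1
    rw [← Finset.mul_sum] at h1
    have h2 : (1 - F n₀) * ∑ n ∈ range L, F n = 0 := by
      rw [sub_mul, one_mul]
      exact sub_eq_zero.2 h1
    rcases mul_eq_zero.1 h2 with h | h
    · exact absurd (sub_eq_zero.1 h).symm hne
    · exact h
  have hS' : ∑ n ∈ range L, F (n + 1) = 0 := by
    have h1 := Finset.sum_range_succ F L
    have h2 := Finset.sum_range_succ' F L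
    have h3 : F L = F 0 := hper _ _ (by simp [Nat.ModEq])
    rw [h1, hS, h3] at h2
    have : ∑ n ∈ range L, F (n + 1) = (∑ k ∈ range L, F (k + 1) + F 0) - F 0 := by ring
    rw [this, ← h2]
    ring
  have hmain := periodic_sum_aux (fun n => F (n + 1)) L hL
    (fun n => hper _ _ (by
      have : n + L + 1 = (n + 1) + L := by ring
      rw [this]
      simp [Nat.ModEq]))
    (fun n => hb _) hS' N
  have : ∑ n ∈ Icc 1 N, F n = ∑ n ∈ range N, F (n + 1) := by
    rw [Finset.range_eq_Ico, Finset.sum_Ico_add' F 0 N 1]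
    rfl
  rw [this]
  exact hmain

noncomputable def psi (i : ℕ × ℕ × ℕ × ℕ) (n : ℕ) : ℂ :=
  (ech i.1 n) ^ i.2.1 * (ech i.2.2.1 n) ^ i.2.2.2

def IsIdx (x : ℕ) (i : ℕ × ℕ × ℕ × ℕ) : Prop :=
  i.1.Prime ∧ i.2.2.1.Prime ∧ i.1 < i.2.2.1 ∧ i.2.2.1 ≤ x ∧
  1 ≤ i.2.1 ∧ i.2.1 < i.1 - 1 ∧ 1 ≤ i.2.2.2 ∧ i.2.2.2 < i.2.2.1 - 1

def Te (i : ℕ × ℕ × ℕ × ℕ) (r : ℕ) : ℕ :=
  if r = i.1 then i.2.1 else if r = i.2.2.1 then i.2.2.2 else 0

lemma psi_mul {x : ℕ} {i : ℕ × ℕ × ℕ × ℕ} (hi : IsIdx x i) (m n : ℕ) :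
    psi i (m * n) = psi i m * psi i n := by
  unfold psi
  rw [ech_mul hi.1, ech_mul hi.2.1]
  ring

lemma psi_one {x : ℕ} {i : ℕ × ℕ × ℕ × ℕ} (hi : IsIdx x i) : psi i 1 = 1 := by
  unfold psi
  rw [ech_one hi.1, ech_one hi.2.1]
  ring

lemma psi_norm_le {x : ℕ} {i : ℕ × ℕ × ℕ × ℕ} (hi : IsIdx x i) (n : ℕ) : ‖psi i n‖ ≤ 1 := by
  unfold psi
  rw [norm_mul, norm_pow, norm_pow]
  have h1 := pow_le_one₀ (n := i.2.1) (norm_nonneg _) (ech_norm_le hi.1 n)
  have h2 := pow_le_one₀ (n := i.2.2.2) (norm_nonneg _) (ech_norm_le hi.2.1 n)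
  exact mul_le_one₀ h1 (by positivity) h2

lemma exists_prime_root (r : ℕ) (hr : r.Prime) : ∃ g : ℕ, ¬ r ∣ g ∧ orderOf (g : ZMod r) = r - 1 := by
  have := Fact.mk hr
  obtain ⟨g, hg⟩ := IsCyclic.exists_generator (α := (ZMod r)ˣ)
  refine ⟨(g : ZMod r).val, ?_, ?_⟩
  · intro h
    have h0 : ((g : ZMod r).val : ZMod r) = 0 := (ZMod.natCast_eq_zero_iff _ r).2 h
    rw [ZMod.natCast_zmod_val] at h0
    exact g.ne_zero h0
  · rw [ZMod.natCast_zmod_val, orderOf_units, orderOf_eq_card_of_forall_mem_zpowers hg,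
      Nat.card_eq_fintype_card, ZMod.card_units]

lemma orth (x : ℕ) (i j : ℕ × ℕ × ℕ × ℕ) (hi : IsIdx x i) (hj : IsIdx x j) (hij : i ≠ j) (N : ℕ) :
    ‖∑ n ∈ Icc 1 N, psi i n * (starRingEnd ℂ) (psi j n)‖ ≤ (x : ℝ) ^ 4 := by
  classical
  set S : Finset ℕ := {i.1, i.2.2.1, j.1, j.2.2.1} with hS
  have hSp : ∀ s ∈ S, s.Prime := by
    intro s hs
    simp only [hS, mem_insert, mem_singleton] at hs
    rcases hs with h | h | h | h
    · rw [h]; exact hi.1
    · rw [h]; exact hi.2.1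
    · rw [h]; exact hj.1
    · rw [h]; exact hj.2.1
  have hSx : ∀ s ∈ S, s ≤ x := by
    intro s hs
    simp only [hS, mem_insert, mem_singleton] at hs
    have h1 := hi.2.2.1
    have h2 := hi.2.2.2.1
    have h3 := hj.2.2.1
    have h4 := hj.2.2.2.1
    rcases hs with h | h | h | h <;> omega
  have hx1 : 1 ≤ x := by
    have := hSx i.1 (by simp [hS])
    have := hi.1.two_le
    omega
  set L : ℕ := ∏ s ∈ S, s with hLdef
  have hLpos : 0 < L := Finset.prod_pos fun s hs => (hSp s hs).pos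
  have hLle : L ≤ x ^ 4 := by
    have h1 : L ≤ x ^ S.card := Finset.prod_le_pow_card S (fun s => s) x hSx
    have h2 : S.card ≤ 4 := Finset.card_le_four
    exact h1.trans (Nat.pow_le_pow_right hx1 h2)
  have hi1 : i.1 ∈ S := by simp [hS]
  have hi2 : i.2.2.1 ∈ S := by simp [hS]
  have hj1 : j.1 ∈ S := by simp [hS]
  have hj2 : j.2.2.1 ∈ S := by simp only [hS, mem_insert, mem_singleton, or_true]
  -- choose the prime
  have hr : ∃ r ∈ S, Te i r ≠ Te j r := by
    by_contra hcon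
    push Not at hcon
    obtain ⟨a1, a2, a3, a4, a5, a6, a7, a8⟩ := hi
    obtain ⟨b1, b2, b3, b4, b5, b6, b7, b8⟩ := hj
    have c1 := hcon _ hi1
    have c2 := hcon _ hi2
    have c3 := hcon _ hj1
    have c4 := hcon _ hj2
    obtain ⟨p1, t1, p2, t2⟩ := i
    obtain ⟨q1, u1, q2, u2⟩ := j
    simp only [Te] at *
    apply hij
    simp only [Prod.mk.injEq]
    have n1 : p1 ≠ p2 := by omega
    have n2 : q1 ≠ q2 := by omega
    simp only [if_true, n1.symm, n2.symm, if_false] at c1 c2 c3 c4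
    split_ifs at c1 c2 c3 c4 <;> omega
  obtain ⟨r, hrS, hrne⟩ := hr
  have hrp := hSp r hrS
  obtain ⟨g, hgr, hgo⟩ := exists_prime_root r hrp
  set M : ℕ := ∏ s ∈ S.erase r, s with hMdef
  have hLM : L = r * M := (Finset.mul_prod_erase S (fun s => s) hrS).symm
  have hcoM : Nat.Coprime r M := by
    refine Nat.Coprime.prod_right fun s hs => ?_
    rw [Finset.mem_erase] at hs
    exact (Nat.coprime_primes hrp (hSp s hs.2)).2 (Ne.symm hs.1)
  obtain ⟨n₀, hn1, hn2⟩ := Nat.chineseRemainder hcoM g 1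
  have hn₀r : ¬ r ∣ n₀ := by
    intro h
    apply hgr
    exact (hn1.dvd_iff (dvd_refl r)).1 h
  have hother : ∀ s ∈ S, s ≠ r → ech s n₀ = 1 := by
    intro s hs hsr
    have hsM : s ∣ M := Finset.dvd_prod_of_mem _ (Finset.mem_erase.2 ⟨hsr, hs⟩)
    rw [ech_congr (hSp s hs) (hn2.of_dvd hsM), ech_one (hSp s hs)]
  have hpsi : ∀ k : ℕ × ℕ × ℕ × ℕ, k.1 ∈ S → k.2.2.1 ∈ S → k.1 ≠ k.2.2.1 →
      psi k n₀ = ech r n₀ ^ Te k r := by
    intro k h1 h2 h3
    unfold psi Te
    by_cases e1 : r = k.1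
    · have e2 : k.2.2.1 ≠ r := by rw [e1]; exact h3.symm
      rw [hother _ h2 e2, one_pow, mul_one, if_pos e1, ← e1]
    · by_cases e2 : r = k.2.2.1
      · rw [hother _ h1 (Ne.symm e1), one_pow, one_mul, if_neg e1, if_pos e2, ← e2]
      · rw [hother _ h1 (Ne.symm e1), hother _ h2 (Ne.symm e2), if_neg e1, if_neg e2]
        simp
  have hpi := hpsi i hi1 hi2 (by have := hi.2.2.1; omega)
  have hpj := hpsi j hj1 hj2 (by have := hj.2.2.1; omega)
  have hTe : ∀ k : ℕ × ℕ × ℕ × ℕ, IsIdx x k → Te k r < r - 1 := by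
    intro k hk
    unfold Te
    have := hrp.two_le
    have h6 := hk.2.2.2.2.2.1
    have h8 := hk.2.2.2.2.2.2.2
    split_ifs with e1 e2
    · rw [e1]; exact h6
    · rw [e2]; exact h8
    · (clear * - hgo this h6 h8 e1 e2; omega)
  have hord : orderOf (ech r n₀) = r - 1 := by
    rw [ech_orderOf hrp hn₀r]
    have : (n₀ : ZMod r) = (g : ZMod r) := (ZMod.natCast_eq_natCast_iff n₀ g r).2 hn1
    rw [this, hgo]
  have hnorm : ‖ech r n₀‖ = 1 := ech_norm_eq hrp hn₀r
  have hF : psi i n₀ * (starRingEnd ℂ) (psi j n₀) ≠ 1 := by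
    intro h
    apply hrne
    have hj1' : ‖psi j n₀‖ = 1 := by rw [hpj, norm_pow, hnorm, one_pow]
    have h3 : psi i n₀ = psi j n₀ := by
      have h4 : (starRingEnd ℂ) (psi j n₀) * psi j n₀ = 1 := by
        rw [mul_comm, Complex.mul_conj, Complex.normSq_eq_norm_sq, hj1']
        simp
      calc psi i n₀ = psi i n₀ * ((starRingEnd ℂ) (psi j n₀) * psi j n₀) := by rw [h4, mul_one]
        _ = (psi i n₀ * (starRingEnd ℂ) (psi j n₀)) * psi j n₀ := by ring
        _ = psi j n₀ := by rw [h, one_mul]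
    rw [hpi, hpj] at h3
    have := pow_injOn_Iio_orderOf (x := ech r n₀)
    exact this (by rw [hord]; exact hTe i hi) (by rw [hord]; exact hTe j hj) h3
  have hcoL : Nat.Coprime n₀ L := by
    rw [hLM]
    refine Nat.Coprime.mul_right ?_ ?_
    · exact ((Nat.Prime.coprime_iff_not_dvd hrp).2 hn₀r).symm
    · have : Nat.gcd n₀ M = Nat.gcd 1 M := hn2.gcd_eq
      rw [Nat.Coprime, this, Nat.gcd_one_left]
  have := periodic_sum (fun n => psi i n * (starRingEnd ℂ) (psi j n)) L hLpos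
    (fun m n => by
      simp only [psi_mul hi, psi_mul hj, map_mul]; ring)
    (fun m n hmn => by
      have h : ∀ s ∈ S, ech s m = ech s n := fun s hs =>
        ech_congr (hSp s hs) (hmn.of_dvd (Finset.dvd_prod_of_mem _ hs))
      simp only [psi, h _ hi1, h _ hi2, h _ hj1, h _ hj2])
    (fun n => by
      rw [norm_mul, RCLike.norm_conj]
      exact mul_le_one₀ (psi_norm_le hi n) (norm_nonneg _) (psi_norm_le hj n))
    n₀ hcoL hF N
  refine this.trans ?_
  exact_mod_cast hLle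

end Vale.Agent.P016
end
end

section

section

namespace Vale.Agent.P016

open Finset

/-- primes up to `x` -/
def Px (x : ℕ) : Finset ℕ := (Finset.range (x + 1)).filter Nat.Prime

lemma mem_Px {x p : ℕ} : p ∈ Px x ↔ p.Prime ∧ p ≤ x := by
  simp only [Px, mem_filter, mem_range, Order.lt_add_one_iff, and_comm]

noncomputable def gr (p a : ℕ) : ℝ := fp p a - wt p * up p a

lemma gp_eq_gr {p : ℕ} (hp : p.Prime) (a : ℕ) : gp p a = (gr p a : ℂ) := gp_eq hp a

lemma abs_gr_le {p : ℕ} (hp : p.Prime) (a : ℕ) : |gr p a| ≤ 1 := by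
  have := gp_norm_le hp a
  rwa [gp_eq_gr hp, Complex.norm_real, Real.norm_eq_abs] at this

/-- `G_x(a) = ∑_{p ≤ x} g_p(a)` -/
noncomputable def Gx (x a : ℕ) : ℝ := ∑ p ∈ Px x, gr p a

/-- index set -/
noncomputable def Idx (x : ℕ) : Finset (ℕ × ℕ × ℕ × ℕ) := by
  classical exact
  ((range (x + 1)) ×ˢ (range (x + 1)) ×ˢ (range (x + 1)) ×ˢ (range (x + 1))).filter (IsIdx x)

lemma mem_Idx {x : ℕ} {i : ℕ × ℕ × ℕ × ℕ} : i ∈ Idx x ↔ IsIdx x i := by
  classical
  unfold Idx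
  simp only [mem_filter, mem_product, mem_range, and_iff_right_iff_imp]
  rintro ⟨h1, h2, h3, h4, h5, h6, h7, h8⟩
  omega

lemma sum_idx (x : ℕ) (F : ℕ × ℕ × ℕ × ℕ → ℝ) :
    ∑ p ∈ Px x, ∑ p' ∈ (Px x).filter (fun p' => p < p'), ∑ t ∈ Ico 1 (p - 1),
      ∑ t' ∈ Ico 1 (p' - 1), F (p, t, p', t') = ∑ i ∈ Idx x, F i := by
  simp only [Finset.sum_sigma']
  refine Finset.sum_bij' (fun s _ => (s.1, s.2.2.1, s.2.1, s.2.2.2))
    (fun i _ => ⟨i.1, ⟨i.2.2.1, ⟨i.2.1, i.2.2.2⟩⟩⟩) ?_ ?_ ?_ ?_ ?_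
  · rintro ⟨p, p', t, t'⟩ h
    simp only [mem_sigma, mem_filter, mem_Px, mem_Ico] at h
    rw [mem_Idx]
    obtain ⟨h1, ⟨h2, h3⟩, h4, h5⟩ := h
    exact ⟨h1.1, h2.1, h3, h2.2, h4.1, h4.2, h5.1, h5.2⟩
  · rintro ⟨p, t, p', t'⟩ h
    rw [mem_Idx] at h
    obtain ⟨h1, h2, h3, h4, h5, h6, h7, h8⟩ := h
    simp only at h1 h2 h3 h4 h5 h6 h7 h8
    simp only [mem_sigma, mem_filter, mem_Px, mem_Ico]
    refine ⟨⟨h1, by omega⟩, ⟨⟨h2, h4⟩, h3⟩, ⟨h5, h6⟩, h7, h8⟩
  · rintro ⟨p, p', t, t'⟩ _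
    rfl
  · rintro ⟨p, t, p', t'⟩ _
    rfl
  · rintro ⟨p, p', t, t'⟩ _
    rfl

/-- the square of a sum over a finset of naturals -/
lemma sq_sum_eq (P : Finset ℕ) (f : ℕ → ℝ) :
    (∑ p ∈ P, f p) ^ 2 = ∑ p ∈ P, f p ^ 2 +
      2 * ∑ p ∈ P, ∑ p' ∈ P.filter (fun p' => p < p'), f p * f p' := by
  have h1 : (∑ p ∈ P, f p) ^ 2 = ∑ p ∈ P, ∑ p' ∈ P, f p * f p' := by
    rw [sq, Finset.sum_mul_sum]
  have h2 : ∀ p ∈ P, ∑ p' ∈ P, f p * f p' = f p ^ 2 +
      ∑ p' ∈ P.filter (fun p' => p < p'), f p * f p' +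
      ∑ p' ∈ P.filter (fun p' => p' < p), f p * f p' := by
    intro p hp
    have e1 : ∑ p' ∈ P, f p * f p' = ∑ p' ∈ P, ((if p = p' then f p * f p' else 0) +
        (if p < p' then f p * f p' else 0) + (if p' < p then f p * f p' else 0)) := by
      refine Finset.sum_congr rfl fun p' _ => ?_
      rcases lt_trichotomy p p' with h | h | h
      · simp [h, h.ne, h.not_gt]
      · simp [h]
      · simp [h, h.ne', h.not_gt]
    rw [e1, Finset.sum_add_distrib, Finset.sum_add_distrib, Finset.sum_ite_eq, if_pos hp,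
      Finset.sum_filter, Finset.sum_filter]
    ring
  rw [h1, Finset.sum_congr rfl h2, Finset.sum_add_distrib, Finset.sum_add_distrib]
  have h3 : ∑ p ∈ P, ∑ p' ∈ P.filter (fun p' => p' < p), f p * f p' =
      ∑ p ∈ P, ∑ p' ∈ P.filter (fun p' => p < p'), f p * f p' := by
    simp only [Finset.sum_filter]
    rw [Finset.sum_comm]
    refine Finset.sum_congr rfl fun p _ => Finset.sum_congr rfl fun p' _ => ?_
    split_ifs
    · ring
    · rfl
  rw [h3]
  ring

/-- `∑_q ψ_i(q)` -/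
noncomputable def Sq (Q : Finset ℕ) (i : ℕ × ℕ × ℕ × ℕ) : ℂ := ∑ q ∈ Q, psi i q

/-- off-diagonal term -/
lemma offdiag_term {p p' : ℕ} (hp : p.Prime) (hp' : p'.Prime) (m : ℕ) (Q : Finset ℕ) :
    |∑ q ∈ Q, gr p (m * q) * gr p' (m * q)| ≤
      ∑ t ∈ Ico 1 (p - 1), ∑ t' ∈ Ico 1 (p' - 1),
        |cf (p - 1) t| * |cf (p' - 1) t'| * ‖Sq Q (p, t, p', t')‖ := by
  have h1 : ((∑ q ∈ Q, gr p (m * q) * gr p' (m * q) : ℝ) : ℂ) =
      ∑ t ∈ Ico 1 (p - 1), ∑ t' ∈ Ico 1 (p' - 1),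
        (cf (p - 1) t : ℂ) * (cf (p' - 1) t' : ℂ) * (psi (p, t, p', t') m * Sq Q (p, t, p', t')) := by
    push_cast
    have e1 : ∀ q ∈ Q, ((gr p (m * q) : ℂ)) * (gr p' (m * q) : ℂ) =
        ∑ t ∈ Ico 1 (p - 1), ∑ t' ∈ Ico 1 (p' - 1),
        (cf (p - 1) t : ℂ) * (cf (p' - 1) t' : ℂ) *
          (psi (p, t, p', t') m * psi (p, t, p', t') q) := by
      intro q _
      rw [← gp_eq_gr hp, ← gp_eq_gr hp', gp, gp, Finset.sum_mul_sum]
      refine Finset.sum_congr rfl fun t _ => Finset.sum_congr rfl fun t' _ => ?_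
      simp only [psi, ech_mul hp, ech_mul hp', mul_pow]
      ring
    rw [Finset.sum_congr rfl e1, Finset.sum_comm]
    refine Finset.sum_congr rfl fun t _ => ?_
    rw [Finset.sum_comm]
    refine Finset.sum_congr rfl fun t' _ => ?_
    rw [Sq, Finset.mul_sum, Finset.mul_sum]
  have h2 : |∑ q ∈ Q, gr p (m * q) * gr p' (m * q)| =
      ‖((∑ q ∈ Q, gr p (m * q) * gr p' (m * q) : ℝ) : ℂ)‖ := by
    rw [Complex.norm_real, Real.norm_eq_abs]
  rw [h2, h1]
  refine (norm_sum_le _ _).trans (Finset.sum_le_sum fun t _ => ?_)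
  refine (norm_sum_le _ _).trans (Finset.sum_le_sum fun t' _ => ?_)
  rw [norm_mul, norm_mul, norm_mul, Complex.norm_real, Complex.norm_real, Real.norm_eq_abs,
    Real.norm_eq_abs]
  have hpsi : ‖psi (p, t, p', t') m‖ ≤ 1 := by
    simp only [psi]
    rw [norm_mul, norm_pow, norm_pow]
    have h1 := pow_le_one₀ (n := t) (norm_nonneg _) (ech_norm_le hp m)
    have h2 := pow_le_one₀ (n := t') (norm_nonneg _) (ech_norm_le hp' m)
    exact mul_le_one₀ h1 (by (clear * -; positivity)) h2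
  refine mul_le_mul_of_nonneg_left ?_ (by (clear * -; positivity))
  calc ‖psi (p, t, p', t') m‖ * ‖Sq Q (p, t, p', t')‖ ≤ 1 * ‖Sq Q (p, t, p', t')‖ :=
        mul_le_mul_of_nonneg_right hpsi (norm_nonneg _)
    _ = _ := one_mul _

/-- sum of the divisor function over shifted primes -/
noncomputable def Tau (x : ℕ) : ℝ := ∑ p ∈ Px x, ((p - 1).divisors.card : ℝ)

open Classical in
/-- bad indices -/
noncomputable def Bad (x : ℕ) (Q : Finset ℕ) (V : ℝ) : Finset (ℕ × ℕ × ℕ × ℕ) :=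
  (Idx x).filter (fun i => V < ‖Sq Q i‖)

lemma norm_Sq_le {x : ℕ} {i : ℕ × ℕ × ℕ × ℕ} (hi : IsIdx x i) (Q : Finset ℕ) :
    ‖Sq Q i‖ ≤ Q.card := by
  unfold Sq
  refine (norm_sum_le _ _).trans ?_
  calc ∑ q ∈ Q, ‖psi i q‖ ≤ ∑ q ∈ Q, (1 : ℝ) := Finset.sum_le_sum fun q _ => psi_norm_le hi q
    _ = Q.card := by simp

/-- variance bound in terms of the number of bad indices -/
lemma variance_le (x m : ℕ) (Q : Finset ℕ) (V : ℝ) (hV : 0 ≤ V) :
    ∑ q ∈ Q, (Gx x (m * q)) ^ 2 ≤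
      (x : ℝ) * Q.card + 2 * (V * Tau x ^ 2 + Q.card * (Bad x Q V).card * (1 + Real.log x) ^ 2) := by
  classical
  have h1 : ∑ q ∈ Q, (Gx x (m * q)) ^ 2 =
      ∑ p ∈ Px x, ∑ q ∈ Q, gr p (m * q) ^ 2 +
      2 * ∑ p ∈ Px x, ∑ p' ∈ (Px x).filter (fun p' => p < p'),
        ∑ q ∈ Q, gr p (m * q) * gr p' (m * q) := by
    simp only [Gx, sq_sum_eq]
    rw [Finset.sum_add_distrib, Finset.sum_comm, ← Finset.mul_sum]
    congr 2
    rw [Finset.sum_comm]
    refine Finset.sum_congr rfl fun p _ => ?_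
    rw [Finset.sum_comm]
  have h2 : ∑ p ∈ Px x, ∑ q ∈ Q, gr p (m * q) ^ 2 ≤ (x : ℝ) * Q.card := by
    have e1 : ∀ p ∈ Px x, ∑ q ∈ Q, gr p (m * q) ^ 2 ≤ Q.card := by
      intro p hp
      rw [mem_Px] at hp
      calc ∑ q ∈ Q, gr p (m * q) ^ 2 ≤ ∑ q ∈ Q, (1 : ℝ) := by
            refine Finset.sum_le_sum fun q _ => ?_
            rw [sq_le_one_iff_abs_le_one]
            exact abs_gr_le hp.1 _
        _ = Q.card := by simp
    refine (Finset.sum_le_sum e1).trans ?_
    rw [Finset.sum_const, nsmul_eq_mul]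
    refine mul_le_mul_of_nonneg_right ?_ (Nat.cast_nonneg _)
    have : (Px x).card ≤ x := by
      have : Px x ⊆ Icc 1 x := by
        intro p hp
        rw [mem_Px] at hp
        rw [mem_Icc]
        exact ⟨hp.1.one_le, hp.2⟩
      simpa only [ge_iff_le, Nat.card_Icc, add_tsub_cancel_right] using Finset.card_le_card this
    exact_mod_cast this
  have h3 : ∑ p ∈ Px x, ∑ p' ∈ (Px x).filter (fun p' => p < p'),
        ∑ q ∈ Q, gr p (m * q) * gr p' (m * q) ≤
      ∑ p ∈ Px x, ∑ p' ∈ (Px x).filter (fun p' => p < p'), ∑ t ∈ Ico 1 (p - 1),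
        ∑ t' ∈ Ico 1 (p' - 1), |cf (p - 1) t| * |cf (p' - 1) t'| *
          (V + (if (p, t, p', t') ∈ Bad x Q V then (Q.card : ℝ) else 0)) := by
    refine Finset.sum_le_sum fun p hp => Finset.sum_le_sum fun p' hp' => ?_
    rw [mem_filter, mem_Px] at hp'
    rw [mem_Px] at hp
    refine (le_abs_self _).trans ((offdiag_term hp.1 hp'.1.1 m Q).trans ?_)
    refine Finset.sum_le_sum fun t ht => Finset.sum_le_sum fun t' ht' => ?_
    rw [mem_Ico] at ht ht'
    have hidx : IsIdx x (p, t, p', t') := ⟨hp.1, hp'.1.1, hp'.2, hp'.1.2, ht.1, ht.2, ht'.1, ht'.2⟩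
    refine mul_le_mul_of_nonneg_left ?_ (by (clear * -; positivity))
    by_cases hb : (p, t, p', t') ∈ Bad x Q V
    · rw [if_pos hb]
      have := norm_Sq_le hidx Q
      linarith only [hV, this]
    · rw [if_neg hb, add_zero]
      by_contra hc
      push Not at hc
      exact hb (by rw [Bad, mem_filter, mem_Idx]; exact ⟨hidx, hc⟩)
  have h4 : ∑ p ∈ Px x, ∑ p' ∈ (Px x).filter (fun p' => p < p'), ∑ t ∈ Ico 1 (p - 1),
        ∑ t' ∈ Ico 1 (p' - 1), |cf (p - 1) t| * |cf (p' - 1) t'| *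
          (V + (if (p, t, p', t') ∈ Bad x Q V then (Q.card : ℝ) else 0)) =
      V * (∑ p ∈ Px x, ∑ p' ∈ (Px x).filter (fun p' => p < p'), ∑ t ∈ Ico 1 (p - 1),
        ∑ t' ∈ Ico 1 (p' - 1), |cf (p - 1) t| * |cf (p' - 1) t'|) +
      ∑ i ∈ Idx x, |cf (i.1 - 1) i.2.1| * |cf (i.2.2.1 - 1) i.2.2.2| *
        (if i ∈ Bad x Q V then (Q.card : ℝ) else 0) := by
    rw [← sum_idx x (fun i => |cf (i.1 - 1) i.2.1| * |cf (i.2.2.1 - 1) i.2.2.2| *
        (if i ∈ Bad x Q V then (Q.card : ℝ) else 0))]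
    simp only [mul_add, Finset.sum_add_distrib, Finset.mul_sum]
    refine congrArg₂ (· + ·) ?_ rfl
    refine Finset.sum_congr rfl fun p _ => Finset.sum_congr rfl fun p' _ =>
      Finset.sum_congr rfl fun t _ => Finset.sum_congr rfl fun t' _ => by ring
  have h5 : ∑ p ∈ Px x, ∑ p' ∈ (Px x).filter (fun p' => p < p'), ∑ t ∈ Ico 1 (p - 1),
        ∑ t' ∈ Ico 1 (p' - 1), |cf (p - 1) t| * |cf (p' - 1) t'| ≤ Tau x ^ 2 := by
    have e0 : ∀ p ∈ Px x, ∑ t ∈ Ico 1 (p - 1), |cf (p - 1) t| ≤ ((p - 1).divisors.card : ℝ) := by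
      intro p hp
      rw [mem_Px] at hp
      have hpos : 0 < p - 1 := by have := hp.1.two_le; omega
      refine le_trans ?_ (sum_abs_cf_le (p - 1) hpos)
      refine Finset.sum_le_sum_of_subset_of_nonneg ?_ fun _ _ _ => abs_nonneg _
      intro t ht
      rw [mem_Ico] at ht
      rw [mem_range]
      exact ht.2
    have e1 : ∀ p ∈ Px x, ∀ p' ∈ (Px x).filter (fun p' => p < p'),
        ∑ t ∈ Ico 1 (p - 1), ∑ t' ∈ Ico 1 (p' - 1), |cf (p - 1) t| * |cf (p' - 1) t'| ≤
        ((p - 1).divisors.card : ℝ) * ((p' - 1).divisors.card : ℝ) := by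
      intro p hp p' hp'
      rw [← Finset.sum_mul_sum]
      refine mul_le_mul (e0 p hp) (e0 p' (mem_of_mem_filter _ hp')) ?_ (Nat.cast_nonneg _)
      exact Finset.sum_nonneg fun _ _ => abs_nonneg _
    refine (Finset.sum_le_sum fun p hp => Finset.sum_le_sum fun p' hp' => e1 p hp p' hp').trans ?_
    rw [Tau, sq, Finset.sum_mul_sum]
    refine Finset.sum_le_sum fun p _ => ?_
    refine Finset.sum_le_sum_of_subset_of_nonneg (Finset.filter_subset _ _) fun _ _ _ => ?_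
    (clear * -; positivity)
  have h6 : ∑ i ∈ Idx x, |cf (i.1 - 1) i.2.1| * |cf (i.2.2.1 - 1) i.2.2.2| *
        (if i ∈ Bad x Q V then (Q.card : ℝ) else 0) ≤
      Q.card * (Bad x Q V).card * (1 + Real.log x) ^ 2 := by
    have e1 : ∀ i ∈ Idx x, |cf (i.1 - 1) i.2.1| * |cf (i.2.2.1 - 1) i.2.2.2| *
        (if i ∈ Bad x Q V then (Q.card : ℝ) else 0) ≤
        (if i ∈ Bad x Q V then (Q.card : ℝ) * (1 + Real.log x) ^ 2 else 0) := by
      intro i hi
      rw [mem_Idx] at hi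
      split_ifs with hb
      · have hx1 : ∀ p : ℕ, p.Prime → p ≤ x → ∀ t, |cf (p - 1) t| ≤ 1 + Real.log x := by
          intro p hp hpx t
          refine (abs_cf_le _ _).trans ?_
          have : Real.log ((p - 1 : ℕ) : ℝ) ≤ Real.log x := by
            refine Real.log_le_log ?_ ?_
            · have := hp.two_le
              have : 0 < p - 1 := by omega
              exact_mod_cast this
            · exact_mod_cast (by omega : p - 1 ≤ x)
          linarith only [this]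
        have h3 := hi.2.2.1
        have h4 := hi.2.2.2.1
        have c1 := hx1 i.1 hi.1 (by omega) i.2.1
        have c2 := hx1 i.2.2.1 hi.2.1 h4 i.2.2.2
        calc |cf (i.1 - 1) i.2.1| * |cf (i.2.2.1 - 1) i.2.2.2| * (Q.card : ℝ)
            ≤ ((1 + Real.log x) * (1 + Real.log x)) * (Q.card : ℝ) := by
              refine mul_le_mul_of_nonneg_right ?_ (Nat.cast_nonneg _)
              exact mul_le_mul c1 c2 (abs_nonneg _) ((abs_nonneg _).trans c1)
          _ = (Q.card : ℝ) * (1 + Real.log x) ^ 2 := by ring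
      · simp only [mul_zero, Std.le_refl]
    refine (Finset.sum_le_sum e1).trans ?_
    rw [← Finset.sum_filter]
    have : (Idx x).filter (fun i => i ∈ Bad x Q V) = Bad x Q V := by
      ext i
      simp only [Bad, mem_filter]
      (clear * -; tauto)
    rw [this, Finset.sum_const, nsmul_eq_mul]
    exact le_of_eq (by ring)
  rw [h1]
  have h7 := h3.trans (h4.le.trans (add_le_add (mul_le_mul_of_nonneg_left h5 hV) h6))
  linarith only [h2, h7]

end Vale.Agent.P016
end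
end

section

section

namespace Vale.Agent.P016

open Finset

lemma ev_log_pow (n : ℕ) (c : ℝ) : ∃ x₀ : ℕ, ∀ x : ℕ, x₀ ≤ x → c * (Real.log x) ^ n ≤ x := by
  have h := (Real.isLittleO_pow_log_id_atTop (n := n)).bound (c := 1 / (|c| + 1)) (by positivity)
  obtain ⟨r, hr⟩ := Filter.eventually_atTop.1 h
  refine ⟨max 1 ⌈r⌉₊, fun x hx => ?_⟩
  have hx1 : (1 : ℝ) ≤ x := by exact_mod_cast (le_max_left _ _).trans hx
  have hxr : r ≤ x := (Nat.le_ceil r).trans (by exact_mod_cast (le_max_right _ _).trans hx)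
  have h1 := hr x hxr
  simp only [id, Real.norm_eq_abs] at h1
  have hlog : 0 ≤ Real.log x ^ n := pow_nonneg (Real.log_nonneg hx1) n
  rw [abs_of_nonneg hlog, abs_of_nonneg (by linarith only [hx1] : (0 : ℝ) ≤ x)] at h1
  have h2 : (|c| + 1) * Real.log x ^ n ≤ x := by
    have := mul_le_mul_of_nonneg_left h1 (by (clear * -; positivity) : (0 : ℝ) ≤ |c| + 1)
    refine this.trans (le_of_eq ?_)
    field_simp
  refine le_trans ?_ h2
  refine mul_le_mul_of_nonneg_right ?_ hlog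
  have := le_abs_self c
  linarith only [this]

lemma ev_log_ge (c : ℝ) : ∃ x₀ : ℕ, ∀ x : ℕ, x₀ ≤ x → c ≤ Real.log x := by
  refine ⟨⌈Real.exp c⌉₊, fun x hx => ?_⟩
  have h1 : Real.exp c ≤ x := (Nat.le_ceil _).trans (by exact_mod_cast hx)
  have := Real.log_le_log (Real.exp_pos c) h1
  rwa [Real.log_exp] at this

lemma card_Px (Y : ℕ) : (Px Y).card = Nat.primeCounting Y := by
  rw [Nat.primeCounting, Nat.primeCounting', Nat.count_eq_card_filter_range]
  rfl

lemma pi_lower : ∃ y₀ : ℕ, ∀ Y : ℕ, y₀ ≤ Y → (Y : ℝ) / (2 * Real.log Y) ≤ (Px Y).card := by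
  obtain ⟨a, ha⟩ := ev_log_pow 1 20
  refine ⟨max a 3, fun Y hY => ?_⟩
  have h1 := ha Y ((le_max_left _ _).trans hY)
  have hY3 : 3 ≤ Y := (le_max_right _ _).trans hY
  have hYr : (3 : ℝ) ≤ Y := by exact_mod_cast hY3
  have hlog : 0 < Real.log Y := Real.log_pos (by linarith only [hYr])
  rw [card_Px]
  refine le_trans ?_ (Chebyshev.pi_ge Y)
  rw [div_le_div_iff₀ (by positivity) hlog]
  have hlog2 := Real.log_two_gt_d9
  have h2 : Real.log (Y + 1) ≤ 2 * Real.log Y := by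
    have : Real.log (Y + 1) ≤ Real.log (Y ^ 2) := Real.log_le_log (by linarith only []) (by nlinarith only [hYr])
    rwa [Real.log_pow, Nat.cast_ofNat] at this
  have h3 : Real.log (Y + 1) ≤ Y / 10 := by
    rw [pow_one] at h1
    linarith only [h1, h2]
  have h4 : (Y : ℝ) * Real.log 2 - Real.log (Y + 1) ≥ Y / 2 := by nlinarith only [h1, hlog, h2, hlog2]
  nlinarith only [hlog, h4]

lemma combine (x Y k : ℕ) (n u e : ℝ) (hn0 : 0 ≤ n) (hupos : 0 < u) (hkpos : 0 < k)
    (hY : (1 : ℝ) ≤ Y) (hxr : (256 : ℝ) ≤ x) (hk1r : (x : ℝ) ^ 6 ≤ (Y : ℝ) ^ k)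
    (hk3r : (Y : ℝ) ^ k ≤ (x : ℝ) ^ 9)
    (hu8 : u ^ 16 ≤ Y) (hkey : (k : ℝ) * Y / u ≤ e)
    (hmain : n * e ^ k ≤ (k.factorial : ℝ) * ((Y : ℝ) ^ k + 1 + n * (x : ℝ) ^ 4)) :
    n ≤ 2 * x := by
  have hfact : (k.factorial : ℝ) ≤ (k : ℝ) ^ k := by exact_mod_cast Nat.factorial_le_pow k
  have hkposr : (0 : ℝ) < k := by exact_mod_cast hkpos
  have h1 : n * ((k : ℝ) * Y / u) ^ k ≤ (k : ℝ) ^ k * ((Y : ℝ) ^ k + 1 + n * (x : ℝ) ^ 4) := by
    calc n * ((k : ℝ) * Y / u) ^ k ≤ n * e ^ k := by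
          refine mul_le_mul_of_nonneg_left ?_ hn0
          exact pow_le_pow_left₀ (by positivity) hkey k
      _ ≤ (k.factorial : ℝ) * ((Y : ℝ) ^ k + 1 + n * (x : ℝ) ^ 4) := hmain
      _ ≤ (k : ℝ) ^ k * ((Y : ℝ) ^ k + 1 + n * (x : ℝ) ^ 4) :=
          mul_le_mul_of_nonneg_right hfact (by (clear * - hY hn0 hxr; positivity))
  have h2 : n * (Y : ℝ) ^ k ≤ u ^ k * ((Y : ℝ) ^ k + 1 + n * (x : ℝ) ^ 4) := by
    have e1 : n * ((k : ℝ) * Y / u) ^ k = (k : ℝ) ^ k * (n * (Y : ℝ) ^ k / u ^ k) := by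
      rw [div_pow, mul_pow]; ring
    rw [e1] at h1
    have h3 := le_of_mul_le_mul_left h1 (by positivity)
    rw [div_le_iff₀ (by positivity)] at h3
    linarith only [h3]
  have hu8k : (u ^ k) ^ 16 ≤ (x : ℝ) ^ 9 := by
    rw [← pow_mul, mul_comm, pow_mul]
    exact (pow_le_pow_left₀ (by positivity) hu8 k).trans hk3r
  have hx0 : (0 : ℝ) < x := by linarith only [hxr]
  have huk0 : 0 < u ^ k := by positivity
  have hukx : u ^ k * 4 ≤ x := by
    by_contra hc
    push Not at hc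
    have h4 : (x : ℝ) ^ 16 < (u ^ k * 4) ^ 16 := pow_lt_pow_left₀ hc hx0.le (by norm_num)
    rw [mul_pow] at h4
    have h5 : (x : ℝ) ^ 16 < x ^ 9 * 4 ^ 16 := by
      refine lt_of_lt_of_le h4 ?_
      exact mul_le_mul_of_nonneg_right hu8k (by norm_num)
    have h6 : (x : ℝ) ^ 9 * 4 ^ 16 ≤ x ^ 16 := by
      have h7 : (4 : ℝ) ^ 16 ≤ x ^ 7 := by
        have h8 : (256 : ℝ) ^ 7 ≤ (x : ℝ) ^ 7 := pow_le_pow_left₀ (by norm_num) hxr 7
        exact le_trans (by norm_num) h8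
      calc (x : ℝ) ^ 9 * 4 ^ 16 ≤ x ^ 9 * x ^ 7 := mul_le_mul_of_nonneg_left h7 (by positivity)
        _ = x ^ 16 := by ring
    linarith only [hu8k, h4, h6]
  have hukx4 : 2 * (u ^ k * (x : ℝ) ^ 4) ≤ (Y : ℝ) ^ k := by
    refine le_trans ?_ hk1r
    have h1 : 2 * (u ^ k * (x : ℝ) ^ 4) = (u ^ k * 2) * x ^ 4 := by ring
    have h2 : (x : ℝ) ^ 6 = (x * x) * x ^ 4 := by ring
    rw [h1, h2]
    refine mul_le_mul_of_nonneg_right ?_ (by positivity)
    nlinarith only [hxr, hukx]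
  have hYk : (1 : ℝ) ≤ (Y : ℝ) ^ k := one_le_pow₀ hY
  have h6 : n * (Y : ℝ) ^ k ≤ u ^ k * (2 * (Y : ℝ) ^ k) + n * ((Y : ℝ) ^ k / 2) := by
    calc n * (Y : ℝ) ^ k ≤ u ^ k * ((Y : ℝ) ^ k + 1 + n * (x : ℝ) ^ 4) := h2
      _ = u ^ k * ((Y : ℝ) ^ k + 1) + n * (u ^ k * (x : ℝ) ^ 4) := by ring
      _ ≤ _ := by
        refine add_le_add ?_ ?_
        · exact mul_le_mul_of_nonneg_left (by linarith only [hYk]) (by positivity)
        · exact mul_le_mul_of_nonneg_left (by linarith only [hukx4]) hn0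
  have h7 : n * (Y : ℝ) ^ k ≤ (4 * u ^ k) * (Y : ℝ) ^ k := by linarith only [h6]
  have h8 := le_of_mul_le_mul_right h7 (by positivity)
  linarith only [hxr, hukx, h8]

/-- The number of bad indices is at most `2x`. -/
lemma bad_count (E : ℕ) : ∃ x₀ : ℕ, ∀ x : ℕ, x₀ ≤ x → ∀ Y : ℕ,
    (Real.log x) ^ (16 * (2 * E + 3)) ≤ Y → Y ≤ x ^ 3 →
    ((Bad x (Px Y) (1 / (Real.log x) ^ E * (Px Y).card)).card : ℝ) ≤ 2 * x := by
  obtain ⟨y₀, hy₀⟩ := pi_lower
  obtain ⟨x₁, hx₁⟩ := ev_log_ge (max 60 y₀)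
  refine ⟨max x₁ 256, fun x hx Y hY1 hYx => ?_⟩
  have hl := hx₁ x ((le_max_left _ _).trans hx)
  set l := Real.log x with hldef
  have hl18 : 60 ≤ l := (le_max_left _ _).trans hl
  have hly : (y₀ : ℝ) ≤ l := (le_max_right _ _).trans hl
  have hx16 : 256 ≤ x := (le_max_right _ _).trans hx
  have hl1 : 1 ≤ l := by linarith only [hl18]
  have hlpow : l ≤ l ^ (16 * (2 * E + 3)) := le_self_pow₀ hl1 (by omega)
  have hYl : l ≤ Y := hlpow.trans hY1
  have hY18 : (60 : ℝ) ≤ Y := hl18.trans hYl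
  have hY18' : 60 ≤ Y := by exact_mod_cast hY18
  have hYy : y₀ ≤ Y := by exact_mod_cast hly.trans hYl
  have hc := hy₀ Y hYy
  set c : ℝ := ((Px Y).card : ℝ) with hcdef
  set X := Bad x (Px Y) (1 / l ^ E * c) with hX
  set u : ℝ := l ^ (2 * E + 3) with hu
  set k := Nat.clog Y (x ^ 6) with hk
  have hk1 : x ^ 6 ≤ Y ^ k := Nat.le_pow_clog (by omega) _
  have hx5 : 1 < x ^ 6 := Nat.one_lt_pow (by norm_num) (by omega)
  have hk2 : Y ^ (k - 1) < x ^ 6 := by
    have := Nat.pow_pred_clog_lt_self (b := Y) (by omega) hx5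
    simpa only [gt_iff_lt, Nat.pred_eq_sub_one] using this
  have hkpos : 0 < k := Nat.clog_pos (by omega) hx5
  have hk3 : Y ^ k ≤ x ^ 9 := by
    have : Y ^ k = Y ^ (k - 1) * Y := by
      rw [← pow_succ]
      congr 1
      omega
    have h9 : x ^ 9 = x ^ 6 * x ^ 3 := by ring
    rw [this, h9]
    exact Nat.mul_le_mul hk2.le hYx
  -- real versions
  have hxr : (256 : ℝ) ≤ x := by exact_mod_cast hx16
  have hk1r : (x : ℝ) ^ 6 ≤ (Y : ℝ) ^ k := by exact_mod_cast hk1
  have hk3r : (Y : ℝ) ^ k ≤ (x : ℝ) ^ 9 := by exact_mod_cast hk3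
  have hYpos : (0 : ℝ) < Y := by linarith only [hY1, hl18, hlpow]
  have hlogY : 1 ≤ Real.log Y := by
    have : Real.exp 1 ≤ Y := by
      have := Real.exp_one_lt_d9
      linarith only [hY1, hl18, hlpow, this]
    have := Real.log_le_log (Real.exp_pos 1) this
    rwa [Real.log_exp] at this
  have hlogYl : Real.log Y ≤ 3 * l := by
    have h1 : Real.log Y ≤ Real.log ((x : ℝ) ^ 3) := Real.log_le_log hYpos (by exact_mod_cast hYx)
    rw [Real.log_pow] at h1
    exact_mod_cast h1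
  have hkl : (k : ℝ) ≤ 7 * l := by
    have h1 : Real.log ((Y : ℝ) ^ (k - 1)) ≤ Real.log ((x : ℝ) ^ 6) := by
      refine Real.log_le_log (by positivity) ?_
      exact_mod_cast hk2.le
    rw [Real.log_pow, Real.log_pow] at h1
    have h2 : ((k - 1 : ℕ) : ℝ) ≤ ((k - 1 : ℕ) : ℝ) * Real.log Y :=
      le_mul_of_one_le_right (Nat.cast_nonneg _) hlogY
    have h3 : ((k - 1 : ℕ) : ℝ) = k - 1 := by
      rw [Nat.cast_sub (by omega)]; simp only [Nat.cast_one]
    rw [h3] at h1 h2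
    push_cast at h1
    linarith only [hl18, h1, h2]
  have hcpos : 0 < c := by
    refine lt_of_lt_of_le ?_ hc
    (clear * - hY18' hlogY; positivity)
  -- the key inequality: k * Y / u ≤ ε² c
  have hupos : 0 < u := by positivity
  have hkey : (k : ℝ) * Y / u ≤ (1 / l ^ E) ^ 2 * c := by
    have h1 : (Y : ℝ) / (6 * l) ≤ c := by
      refine le_trans ?_ hc
      exact div_le_div_of_nonneg_left hYpos.le (by (clear * - hlogY; positivity)) (by linarith only [hlogYl])
    have h2 : (1 / l ^ E) ^ 2 * ((Y : ℝ) / (6 * l)) ≤ (1 / l ^ E) ^ 2 * c :=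
      mul_le_mul_of_nonneg_left h1 (by positivity)
    refine le_trans ?_ h2
    have hlpos : 0 < l := by linarith only [hl18]
    have e1 : (1 / l ^ E) ^ 2 * ((Y : ℝ) / (6 * l)) = Y / (6 * (l * (l ^ E) ^ 2)) := by
      field_simp
    rw [e1, div_le_div_iff₀ hupos (by positivity)]
    have e2 : u = (l * (l ^ E) ^ 2) * l ^ 2 := by
      rw [hu]; ring
    rw [e2]
    have h3 : (k : ℝ) * 6 ≤ l ^ 2 := by nlinarith only [hl18, hkl]
    have h4 : 0 ≤ (Y : ℝ) * (l * (l ^ E) ^ 2) := by positivity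
    linarith only [mul_le_mul_of_nonneg_left h3 h4]
  have hmain := HM (Px Y) (fun q hq => (mem_Px.1 hq).1) k (Y ^ k + 1) Y
    (fun q hq => (mem_Px.1 hq).2) (Nat.lt_succ_self _) X psi
    (fun i hi => psi_one (mem_Idx.1 (mem_of_mem_filter i hi)))
    (fun i hi m n => psi_mul (mem_Idx.1 (mem_of_mem_filter i hi)) m n)
    (fun i hi n => psi_norm_le (mem_Idx.1 (mem_of_mem_filter i hi)) n)
    ((x : ℝ) ^ 4) (by positivity)
    (fun i hi j hj hij => by
      have h1 := orth x i j (mem_Idx.1 (mem_of_mem_filter i hi))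
        (mem_Idx.1 (mem_of_mem_filter j hj)) hij (Y ^ k)
      have h2 : ∑ n ∈ range (Y ^ k + 1), psi i n * (starRingEnd ℂ) (psi j n) =
          ∑ n ∈ Icc 1 (Y ^ k), psi i n * (starRingEnd ℂ) (psi j n) := by
        rw [Finset.sum_range_succ']
        have h0 : psi i 0 = 0 := by
          have hi' := mem_Idx.1 (mem_of_mem_filter i hi)
          unfold psi
          rw [(ech_eq_zero hi'.1).2 (dvd_zero _), zero_pow (by have := hi'.2.2.2.2.1; omega), zero_mul]
        rw [h0, zero_mul, add_zero, Finset.range_eq_Ico,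
          Finset.sum_Ico_add' (fun n => psi i n * (starRingEnd ℂ) (psi j n)) 0 (Y ^ k) 1]
        rfl
      rw [h2]
      exact h1)
    (1 / l ^ E) (by positivity)
    (fun i hi => by
      have := (mem_filter.1 hi).2
      exact this.le)
  have hu8 : u ^ 16 ≤ Y := by
    rw [hu, ← pow_mul, mul_comm]
    exact hY1
  exact combine x Y k _ u _ (Nat.cast_nonneg _) hupos hkpos (by linarith only [hY1, hl18, hlpow]) hxr hk1r hk3r hu8 hkey
    (by exact_mod_cast hmain)

end Vale.Agent.P016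
end
end

section

section

open Finset

namespace Vale.Agent.P016

/-- Primes up to `z`. -/
def primesUpto (z : ℕ) : Finset ℕ := (Icc 1 z).filter Nat.Prime

lemma mem_primesUpto {z p : ℕ} : p ∈ primesUpto z ↔ p.Prime ∧ p ≤ z := by
  unfold primesUpto
  rw [mem_filter, mem_Icc]
  constructor
  · rintro ⟨⟨_, h2⟩, h3⟩; exact ⟨h3, h2⟩
  · rintro ⟨h1, h2⟩; exact ⟨⟨h1.one_lt.le, h2⟩, h1⟩

lemma log_eq_sum_primesUpto (z a : ℕ) (_ha : a ≠ 0) (h : ∀ q : ℕ, q.Prime → q ∣ a → q ≤ z) :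
    Real.log a = ∑ p ∈ primesUpto z, (a.factorization p : ℝ) * Real.log p := by
  rw [Real.log_nat_eq_sum_factorization a]
  apply Finsupp.sum_of_support_subset
  · intro p hp
    rw [Nat.support_factorization] at hp
    rw [mem_primesUpto]
    exact ⟨Nat.prime_of_mem_primeFactors hp,
      h p (Nat.prime_of_mem_primeFactors hp) (Nat.dvd_of_mem_primeFactors hp)⟩
  · intro i _
    simp

lemma sum_log_div_le (z : ℕ) (hz : 1 ≤ z) :
    ∑ p ∈ primesUpto z, Real.log p / p ≤ Real.log z + Real.log 4 := by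
  have hz0 : (0 : ℝ) < z := by exact_mod_cast hz
  have h1 : ∑ p ∈ primesUpto z, ((z / p : ℕ) : ℝ) * Real.log p ≤ z * Real.log z := by
    have h2 : ∑ a ∈ Icc 1 z, Real.log a ≤ z * Real.log z := by
      calc ∑ a ∈ Icc 1 z, Real.log a ≤ ∑ a ∈ Icc 1 z, Real.log z := by
            refine Finset.sum_le_sum fun a ha => ?_
            rw [mem_Icc] at ha
            exact Real.log_le_log (by exact_mod_cast (by omega : 0 < a)) (by exact_mod_cast ha.2)
        _ = z * Real.log z := by simp only [sum_const, Nat.card_Icc, add_tsub_cancel_right, nsmul_eq_mul]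
    refine le_trans ?_ h2
    have h3 : ∑ a ∈ Icc 1 z, Real.log a =
        ∑ p ∈ primesUpto z, ∑ a ∈ Icc 1 z, (a.factorization p : ℝ) * Real.log p := by
      rw [Finset.sum_comm]
      refine Finset.sum_congr rfl fun a ha => ?_
      rw [mem_Icc] at ha
      exact log_eq_sum_primesUpto z a (by omega)
        (fun q _ hqa => (Nat.le_of_dvd (by omega) hqa).trans ha.2)
    rw [h3]
    refine Finset.sum_le_sum fun p hp => ?_
    rw [mem_primesUpto] at hp
    rw [← Finset.sum_mul]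
    refine mul_le_mul_of_nonneg_right ?_ (Real.log_natCast_nonneg p)
    have h4 : (z / p : ℕ) = #{a ∈ Icc 1 z | p ∣ a} := by
      have := Nat.Ioc_filter_dvd_card_eq_div z p
      rw [← this]
      congr 1
    rw [h4, Finset.card_filter]
    push_cast
    refine Finset.sum_le_sum fun a ha => ?_
    rw [mem_Icc] at ha
    split_ifs with hpa
    · have : 1 ≤ a.factorization p :=
        (hp.1.dvd_iff_one_le_factorization (by omega)).mp hpa
      exact_mod_cast this
    · (clear * -; positivity)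
  have h5 : ∑ p ∈ primesUpto z, Real.log p ≤ Real.log 4 * z := by
    have := Chebyshev.theta_le_log4_mul_x (x := (z : ℝ)) (by positivity)
    rw [Chebyshev.theta_eq_sum_Icc] at this
    refine le_trans (le_of_eq ?_) this
    refine Finset.sum_congr ?_ fun _ _ => rfl
    ext p
    rw [mem_primesUpto, mem_filter, mem_Icc]
    simp only [Nat.floor_natCast]
    constructor
    · rintro ⟨h1, h2⟩; exact ⟨⟨by omega, h2⟩, h1⟩
    · rintro ⟨⟨_, h2⟩, h3⟩; exact ⟨h3, h2⟩
  have h6 : (z : ℝ) * ∑ p ∈ primesUpto z, Real.log p / p ≤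
      ∑ p ∈ primesUpto z, ((z / p : ℕ) : ℝ) * Real.log p + ∑ p ∈ primesUpto z, Real.log p := by
    rw [Finset.mul_sum, ← Finset.sum_add_distrib]
    refine Finset.sum_le_sum fun p hp => ?_
    rw [mem_primesUpto] at hp
    have hp0 : (0 : ℝ) < p := by exact_mod_cast hp.1.pos
    have h7 : (z : ℝ) / p ≤ ((z / p : ℕ) : ℝ) + 1 := by
      rw [div_le_iff₀ hp0]
      have := Nat.lt_div_mul_add hp.1.pos (a := z)
      have h8 : (z : ℝ) < ((z / p * p + p : ℕ) : ℝ) := by exact_mod_cast this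
      push_cast at h8
      linarith only [h8]
    calc (z : ℝ) * (Real.log p / p) = (z : ℝ) / p * Real.log p := by ring
      _ ≤ (((z / p : ℕ) : ℝ) + 1) * Real.log p :=
          mul_le_mul_of_nonneg_right h7 (Real.log_natCast_nonneg p)
      _ = _ := by ring
  have h9 : (z : ℝ) * ∑ p ∈ primesUpto z, Real.log p / p ≤ z * (Real.log z + Real.log 4) := by
    linarith only [h1, h5, h6]
  exact le_of_mul_le_mul_left h9 hz0

lemma sum_factorization_Icc (y p : ℕ) :
    ∑ a ∈ Icc 1 y, a.factorization p = (y.factorial).factorization p := by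
  induction y with
  | zero => simp only [Order.lt_one_iff, Icc_eq_empty_of_lt, sum_empty, Nat.factorial_zero, Nat.factorization_one, Finsupp.coe_zero, Pi.zero_apply]
  | succ y ih =>
    rw [Finset.sum_Icc_succ_top (by omega), ih, Nat.factorial_succ,
      Nat.factorization_mul (by omega) (Nat.factorial_ne_zero y)]
    simp only [add_comm, Finsupp.coe_add, Pi.add_apply, Nat.add_left_cancel_iff]

open Classical in
lemma smooth_sum_log_le (z y : ℕ) (hz : 1 ≤ z) :
    ∑ a ∈ (Icc 1 y).filter (fun a => ∀ q : ℕ, q.Prime → q ∣ a → q ≤ z), Real.log a ≤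
      2 * y * (Real.log z + Real.log 4) := by
  calc ∑ a ∈ (Icc 1 y).filter (fun a => ∀ q : ℕ, q.Prime → q ∣ a → q ≤ z), Real.log a
      = ∑ a ∈ (Icc 1 y).filter (fun a => ∀ q : ℕ, q.Prime → q ∣ a → q ≤ z),
          ∑ p ∈ primesUpto z, (a.factorization p : ℝ) * Real.log p := by
        refine Finset.sum_congr rfl fun a ha => ?_
        rw [mem_filter, mem_Icc] at ha
        exact log_eq_sum_primesUpto z a (by omega) ha.2
    _ ≤ ∑ a ∈ Icc 1 y, ∑ p ∈ primesUpto z, (a.factorization p : ℝ) * Real.log p := by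
        refine Finset.sum_le_sum_of_subset_of_nonneg (Finset.filter_subset _ _) fun a _ _ => ?_
        exact Finset.sum_nonneg fun p _ =>
          mul_nonneg (Nat.cast_nonneg _) (Real.log_natCast_nonneg p)
    _ = ∑ p ∈ primesUpto z, ((y.factorial).factorization p : ℝ) * Real.log p := by
        rw [Finset.sum_comm]
        refine Finset.sum_congr rfl fun p _ => ?_
        rw [← Finset.sum_mul, ← sum_factorization_Icc y p]
        push_cast
        rfl
    _ ≤ ∑ p ∈ primesUpto z, 2 * y * (Real.log p / p) := by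
        refine Finset.sum_le_sum fun p hp => ?_
        rw [mem_primesUpto] at hp
        have h1 := Nat.factorization_factorial_le_div_pred hp.1 y
        have h2 : ((y.factorial).factorization p : ℝ) ≤ 2 * y / p := by
          calc ((y.factorial).factorization p : ℝ) ≤ ((y / (p - 1) : ℕ) : ℝ) := by
                exact_mod_cast h1
            _ ≤ (y : ℝ) / ((p - 1 : ℕ) : ℝ) := Nat.cast_div_le
            _ ≤ 2 * y / p := by
                have hp2 := hp.1.two_le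
                have hp2' : (2 : ℝ) ≤ p := by exact_mod_cast hp2
                rw [Nat.cast_sub (by omega), Nat.cast_one]
                rw [div_le_div_iff₀ (by linarith only [hp2']) (by linarith only [hp2'])]
                have : (0 : ℝ) ≤ y := by positivity
                nlinarith only [hp2']
        calc ((y.factorial).factorization p : ℝ) * Real.log p ≤ 2 * y / p * Real.log p :=
              mul_le_mul_of_nonneg_right h2 (Real.log_natCast_nonneg p)
          _ = _ := by ring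
    _ = 2 * y * ∑ p ∈ primesUpto z, Real.log p / p := by rw [Finset.mul_sum]
    _ ≤ _ := mul_le_mul_of_nonneg_left (sum_log_div_le z hz) (by positivity)

open Classical in
lemma smooth_count (δ : ℝ) (hδ : 0 < δ) : ∃ H : ℕ, ∃ y₀ : ℕ, ∀ z y : ℕ, 2 ≤ z → y₀ ≤ y →
    z ^ H ≤ y →
    (((Finset.Icc 1 y).filter (fun a => ∀ q : ℕ, q.Prime → q ∣ a → q ≤ z)).card : ℝ) ≤
      δ * y := by
  refine ⟨⌈24 / δ⌉₊ + 1, ⌈(2 / δ) ^ 2⌉₊ + 1, fun z y hz hy hzy => ?_⟩
  set H := ⌈24 / δ⌉₊ + 1 with hH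
  have hHδ : 24 / δ ≤ H := by
    rw [hH]; push_cast
    linarith only [Nat.le_ceil (24 / δ)]
  have hH0 : (0 : ℝ) < H := by positivity
  have hy1 : (2 / δ) ^ 2 ≤ y := by
    have h1 : ((⌈(2 / δ) ^ 2⌉₊ : ℕ) : ℝ) ≤ y := by exact_mod_cast (by omega)
    linarith only [h1, Nat.le_ceil ((2 / δ) ^ 2)]
  have hy0 : (0 : ℝ) < y := by
    have : 0 < (2 / δ) ^ 2 := by positivity
    linarith only [hy1, this]
  have hsq : Real.sqrt y ≤ δ / 2 * y := by
    have h2 : 2 / δ ≤ Real.sqrt y := Real.le_sqrt_of_sq_le hy1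
    have h3 : Real.sqrt y * Real.sqrt y = y := Real.mul_self_sqrt hy0.le
    have h4 : 0 ≤ Real.sqrt y := Real.sqrt_nonneg _
    have h5 : 1 ≤ δ / 2 * Real.sqrt y := by
      have : δ / 2 * (2 / δ) ≤ δ / 2 * Real.sqrt y :=
        mul_le_mul_of_nonneg_left h2 (by positivity)
      have h6 : δ / 2 * (2 / δ) = 1 := by field_simp
      linarith only [this, h6]
    nlinarith only [hδ, h3, h4, h5]
  have hz2 : (2 : ℝ) ≤ z := by exact_mod_cast hz
  have hlogz : Real.log 2 ≤ Real.log z := Real.log_le_log (by norm_num) hz2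
  have hlog2 : 0 < Real.log 2 := Real.log_pos (by norm_num)
  have hlog4 : Real.log 4 ≤ 2 * Real.log z := by
    have : Real.log 4 = 2 * Real.log 2 := by
      rw [show (4 : ℝ) = 2 ^ 2 by norm_num, Real.log_pow]; norm_num
    linarith only [hlogz, this]
  have hHz : (H : ℝ) * Real.log z ≤ Real.log y := by
    rw [← Real.log_pow]
    apply Real.log_le_log (by positivity)
    exact_mod_cast hzy
  have hlogy : 0 < Real.log y := by
    have : 0 < (H : ℝ) * Real.log z := by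
      apply mul_pos hH0; linarith only [hlogz, hlog2]
    linarith only [hHz, this]
  set S := (Icc 1 y).filter (fun a => ∀ q : ℕ, q.Prime → q ∣ a → q ≤ z) with hS
  have hsum := smooth_sum_log_le z y (by omega)
  rw [← hS] at hsum
  -- split
  have hsplit : (#S : ℝ) ≤ Real.sqrt y + #(S.filter fun a => y < a * a) := by
    have h1 : #S = #(S.filter fun a => y < a * a) + #(S.filter fun a => ¬ y < a * a) :=
      (Finset.card_filter_add_card_filter_not _).symm
    have h2 : #(S.filter fun a => ¬ y < a * a) ≤ Nat.sqrt y := by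
      calc #(S.filter fun a => ¬ y < a * a) ≤ #(Icc 1 (Nat.sqrt y)) := by
            refine card_le_card fun a ha => ?_
            rw [mem_filter, hS, mem_filter, mem_Icc] at ha
            rw [mem_Icc]
            exact ⟨ha.1.1.1, Nat.le_sqrt.mpr (by omega)⟩
        _ = Nat.sqrt y := by simp only [Nat.card_Icc, add_tsub_cancel_right]
    have h3 : (Nat.sqrt y : ℝ) ≤ Real.sqrt y := Real.nat_sqrt_le_real_sqrt
    have h4 : (#(S.filter fun a => ¬ y < a * a) : ℝ) ≤ (Nat.sqrt y : ℝ) := by exact_mod_cast h2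
    rw [h1]
    push_cast
    linarith only [h3, h4]
  have hbig : (#(S.filter fun a => y < a * a) : ℝ) * (Real.log y / 2) ≤
      2 * y * (Real.log z + Real.log 4) := by
    refine le_trans ?_ hsum
    calc (#(S.filter fun a => y < a * a) : ℝ) * (Real.log y / 2)
        = ∑ a ∈ S.filter (fun a => y < a * a), Real.log y / 2 := by simp only [sum_const, nsmul_eq_mul]
      _ ≤ ∑ a ∈ S.filter (fun a => y < a * a), Real.log a := by
          refine Finset.sum_le_sum fun a ha => ?_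
          rw [mem_filter] at ha
          have h1 : Real.log y ≤ Real.log ((a : ℝ) * a) := by
            apply Real.log_le_log hy0
            exact_mod_cast ha.2.le
          have ha0 : (a : ℝ) ≠ 0 := by
            rintro h0
            have : a = 0 := by exact_mod_cast h0
            rw [this] at ha
            omega
          rw [Real.log_mul ha0 ha0] at h1
          linarith only [h1]
      _ ≤ ∑ a ∈ S, Real.log a :=
          Finset.sum_le_sum_of_subset_of_nonneg (Finset.filter_subset _ _)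
            fun a _ _ => Real.log_natCast_nonneg a
  have hfin : (#(S.filter fun a => y < a * a) : ℝ) ≤ δ / 2 * y := by
    have h1 : (#(S.filter fun a => y < a * a) : ℝ) * (Real.log y / 2) ≤
        δ / 2 * y * (Real.log y / 2) := by
      refine hbig.trans ?_
      have h2 : Real.log z + Real.log 4 ≤ 3 * Real.log z := by linarith only [hlog4]
      have h3 : 24 * Real.log z ≤ δ * Real.log y := by
        have h4 : 24 ≤ δ * H := by
          have := mul_le_mul_of_nonneg_left hHδ hδ.le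
          have h6 : δ * (24 / δ) = 24 := by field_simp
          linarith only [this, h6]
        have h5 : δ * (H * Real.log z) ≤ δ * Real.log y := mul_le_mul_of_nonneg_left hHz hδ.le
        nlinarith only [h5, hlogz, h4, hlog2]
      calc 2 * (y : ℝ) * (Real.log z + Real.log 4) ≤ 2 * y * (3 * Real.log z) :=
            mul_le_mul_of_nonneg_left h2 (by (clear * - hy0; positivity))
        _ = y / 4 * (24 * Real.log z) := by ring
        _ ≤ y / 4 * (δ * Real.log y) := mul_le_mul_of_nonneg_left h3 (by positivity)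
        _ = δ / 2 * y * (Real.log y / 2) := by ring
    exact le_of_mul_le_mul_right h1 (by positivity)
  calc (#S : ℝ) ≤ Real.sqrt y + #(S.filter fun a => y < a * a) := hsplit
    _ ≤ δ / 2 * y + δ / 2 * y := add_le_add hsq hfin
    _ = δ * y := by ring

end Vale.Agent.P016
end
end

section

section

namespace Vale.Agent.P016.Rk

open Finset Filter Topology

/-- completely multiplicative extension of `p ↦ f p`, divided by `n` -/
noncomputable def rk (f : ℕ → ℝ) (n : ℕ) : ℝ :=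
  (n.factorization.prod fun p k => f p ^ k) / (n : ℝ)

theorem rk_eq (f : ℕ → ℝ) (n : ℕ) :
    rk f n = (∏ p ∈ n.primeFactors, (f p) ^ (n.factorization p)) / (n : ℝ) := rfl

theorem rk_mul (f : ℕ → ℝ) (m n : ℕ) : rk f (m * n) = rk f m * rk f n := by
  rcases eq_or_ne m 0 with hm | hm
  · subst hm; simp [rk]
  rcases eq_or_ne n 0 with hn | hn
  · subst hn; simp only [rk, mul_zero, Nat.factorization_zero, Finsupp.prod_zero_index, CharP.cast_eq_zero, div_zero]
  unfold rk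
  rw [Nat.factorization_mul hm hn, Finsupp.prod_add_index' (by simp) (by intro a b c; exact pow_add _ _ _),
    Nat.cast_mul, mul_div_mul_comm]

/-- as a monoid hom -/
noncomputable def rkHom (f : ℕ → ℝ) : ℕ →* ℝ where
  toFun := rk f
  map_one' := by simp [rk]
  map_mul' := rk_mul f

theorem rk_prime (f : ℕ → ℝ) {p : ℕ} (hp : p.Prime) : rk f p = f p / p := by
  unfold rk
  rw [hp.factorization, Finsupp.prod_single_index (by simp), pow_one]

theorem rankin (P : Finset ℕ) (hP : ∀ p ∈ P, p.Prime) (f : ℕ → ℝ) (hf0 : ∀ p ∈ P, 0 ≤ f p)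
    (hf1 : ∀ p ∈ P, f p < p) (s : Finset ℕ) (hs : ∀ n ∈ s, n ≠ 0 ∧ n.primeFactors ⊆ P) :
    ∑ n ∈ s, (∏ p ∈ n.primeFactors, (f p) ^ (n.factorization p)) / (n : ℝ)
      ≤ ∏ p ∈ P, (1 - f p / p)⁻¹ := by
  classical
  set g : ℕ → ℝ := fun p => if p ∈ P then f p else 0 with hg
  have hg0 : ∀ p, 0 ≤ g p := by
    intro p
    simp only [hg]
    split_ifs with h
    · exact hf0 p h
    · exact le_rfl
  have h1 : ∀ {p : ℕ}, p.Prime → ‖rkHom g p‖ < 1 := by
    intro p hp
    have hp0 : (0 : ℝ) < p := by exact_mod_cast hp.pos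
    show ‖rk g p‖ < 1
    rw [rk_prime g hp, Real.norm_of_nonneg (div_nonneg (hg0 p) hp0.le), div_lt_one hp0]
    simp only [hg]
    split_ifs with h
    · exact hf1 p h
    · exact hp0
  obtain ⟨hsum, hhas⟩ :=
    EulerProduct.summable_and_hasSum_factoredNumbers_prod_filter_prime_geometric h1 P
  have hprod : ∏ p ∈ P with p.Prime, (1 - rkHom g p)⁻¹ = ∏ p ∈ P, (1 - f p / p)⁻¹ := by
    rw [Finset.filter_true_of_mem hP]
    refine Finset.prod_congr rfl fun p hp => ?_
    show (1 - rk g p)⁻¹ = _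
    rw [rk_prime g (hP p hp)]
    simp only [hg, if_pos hp]
  rw [hprod] at hhas
  have hnonneg : ∀ n : ℕ, 0 ≤ rk g n := by
    intro n
    rw [rk_eq]
    exact div_nonneg (Finset.prod_nonneg fun p _ => pow_nonneg (hg0 p) _) (Nat.cast_nonneg n)
  have hmem : ∀ n ∈ s, n ∈ Nat.factoredNumbers P := fun n hn =>
    Nat.mem_factoredNumbers_of_primeFactors_subset (hs n hn).1 (hs n hn).2
  have hle := sum_le_hasSum (s.subtype (fun n => n ∈ Nat.factoredNumbers P))
    (fun i _ => hnonneg i) hhas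
  refine le_trans (le_of_eq ?_) hle
  have h2 := Finset.sum_subtype_of_mem (p := fun n => n ∈ Nat.factoredNumbers P)
    (f := fun n => rk g n) hmem
  refine Eq.trans ?_ h2.symm
  refine Finset.sum_congr rfl fun n hn => ?_
  show _ = rk g n
  rw [rk_eq]
  congr 1
  refine Finset.prod_congr rfl fun p hp => ?_
  have := (hs n hn).2 hp
  simp only [hg, if_pos this]

theorem inv_one_sub_le_exp {x : ℝ} (h0 : 0 ≤ x) (h1 : x ≤ 2 / 3) :
    (1 - x)⁻¹ ≤ Real.exp (x + 3 * x ^ 2) := by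
  have h2 : 0 < 1 - x := by linarith
  rw [inv_le_comm₀ h2 (Real.exp_pos _), ← Real.exp_neg]
  have h3 : 0 < 1 + (x + 3 * x ^ 2) := by positivity
  have h4 : Real.exp (-(x + 3 * x ^ 2)) ≤ (1 + (x + 3 * x ^ 2))⁻¹ := by
    rw [Real.exp_neg]
    apply inv_anti₀ h3
    have := Real.add_one_le_exp (x + 3 * x ^ 2)
    linarith only [this]
  refine h4.trans ?_
  rw [inv_le_iff_one_le_mul₀ h3]
  nlinarith only [h1]

/-- bound for an Euler product -/
theorem prod_inv_le (P : Finset ℕ) (f : ℕ → ℝ) (θ : ℝ) (h0 : 0 ≤ θ)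
    (hθ : θ < 2) (hf0 : ∀ p ∈ P, 0 ≤ f p) (hf : ∀ p ∈ P, p ≠ 2 → f p / p ≤ 2 / 3)
    (h2 : f 2 ≤ θ) :
    ∏ p ∈ P, (1 - f p / p)⁻¹ ≤
      (1 - θ / 2)⁻¹ * Real.exp (∑ p ∈ P, (f p / p) + ∑ p ∈ P.erase 2, 3 * (f p / p) ^ 2) := by
  have hx0 : ∀ p ∈ P, 0 ≤ f p / p := fun p hp => div_nonneg (hf0 p hp) (Nat.cast_nonneg p)
  have h3 : ∏ p ∈ P.erase 2, (1 - f p / p)⁻¹ ≤
      Real.exp (∑ p ∈ P.erase 2, (f p / p + 3 * (f p / p) ^ 2)) := by
    rw [Real.exp_sum]
    refine Finset.prod_le_prod (fun p hp => ?_) fun p hp => ?_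
    · have := hf p (Finset.mem_of_mem_erase hp) (Finset.ne_of_mem_erase hp)
      rw [inv_nonneg]; linarith
    · exact inv_one_sub_le_exp (hx0 p (Finset.mem_of_mem_erase hp))
        (hf p (Finset.mem_of_mem_erase hp) (Finset.ne_of_mem_erase hp))
  rw [Finset.sum_add_distrib] at h3
  have h1 : 1 ≤ (1 - θ / 2)⁻¹ := by
    rw [one_le_inv₀ (by linarith only [hθ])]; linarith only [h0]
  by_cases h2P : 2 ∈ P
  · rw [← Finset.mul_prod_erase P _ h2P, ← Finset.add_sum_erase P _ h2P]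
    have h4 : (1 - f 2 / ((2 : ℕ) : ℝ))⁻¹ ≤ (1 - θ / 2)⁻¹ := by
      apply inv_anti₀ (by linarith only [hθ])
      push_cast
      linarith only [h2]
    have h5 := hx0 2 h2P
    refine mul_le_mul h4 (h3.trans (Real.exp_le_exp.mpr (by linarith only [h5]))) ?_ (by linarith only [h1])
    refine Finset.prod_nonneg fun p hp => ?_
    have := hf p (Finset.mem_of_mem_erase hp) (Finset.ne_of_mem_erase hp)
    rw [inv_nonneg]; linarith only [this]
  · rw [Finset.erase_eq_of_notMem h2P] at h3 ⊢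
    refine h3.trans ?_
    exact le_mul_of_one_le_left (Real.exp_pos _).le h1

end Vale.Agent.P016.Rk

end
end

section

section

namespace Vale.Agent.P016

open Finset Complex

/-- Additive character `k ↦ exp(2πik/L)`. -/
noncomputable def eL (L : ℕ) (k : ℤ) : ℂ := Complex.exp (2 * Real.pi * Complex.I * ((k : ℂ) / (L : ℂ)))

lemma eL_add (L : ℕ) (j k : ℤ) : eL L (j + k) = eL L j * eL L k := by
  unfold eL
  rw [← Complex.exp_add]
  congr 1
  push_cast
  ring

lemma eL_zero (L : ℕ) : eL L 0 = 1 := by simp [eL]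

lemma eL_norm (L : ℕ) (k : ℤ) : ‖eL L k‖ = 1 := by
  unfold eL
  have : (2 * Real.pi * Complex.I * ((k : ℂ) / (L : ℂ))) = ((2 * Real.pi * ((k : ℝ) / (L : ℝ)) : ℝ) : ℂ) * Complex.I := by
    push_cast; ring
  rw [this, Complex.norm_exp_ofReal_mul_I]

lemma eL_mul_self (L : ℕ) (hL : 0 < L) (k : ℤ) : eL L (L * k) = 1 := by
  unfold eL
  have hL' : (L : ℂ) ≠ 0 := by exact_mod_cast hL.ne'
  have : (2 * Real.pi * Complex.I * (((L * k : ℤ) : ℂ) / (L : ℂ))) = (k : ℂ) * (2 * Real.pi * Complex.I) := by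
    push_cast
    field_simp
  rw [this]
  exact Complex.exp_int_mul_two_pi_mul_I k

lemma eL_eq_of_dvd (L : ℕ) (hL : 0 < L) {j k : ℤ} (h : (L : ℤ) ∣ k - j) : eL L j = eL L k := by
  obtain ⟨m, hm⟩ := h
  have : k = j + L * m := by linarith only [hm]
  rw [this, eL_add, eL_mul_self L hL, mul_one]

lemma eL_conj (L : ℕ) (k : ℤ) : (starRingEnd ℂ) (eL L k) = eL L (-k) := by
  unfold eL
  rw [← Complex.exp_conj]
  congr 1
  simp only [map_mul, map_div₀, Complex.conj_I, Complex.conj_ofReal, Complex.conj_natCast,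
    map_ofNat, map_intCast, Int.cast_neg]
  ring

lemma eL_mul (L : ℕ) (j : ℤ) (n : ℕ) : eL L (j * n) = eL L j ^ n := by
  induction n with
  | zero => simp [eL_zero]
  | succ n ih =>
    rw [pow_succ, ← ih, ← eL_add]
    congr 1
    push_cast
    ring

/-- `|1 - e(a/L)| ≥ 4 min(a, L-a)/L`. -/
lemma one_sub_eL_ge (L : ℕ) (a : ℕ) (ha : 1 ≤ a) (haL : a < L) :
    4 * (min (a : ℝ) ((L : ℝ) - a)) / L ≤ ‖1 - eL L (-(a : ℤ))‖ := by
  have hL : (0 : ℝ) < L := by
    have : 0 < L := by omega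
    exact_mod_cast this
  have har : (1 : ℝ) ≤ a := by exact_mod_cast ha
  have haLr : (a : ℝ) < L := by exact_mod_cast haL
  have h1 : ‖1 - eL L (-(a : ℤ))‖ = 2 * |Real.sin (Real.pi * (a / L))| := by
    have : eL L (-(a : ℤ)) = Complex.exp (((-(2 * (Real.pi * (a / L)))) : ℝ) * Complex.I) := by
      unfold eL
      congr 1
      push_cast
      ring
    rw [this, norm_sub_rev]
    have h2 := Complex.norm_exp_I_mul_ofReal_sub_one (-(2 * (Real.pi * (a / L))))
    rw [mul_comm (((-(2 * (Real.pi * (a / L)))) : ℝ) : ℂ) Complex.I, h2]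
    rw [show (-(2 * (Real.pi * ((a : ℝ) / L)))) / 2 = -(Real.pi * (a / L)) by ring, Real.sin_neg,
      mul_neg, norm_neg, norm_mul, Real.norm_eq_abs, Real.norm_eq_abs, abs_two]
  rw [h1]
  have hθ0 : 0 ≤ Real.pi * ((a : ℝ) / L) := by positivity
  have hθ1 : Real.pi * ((a : ℝ) / L) ≤ Real.pi := by
    have : (a : ℝ) / L ≤ 1 := (div_le_one hL).2 haLr.le
    nlinarith only [this, Real.pi_pos]
  rw [abs_of_nonneg (Real.sin_nonneg_of_nonneg_of_le_pi hθ0 hθ1)]
  rcases le_total ((a : ℝ)) ((L : ℝ) - a) with h | h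
  · rw [min_eq_left h]
    have h2 : Real.pi * ((a : ℝ) / L) ≤ Real.pi / 2 := by
      have : (a : ℝ) / L ≤ 1 / 2 := by
        rw [div_le_div_iff₀ hL (by norm_num)]
        linarith only [h]
      nlinarith only [this, Real.pi_pos]
    have h3 := Real.mul_le_sin hθ0 h2
    have h4 : 2 / Real.pi * (Real.pi * ((a : ℝ) / L)) = 2 * (a / L) := by
      field_simp
    rw [h4] at h3
    have : 4 * (a : ℝ) / L = 2 * (2 * (a / L)) := by ring
    rw [this]
    linarith only [h3]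
  · rw [min_eq_right h]
    have e1 : Real.sin (Real.pi * ((a : ℝ) / L)) = Real.sin (Real.pi * (((L : ℝ) - a) / L)) := by
      rw [← Real.sin_pi_sub]
      congr 1
      field_simp
    have h0 : 0 ≤ Real.pi * (((L : ℝ) - a) / L) := by
      have : (0 : ℝ) ≤ (L : ℝ) - a := by linarith only [haLr]
      positivity
    have h2 : Real.pi * (((L : ℝ) - a) / L) ≤ Real.pi / 2 := by
      have : ((L : ℝ) - a) / L ≤ 1 / 2 := by
        rw [div_le_div_iff₀ hL (by norm_num)]
        linarith only [h]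
      nlinarith only [this, Real.pi_pos]
    have h3 := Real.mul_le_sin h0 h2
    have h4 : 2 / Real.pi * (Real.pi * (((L : ℝ) - a) / L)) = 2 * (((L : ℝ) - a) / L) := by
      (clear * - hL; field_simp)
    rw [h4] at h3
    rw [e1]
    have : 4 * ((L : ℝ) - a) / L = 2 * (2 * (((L : ℝ) - a) / L)) := by ring
    rw [this]
    linarith only [h3]

/-- Geometric sum bound. -/
lemma geom_eL_le (L : ℕ) (a : ℕ) (ha : 1 ≤ a) (haL : a < L) (N : ℕ) :
    ‖∑ n ∈ range N, eL L (-(a : ℤ) * n)‖ ≤ (L : ℝ) / 2 * ((a : ℝ)⁻¹ + ((L : ℝ) - a)⁻¹) := by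
  have hL : (0 : ℝ) < L := by
    have : 0 < L := by omega
    exact_mod_cast this
  have har : (1 : ℝ) ≤ a := by exact_mod_cast ha
  have haLr : (a : ℝ) < L := by exact_mod_cast haL
  have h1 := one_sub_eL_ge L a ha haL
  have hmin : 0 < min (a : ℝ) ((L : ℝ) - a) := lt_min (by linarith only [har]) (by linarith only [haLr])
  have hpos : 0 < ‖1 - eL L (-(a : ℤ))‖ := lt_of_lt_of_le (by positivity) h1
  have hne : eL L (-(a : ℤ)) ≠ 1 := by
    intro h
    rw [h, sub_self, norm_zero] at hpos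
    exact lt_irrefl _ hpos
  have h2 : ∑ n ∈ range N, eL L (-(a : ℤ) * n) = (eL L (-(a : ℤ)) ^ N - 1) / (eL L (-(a : ℤ)) - 1) := by
    rw [← geom_sum_eq hne]
    exact Finset.sum_congr rfl fun n _ => eL_mul L _ n
  rw [h2, norm_div, norm_sub_rev (eL L (-(a : ℤ))) 1]
  have h3 : ‖eL L (-(a : ℤ)) ^ N - 1‖ ≤ 2 := by
    calc ‖eL L (-(a : ℤ)) ^ N - 1‖ ≤ ‖eL L (-(a : ℤ)) ^ N‖ + ‖(1 : ℂ)‖ := norm_sub_le _ _
      _ = 2 := by rw [norm_pow, eL_norm]; norm_num
  calc ‖eL L (-(a : ℤ)) ^ N - 1‖ / ‖1 - eL L (-(a : ℤ))‖ ≤ 2 / (4 * (min (a : ℝ) ((L : ℝ) - a)) / L) :=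
        div_le_div₀ (by norm_num) h3 (by positivity) h1
    _ = (L : ℝ) / 2 * (min (a : ℝ) ((L : ℝ) - a))⁻¹ := by field_simp; ring
    _ ≤ (L : ℝ) / 2 * ((a : ℝ)⁻¹ + ((L : ℝ) - a)⁻¹) := by
        refine mul_le_mul_of_nonneg_left ?_ (by positivity)
        have p1 : 0 ≤ (a : ℝ)⁻¹ := by positivity
        have p2 : 0 ≤ ((L : ℝ) - a)⁻¹ := by
          have : (0 : ℝ) ≤ (L : ℝ) - a := by linarith only [haLr]
          positivity
        rcases le_total ((a : ℝ)) ((L : ℝ) - a) with h | h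
        · rw [min_eq_left h]; linarith only [p2]
        · rw [min_eq_right h]; linarith only [p1]

/-- permutation of residues by multiplication by a unit -/
lemma sum_unit_mul (G : ℕ → ℂ) (L : ℕ) (hL : 0 < L) (hper : ∀ m n, m ≡ n [MOD L] → G m = G n)
    (u : ℕ) (hco : Nat.Coprime u L) : ∑ n ∈ range L, G (u * n) = ∑ n ∈ range L, G n := by
  have hinj : Set.InjOn (fun n => (u * n) % L) (range L : Set ℕ) := by
    intro a ha b hb hab
    simp only [coe_range, Set.mem_Iio] at ha hb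
    have : u * a ≡ u * b [MOD L] := hab
    have := Nat.ModEq.cancel_left_of_coprime (by rwa [Nat.gcd_comm]) this
    exact Nat.ModEq.eq_of_lt_of_lt this ha hb
  have hmaps : Set.MapsTo (fun n => (u * n) % L) (range L : Set ℕ) (range L : Set ℕ) := by
    intro n _
    simpa using Nat.mod_lt _ hL
  refine Finset.sum_nbij (fun n => (u * n) % L) (fun n _ => by simpa using Nat.mod_lt _ hL) hinj ?_ ?_
  · exact Finset.surjOn_of_injOn_of_card_le _ hmaps hinj le_rfl
  · intro n _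
    exact hper _ _ (Nat.mod_modEq _ _).symm

/-- finite Fourier coefficient -/
noncomputable def fc (F : ℕ → ℂ) (L a : ℕ) : ℂ := ∑ n ∈ range L, F n * eL L ((a : ℤ) * n)

lemma eL_modEq (L : ℕ) (hL : 0 < L) {m n : ℕ} (h : m ≡ n [MOD L]) : eL L (m : ℤ) = eL L (n : ℤ) :=
  eL_eq_of_dvd L hL ((Nat.modEq_iff_dvd).1 h)

lemma eL_modEq' (L : ℕ) (hL : 0 < L) {a m n : ℕ} (h : m ≡ n [MOD L]) :
    eL L ((a : ℤ) * m) = eL L ((a : ℤ) * n) := by
  have := eL_modEq L hL (h.mul_left a)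
  push_cast at this
  exact this

section

variable (F : ℕ → ℂ) (L : ℕ) (hL : 1 < L) (hmul : ∀ m n, F (m * n) = F m * F n)
  (hone : F 1 = 1)
  (hper : ∀ m n, m ≡ n [MOD L] → F m = F n)
  (hprim : ∀ r : ℕ, r.Prime → r ∣ L → ∃ u : ℕ, Nat.Coprime u L ∧ u ≡ 1 [MOD L / r] ∧ F u ≠ 1)

include hL hmul hper hprim in
lemma fc_eq_zero (a : ℕ) (ha : ¬ Nat.Coprime a L) : fc F L a = 0 := by
  have hL0 : 0 < L := by omega
  obtain ⟨r, hr, hra, hrL⟩ := Nat.Prime.not_coprime_iff_dvd.1 ha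
  obtain ⟨u, huc, hu1, huF⟩ := hprim r hr hrL
  have h1 := sum_unit_mul (fun n => F n * eL L ((a : ℤ) * n)) L hL0
    (fun m n h => by simp only [hper m n h, eL_modEq' L hL0 (a := a) h]) u huc
  have h2 : ∀ n ∈ range L, F (u * n) * eL L ((a : ℤ) * ((u * n : ℕ) : ℤ)) =
      F u * (F n * eL L ((a : ℤ) * n)) := by
    intro n _
    rw [hmul]
    have h3 : a * (u * n) ≡ a * n [MOD L] := by
      have h4 : a * u ≡ a * 1 [MOD L] := by
        obtain ⟨a', rfl⟩ := hra
        obtain ⟨L', rfl⟩ := hrL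
        rw [Nat.mul_div_cancel_left L' hr.pos] at hu1
        have h5 := hu1.mul_left a'
        have h6 := h5.mul_left' r
        calc r * a' * u = r * (a' * u) := by ring
          _ ≡ r * (a' * 1) [MOD r * L'] := h6
          _ = r * a' * 1 := by ring
      calc a * (u * n) = (a * u) * n := by ring
        _ ≡ (a * 1) * n [MOD L] := h4.mul_right n
        _ = a * n := by ring
    have h5 := eL_modEq L hL0 h3
    have h6 : (a : ℤ) * ((u * n : ℕ) : ℤ) = ((a * (u * n) : ℕ) : ℤ) := by push_cast; ring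
    have h7 : (a : ℤ) * (n : ℤ) = ((a * n : ℕ) : ℤ) := by push_cast; ring
    rw [h6, h5, h7]
    ring
  have h3 : F u * fc F L a = fc F L a := by
    rw [fc, Finset.mul_sum, ← Finset.sum_congr rfl h2]
    exact h1
  have h4 : (F u - 1) * fc F L a = 0 := by rw [sub_mul, h3, one_mul, sub_self]
  rcases mul_eq_zero.1 h4 with h | h
  · exact absurd (sub_eq_zero.1 h) huF
  · exact h

include hL hmul hone hper in
lemma F_norm_unit (a : ℕ) (ha : Nat.Coprime a L) : ‖F a‖ = 1 := by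
  have h1 : F (a ^ Nat.totient L) = 1 := by
    rw [hper _ _ (Nat.ModEq.pow_totient ha), hone]
  have h2 : ∀ k : ℕ, F (a ^ k) = F a ^ k := by
    intro k
    induction k with
    | zero => simp [hone]
    | succ k ih => rw [pow_succ, hmul, ih, pow_succ]
  rw [h2] at h1
  exact Complex.norm_eq_one_of_pow_eq_one h1 (Nat.totient_pos.2 (by omega)).ne'

include hL hmul hone hper in
lemma fc_norm_unit (a : ℕ) (ha : Nat.Coprime a L) : ‖fc F L a‖ = ‖fc F L 1‖ := by
  have hL0 : 0 < L := by omega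
  have h1 := sum_unit_mul (fun n => F n * eL L (((1 : ℕ) : ℤ) * n)) L hL0
    (fun m n h => by simp only [hper m n h, eL_modEq' L hL0 (a := 1) h]) a ha
  have h2 : ∀ n ∈ range L, F (a * n) * eL L (((1 : ℕ) : ℤ) * ((a * n : ℕ) : ℤ)) =
      F a * (F n * eL L ((a : ℤ) * n)) := by
    intro n _
    rw [hmul]
    have : ((1 : ℕ) : ℤ) * ((a * n : ℕ) : ℤ) = (a : ℤ) * n := by push_cast; ring
    rw [this]
    ring
  have h3 : F a * fc F L a = fc F L 1 := by
    rw [fc, Finset.mul_sum, ← Finset.sum_congr rfl h2]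
    exact h1
  rw [← h3, norm_mul, F_norm_unit F L hL hmul hone hper a ha, one_mul]

/-- orthogonality of additive characters -/
lemma sum_eL (L : ℕ) (hL : 0 < L) (k : ℤ) :
    ∑ a ∈ range L, eL L ((a : ℤ) * k) = if (L : ℤ) ∣ k then (L : ℂ) else 0 := by
  have h1 : ∀ a ∈ range L, eL L ((a : ℤ) * k) = eL L k ^ a := by
    intro a _
    rw [mul_comm, eL_mul]
  rw [Finset.sum_congr rfl h1]
  split_ifs with h
  · have : eL L k = 1 := by
      rw [← eL_zero L]
      exact (eL_eq_of_dvd L hL (by simpa only [sub_zero] using h)).symm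
    simp [this]
  · have hne : eL L k ≠ 1 := by
      intro h2
      apply h
      unfold eL at h2
      rw [Complex.exp_eq_one_iff] at h2
      obtain ⟨m, hm⟩ := h2
      refine ⟨m, ?_⟩
      have hL' : (L : ℂ) ≠ 0 := by exact_mod_cast hL.ne'
      have h3 : (k : ℂ) / (L : ℂ) = m := by
        have : (2 * Real.pi * Complex.I : ℂ) ≠ 0 := Complex.two_pi_I_ne_zero
        have h4 : (2 * Real.pi * Complex.I : ℂ) * ((k : ℂ) / (L : ℂ)) = (2 * Real.pi * Complex.I) * m := by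
          rw [hm]; ring
        exact mul_left_cancel₀ this h4
      rw [div_eq_iff hL'] at h3
      have h5 : ((k : ℤ) : ℂ) = ((L * m : ℤ) : ℂ) := by rw [h3]; push_cast; ring
      exact_mod_cast h5
    rw [geom_sum_eq hne, ← eL_mul, mul_comm, eL_mul_self L hL, sub_self, zero_div]

/-- Parseval -/
lemma parseval (F : ℕ → ℂ) (L : ℕ) (hL : 0 < L) :
    ∑ a ∈ range L, ‖fc F L a‖ ^ 2 = L * ∑ n ∈ range L, ‖F n‖ ^ 2 := by
  have h1 : ((∑ a ∈ range L, ‖fc F L a‖ ^ 2 : ℝ) : ℂ) = ((L * ∑ n ∈ range L, ‖F n‖ ^ 2 : ℝ) : ℂ) := by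
    push_cast
    have h2 : ∀ a ∈ range L, ((‖fc F L a‖ : ℂ)) ^ 2 =
        ∑ m ∈ range L, ∑ n ∈ range L, (F m * (starRingEnd ℂ) (F n)) * eL L ((a : ℤ) * ((m : ℤ) - n)) := by
      intro a _
      rw [← Complex.mul_conj', fc, map_sum, Finset.sum_mul_sum]
      refine Finset.sum_congr rfl fun m _ => Finset.sum_congr rfl fun n _ => ?_
      rw [map_mul, eL_conj]
      have : (a : ℤ) * ((m : ℤ) - n) = (a : ℤ) * m + -((a : ℤ) * n) := by ring
      rw [this, eL_add]
      ring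
    rw [Finset.sum_congr rfl h2, Finset.sum_comm]
    have h3 : ∀ m ∈ range L, ∑ a ∈ range L, ∑ n ∈ range L,
        (F m * (starRingEnd ℂ) (F n)) * eL L ((a : ℤ) * ((m : ℤ) - n)) = (L : ℂ) * ‖F m‖ ^ 2 := by
      intro m hm
      rw [Finset.sum_comm]
      have h4 : ∀ n ∈ range L, ∑ a ∈ range L,
          (F m * (starRingEnd ℂ) (F n)) * eL L ((a : ℤ) * ((m : ℤ) - n)) =
          if m = n then (F m * (starRingEnd ℂ) (F n)) * (L : ℂ) else 0 := by
        intro n hn
        rw [← Finset.mul_sum, sum_eL L hL]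
        rw [mem_range] at hm hn
        by_cases hmn : m = n
        · simp only [hmn, sub_self, dvd_zero, ↓reduceIte]
        · have : ¬ (L : ℤ) ∣ (m : ℤ) - n := by
            intro hd
            apply hmn
            have := Int.eq_zero_of_abs_lt_dvd hd (by rw [abs_lt]; omega)
            omega
          simp only [this, ↓reduceIte, mul_zero, hmn]
      rw [Finset.sum_congr rfl h4, Finset.sum_ite_eq, if_pos hm, Complex.mul_conj']
      ring
    rw [Finset.sum_congr rfl h3, Finset.mul_sum]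
  exact_mod_cast h1

include hL hmul hone hper hprim in
/-- Gauss sum bound -/
lemma fc_norm_le (hF0 : ∀ n, ¬ Nat.Coprime n L → F n = 0) (a : ℕ) :
    ‖fc F L a‖ ≤ Real.sqrt L := by
  classical
  have hL0 : 0 < L := by omega
  have hp := parseval F L hL0
  have h1 : ∑ a ∈ range L, ‖fc F L a‖ ^ 2 = (Nat.totient L : ℝ) * ‖fc F L 1‖ ^ 2 := by
    have e1 : ∀ a ∈ range L, ‖fc F L a‖ ^ 2 = if L.Coprime a then ‖fc F L 1‖ ^ 2 else 0 := by
      intro a _
      split_ifs with h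
      · rw [fc_norm_unit F L hL hmul hone hper a h.symm]
      · rw [fc_eq_zero F L hL hmul hper hprim a (fun h' => h h'.symm)]; simp
    rw [Finset.sum_congr rfl e1, ← Finset.sum_filter, Finset.sum_const, nsmul_eq_mul,
      Nat.totient_eq_card_coprime]
  have h2 : ∑ n ∈ range L, ‖F n‖ ^ 2 = (Nat.totient L : ℝ) := by
    have e1 : ∀ n ∈ range L, ‖F n‖ ^ 2 = if L.Coprime n then (1 : ℝ) else 0 := by
      intro n _
      split_ifs with h
      · rw [F_norm_unit F L hL hmul hone hper n h.symm]; norm_num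
      · rw [hF0 n (fun h' => h h'.symm)]; simp
    rw [Finset.sum_congr rfl e1, ← Finset.sum_filter, Finset.sum_const, nsmul_eq_mul,
      Nat.totient_eq_card_coprime, mul_one]
  rw [h1, h2] at hp
  have hφ : (0 : ℝ) < Nat.totient L := by exact_mod_cast Nat.totient_pos.2 hL0
  have h3 : ‖fc F L 1‖ ^ 2 = L := by
    have : (Nat.totient L : ℝ) * ‖fc F L 1‖ ^ 2 = (Nat.totient L : ℝ) * L := by linarith only [hp]
    exact mul_left_cancel₀ hφ.ne' this
  by_cases ha : Nat.Coprime a L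
  · rw [fc_norm_unit F L hL hmul hone hper a ha]
    exact Real.le_sqrt_of_sq_le h3.le
  · rw [fc_eq_zero F L hL hmul hper hprim a ha, norm_zero]
    exact Real.sqrt_nonneg _

/-- Fourier inversion -/
lemma fc_inv (F : ℕ → ℂ) (L : ℕ) (hL : 0 < L) (hper : ∀ m n, m ≡ n [MOD L] → F m = F n) (n : ℕ) :
    (L : ℂ) * F n = ∑ a ∈ range L, fc F L a * eL L (-(a : ℤ) * n) := by
  have h1 : ∀ a ∈ range L, fc F L a * eL L (-(a : ℤ) * n) =
      ∑ m ∈ range L, F m * eL L ((a : ℤ) * ((m : ℤ) - n)) := by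
    intro a _
    rw [fc, Finset.sum_mul]
    refine Finset.sum_congr rfl fun m _ => ?_
    have : (a : ℤ) * ((m : ℤ) - n) = (a : ℤ) * m + (-(a : ℤ) * n) := by ring
    rw [this, eL_add]
    ring
  rw [Finset.sum_congr rfl h1, Finset.sum_comm]
  have h2 : ∀ m ∈ range L, ∑ a ∈ range L, F m * eL L ((a : ℤ) * ((m : ℤ) - n)) =
      if n % L = m then F m * (L : ℂ) else 0 := by
    intro m hm
    rw [← Finset.mul_sum, sum_eL L hL]
    rw [mem_range] at hm
    have : ((L : ℤ) ∣ (m : ℤ) - n) ↔ n % L = m := by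
      rw [← Nat.modEq_iff_dvd]
      constructor
      · intro h
        have h' : n % L = m % L := h
        rw [h', Nat.mod_eq_of_lt hm]
      · intro h
        have : n ≡ m [MOD L] := by
          unfold Nat.ModEq
          rw [h, Nat.mod_eq_of_lt hm]
        exact this
    simp only [this]
    split_ifs <;> simp
  rw [Finset.sum_congr rfl h2, Finset.sum_ite_eq, if_pos (mem_range.2 (Nat.mod_lt _ hL)),
    hper (n % L) n (Nat.mod_modEq _ _)]
  ring

include hL hmul hone hper hprim in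
/-- Pólya–Vinogradov -/
theorem polya_vinogradov (hF0 : ∀ n, ¬ Nat.Coprime n L → F n = 0) (N : ℕ) :
    ‖∑ n ∈ range N, F n‖ ≤ Real.sqrt L * (1 + Real.log L) := by
  have hL0 : 0 < L := by omega
  have hLr : (0 : ℝ) < L := by exact_mod_cast hL0
  have h1 : (L : ℂ) * ∑ n ∈ range N, F n =
      ∑ a ∈ Ico 1 L, fc F L a * ∑ n ∈ range N, eL L (-(a : ℤ) * n) := by
    rw [Finset.mul_sum]
    have e1 : ∀ n ∈ range N, (L : ℂ) * F n = ∑ a ∈ range L, fc F L a * eL L (-(a : ℤ) * n) :=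
      fun n _ => fc_inv F L hL0 hper n
    rw [Finset.sum_congr rfl e1, Finset.sum_comm]
    have e2 : ∀ a ∈ range L, ∑ n ∈ range N, fc F L a * eL L (-(a : ℤ) * n) =
        fc F L a * ∑ n ∈ range N, eL L (-(a : ℤ) * n) := fun a _ => by rw [Finset.mul_sum]
    rw [Finset.sum_congr rfl e2, Finset.range_eq_Ico, Finset.sum_eq_sum_Ico_succ_bot hL0]
    have e3 : fc F L 0 = 0 := fc_eq_zero F L hL hmul hper hprim 0 (by
      rw [Nat.coprime_zero_left]; omega)
    rw [e3, zero_mul, zero_add]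
  have h2 : (L : ℝ) * ‖∑ n ∈ range N, F n‖ ≤
      ∑ a ∈ Ico 1 L, Real.sqrt L * ((L : ℝ) / 2 * ((a : ℝ)⁻¹ + ((L : ℝ) - a)⁻¹)) := by
    have e1 : (L : ℝ) * ‖∑ n ∈ range N, F n‖ = ‖(L : ℂ) * ∑ n ∈ range N, F n‖ := by
      rw [norm_mul, Complex.norm_natCast]
    rw [e1, h1]
    refine (norm_sum_le _ _).trans (Finset.sum_le_sum fun a ha => ?_)
    rw [mem_Ico] at ha
    rw [norm_mul]
    exact mul_le_mul (fc_norm_le F L hL hmul hone hper hprim hF0 a) (geom_eL_le L a ha.1 ha.2 N)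
      (norm_nonneg _) (Real.sqrt_nonneg _)
  have h3 : ∑ a ∈ Ico 1 L, (a : ℝ)⁻¹ ≤ 1 + Real.log L := by
    have e1 := harmonic_le_one_add_log L
    rw [harmonic_eq_sum_Icc] at e1
    push_cast at e1
    refine le_trans ?_ e1
    refine Finset.sum_le_sum_of_subset_of_nonneg ?_ fun _ _ _ => by (clear * -; positivity)
    intro a ha
    rw [mem_Ico] at ha
    rw [mem_Icc]
    omega
  have h4 : ∑ a ∈ Ico 1 L, ((L : ℝ) - a)⁻¹ = ∑ a ∈ Ico 1 L, (a : ℝ)⁻¹ := by
    refine Finset.sum_nbij' (fun a => L - a) (fun a => L - a) ?_ ?_ ?_ ?_ ?_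
    · intro a ha; rw [mem_Ico] at ha ⊢; omega
    · intro a ha; rw [mem_Ico] at ha ⊢; omega
    · intro a ha; rw [mem_Ico] at ha; omega
    · intro a ha; rw [mem_Ico] at ha; (clear * - ha; omega)
    · intro a ha
      rw [mem_Ico] at ha
      rw [Nat.cast_sub ha.2.le]
  have h5 : ∑ a ∈ Ico 1 L, Real.sqrt L * ((L : ℝ) / 2 * ((a : ℝ)⁻¹ + ((L : ℝ) - a)⁻¹)) ≤
      (L : ℝ) * (Real.sqrt L * (1 + Real.log L)) := by
    rw [← Finset.mul_sum, ← Finset.mul_sum, Finset.sum_add_distrib, h4]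
    have hs := Real.sqrt_nonneg (L : ℝ)
    have e1 : Real.sqrt L * ((L : ℝ) / 2 * (∑ a ∈ Ico 1 L, (a : ℝ)⁻¹ + ∑ a ∈ Ico 1 L, (a : ℝ)⁻¹)) =
        (L : ℝ) * (Real.sqrt L * ∑ a ∈ Ico 1 L, (a : ℝ)⁻¹) := by ring
    rw [e1]
    exact mul_le_mul_of_nonneg_left (mul_le_mul_of_nonneg_left h3 hs) hLr.le
  exact le_of_mul_le_mul_left (h2.trans h5) hLr

end

end Vale.Agent.P016
end
end

section

section

namespace Vale.Agent.P016

open Finset

/-- the character `ech p ^ t` -/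
noncomputable def chi (i : ℕ × ℕ) (n : ℕ) : ℂ := (ech i.1 n) ^ i.2

def IsI (x : ℕ) (i : ℕ × ℕ) : Prop := i.1.Prime ∧ i.1 ≤ x ∧ 1 ≤ i.2 ∧ i.2 < i.1 - 1

lemma chi_mul {x : ℕ} {i : ℕ × ℕ} (hi : IsI x i) (m n : ℕ) : chi i (m * n) = chi i m * chi i n := by
  unfold chi
  rw [ech_mul hi.1]
  ring

lemma chi_one {x : ℕ} {i : ℕ × ℕ} (hi : IsI x i) : chi i 1 = 1 := by
  unfold chi
  rw [ech_one hi.1, one_pow]

lemma chi_norm_le {x : ℕ} {i : ℕ × ℕ} (hi : IsI x i) (n : ℕ) : ‖chi i n‖ ≤ 1 := by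
  unfold chi
  rw [norm_pow]
  exact pow_le_one₀ (norm_nonneg _) (ech_norm_le hi.1 n)

lemma chi_congr {x : ℕ} {i : ℕ × ℕ} (hi : IsI x i) {m n : ℕ} (h : m ≡ n [MOD i.1]) :
    chi i m = chi i n := by
  unfold chi
  rw [ech_congr hi.1 h]

lemma chi_eq_zero {x : ℕ} {i : ℕ × ℕ} (hi : IsI x i) {n : ℕ} (h : i.1 ∣ n) : chi i n = 0 := by
  unfold chi
  rw [(ech_eq_zero hi.1).2 h, zero_pow]
  have := hi.2.2.1
  omega

lemma exists_gen (r : ℕ) (hr : r.Prime) : ∃ g : ℕ, ¬ r ∣ g ∧ orderOf (ech r g) = r - 1 := by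
  obtain ⟨g, h1, h2⟩ := exists_prime_root r hr
  exact ⟨g, h1, by rw [ech_orderOf hr h1, h2]⟩

lemma orthPV (x : ℕ) (i j : ℕ × ℕ) (hi : IsI x i) (hj : IsI x j) (hij : i ≠ j) (N : ℕ) :
    ‖∑ n ∈ range N, chi i n * (starRingEnd ℂ) (chi j n)‖ ≤ (x : ℝ) * (1 + 2 * Real.log x) := by
  have hx2 : 2 ≤ x := hi.1.two_le.trans hi.2.1
  have hxr : (2 : ℝ) ≤ x := by exact_mod_cast hx2
  have hlogx : 0 ≤ Real.log x := Real.log_nonneg (by linarith only [hxr])
  by_cases hp : i.1 = j.1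
  · -- same prime
    have hL : 1 < i.1 := hi.1.one_lt
    have ht : i.2 ≠ j.2 := fun h => hij (Prod.ext hp h)
    have := polya_vinogradov (fun n => chi i n * (starRingEnd ℂ) (chi j n)) i.1 hL
      (fun m n => by simp only [chi_mul hi, chi_mul hj, map_mul]; ring)
      (by simp [chi_one hi, chi_one hj])
      (fun m n h => by
        have h1 := chi_congr hi h
        have h2 : chi j m = chi j n := chi_congr hj (hp ▸ h)
        simp only [h1, h2])
      (by
        intro r hr hri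
        have hri' : r = i.1 := (Nat.prime_dvd_prime_iff_eq hr hi.1).1 hri
        obtain ⟨g, hg1, hg2⟩ := exists_gen i.1 hi.1
        refine ⟨g, ?_, ?_, ?_⟩
        · exact ((Nat.Prime.coprime_iff_not_dvd hi.1).2 hg1).symm
        · rw [hri', Nat.div_self hi.1.pos]
          exact Nat.modEq_one
        · intro h
          have hn : ‖ech i.1 g‖ = 1 := ech_norm_eq hi.1 hg1
          have hcj : chi j g = ech i.1 g ^ j.2 := by unfold chi; rw [← hp]
          have hci : chi i g = ech i.1 g ^ i.2 := rfl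
          have h2 : chi i g = chi j g := by
            have hj1 : ‖chi j g‖ = 1 := by rw [hcj, norm_pow, hn, one_pow]
            have h4 : (starRingEnd ℂ) (chi j g) * chi j g = 1 := by
              rw [mul_comm, Complex.mul_conj, Complex.normSq_eq_norm_sq, hj1]
              simp
            calc chi i g = chi i g * ((starRingEnd ℂ) (chi j g) * chi j g) := by rw [h4, mul_one]
              _ = (chi i g * (starRingEnd ℂ) (chi j g)) * chi j g := by ring
              _ = chi j g := by rw [h, one_mul]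
          rw [hci, hcj] at h2
          have hinj := pow_injOn_Iio_orderOf (x := ech i.1 g)
          have e1 : i.2 ∈ Set.Iio (orderOf (ech i.1 g)) := by rw [hg2]; exact hi.2.2.2
          have e2 : j.2 ∈ Set.Iio (orderOf (ech i.1 g)) := by rw [hg2, hp]; exact hj.2.2.2
          exact ht (hinj e1 e2 h2))
      (by
        intro n hn
        have hdvd : i.1 ∣ n := by
          by_contra h
          exact hn ((Nat.Prime.coprime_iff_not_dvd hi.1).2 h).symm
        rw [chi_eq_zero hi hdvd, zero_mul])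
      N
    refine this.trans ?_
    have hix : (i.1 : ℝ) ≤ x := by exact_mod_cast hi.2.1
    have hi0 : (1 : ℝ) ≤ i.1 := by exact_mod_cast hi.1.one_le
    have h1 : Real.sqrt (i.1 : ℝ) ≤ x := by
      refine (Real.sqrt_le_left (by linarith only [hxr])).2 ?_
      nlinarith only [hxr, hix]
    have h2 : 1 + Real.log (i.1 : ℝ) ≤ 1 + 2 * Real.log x := by
      have := Real.log_le_log (by linarith only [hi0]) hix
      linarith only [hlogx, this]
    exact mul_le_mul h1 h2 (by have := Real.log_nonneg hi0; linarith only [this]) (by linarith only [])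
  · have hco : Nat.Coprime i.1 j.1 := (Nat.coprime_primes hi.1 hj.1).2 hp
    have hL : 1 < i.1 * j.1 := by
      have := hi.1.two_le
      have := hj.1.two_le
      (clear hij N hx2 hxr hlogx hp hco; nlinarith)
    have := polya_vinogradov (fun n => chi i n * (starRingEnd ℂ) (chi j n)) (i.1 * j.1) hL
      (fun m n => by simp only [chi_mul hi, chi_mul hj, map_mul]; ring)
      (by simp only [chi_one hi, chi_one hj, map_one, mul_one])
      (fun m n h => by
        simp only [chi_congr hi (Nat.ModEq.of_mul_right _ h), chi_congr hj (Nat.ModEq.of_mul_left _ h)])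
      (by
        intro r hr hri
        rcases (Nat.Prime.dvd_mul hr).1 hri with h | h
        · have hri' : r = i.1 := (Nat.prime_dvd_prime_iff_eq hr hi.1).1 h
          subst hri'
          obtain ⟨g, hg1, hg2⟩ := exists_gen i.1 hi.1
          obtain ⟨u, hu1, hu2⟩ := Nat.chineseRemainder hco g 1
          have hu3 : ¬ i.1 ∣ u := fun hd => hg1 ((hu1.dvd_iff (dvd_refl _)).1 hd)
          refine ⟨u, ?_, ?_, ?_⟩
          · refine Nat.Coprime.mul_right ((Nat.Prime.coprime_iff_not_dvd hi.1).2 hu3).symm ?_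
            have : Nat.gcd u j.1 = Nat.gcd 1 j.1 := hu2.gcd_eq
            rw [Nat.Coprime, this, Nat.gcd_one_left]
          · rw [Nat.mul_div_cancel_left _ hi.1.pos]
            exact hu2
          · intro hF
            rw [chi_congr hj hu2, chi_one hj, map_one, mul_one, chi_congr hi hu1] at hF
            have h5 : orderOf (ech i.1 g) ∣ i.2 := orderOf_dvd_of_pow_eq_one hF
            rw [hg2] at h5
            have := Nat.le_of_dvd (by have := hi.2.2.1; omega) h5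
            have := hi.2.2.2
            omega
        · have hri' : r = j.1 := (Nat.prime_dvd_prime_iff_eq hr hj.1).1 h
          subst hri'
          obtain ⟨g, hg1, hg2⟩ := exists_gen j.1 hj.1
          obtain ⟨u, hu1, hu2⟩ := Nat.chineseRemainder hco 1 g
          have hu3 : ¬ j.1 ∣ u := fun hd => hg1 ((hu2.dvd_iff (dvd_refl _)).1 hd)
          refine ⟨u, ?_, ?_, ?_⟩
          · refine Nat.Coprime.mul_right ?_ ((Nat.Prime.coprime_iff_not_dvd hj.1).2 hu3).symm
            have : Nat.gcd u i.1 = Nat.gcd 1 i.1 := hu1.gcd_eq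
            rw [Nat.Coprime, this, Nat.gcd_one_left]
          · rw [Nat.mul_div_cancel _ hj.1.pos]
            exact hu1
          · intro hF
            rw [chi_congr hi hu1, chi_one hi, one_mul, chi_congr hj hu2] at hF
            have hF' : chi j g = 1 := by
              have := congrArg (starRingEnd ℂ) hF
              simpa only [RingHomCompTriple.comp_apply, RingHom.id_apply, map_one] using this
            have h5 : orderOf (ech j.1 g) ∣ j.2 := orderOf_dvd_of_pow_eq_one hF'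
            rw [hg2] at h5
            have := Nat.le_of_dvd (by have := hj.2.2.1; omega) h5
            have := hj.2.2.2
            omega)
      (by
        intro n hn
        have hdvd : i.1 ∣ n ∨ j.1 ∣ n := by
          by_contra h
          push Not at h
          apply hn
          exact Nat.Coprime.mul_right ((Nat.Prime.coprime_iff_not_dvd hi.1).2 h.1).symm
            ((Nat.Prime.coprime_iff_not_dvd hj.1).2 h.2).symm
        rcases hdvd with h | h
        · rw [chi_eq_zero hi h, zero_mul]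
        · rw [chi_eq_zero hj h, map_zero, mul_zero])
      N
    refine this.trans ?_
    have hix : (i.1 : ℝ) ≤ x := by exact_mod_cast hi.2.1
    have hjx : (j.1 : ℝ) ≤ x := by exact_mod_cast hj.2.1
    have hi0 : (1 : ℝ) ≤ i.1 := by exact_mod_cast hi.1.one_le
    have hj0 : (1 : ℝ) ≤ j.1 := by exact_mod_cast hj.1.one_le
    push_cast
    have hle : (i.1 : ℝ) * j.1 ≤ x ^ 2 := by nlinarith only [hix, hjx]
    have h1 : Real.sqrt ((i.1 : ℝ) * j.1) ≤ x := (Real.sqrt_le_left (by linarith only [])).2 hle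
    have h2 : 1 + Real.log ((i.1 : ℝ) * j.1) ≤ 1 + 2 * Real.log x := by
      have e1 := Real.log_le_log (by (clear * - hi0 hj0; positivity)) hle
      rw [Real.log_pow] at e1
      push_cast at e1
      linarith only [e1]
    have h3 : 0 ≤ Real.log ((i.1 : ℝ) * j.1) := Real.log_nonneg (by nlinarith only [hi0, hj0])
    exact mul_le_mul h1 h2 (by linarith only [h3]) (by linarith only [])

end Vale.Agent.P016
end
end

section

section

namespace Vale.Agent.P016

open Finset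

/-- coefficients of `∑ i ∈ I, w i * 1[ζ ^ (n / d i) = 1]` -/
noncomputable def cg {ι : Type*} (I : Finset ι) (w : ι → ℝ) (d : ι → ℕ) (n t : ℕ) : ℝ :=
  ∑ i ∈ I, if (n / d i) ∣ t then w i / d i else 0

lemma cg_zero {ι : Type*} (I : Finset ι) (w : ι → ℝ) (d : ι → ℕ) (n : ℕ) :
    cg I w d n 0 = ∑ i ∈ I, w i / d i := by
  simp only [cg, dvd_zero, ↓reduceIte]

lemma sum_abs_cg_le {ι : Type*} (I : Finset ι) (w : ι → ℝ) (d : ι → ℕ) (n : ℕ) (hn : 0 < n)
    (hd : ∀ i ∈ I, d i ∣ n) :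
    ∑ t ∈ range n, |cg I w d n t| ≤ ∑ i ∈ I, |w i| := by
  have h1 : ∀ t ∈ range n, |cg I w d n t| ≤
      ∑ i ∈ I, (if (n / d i) ∣ t then |w i| / (d i : ℝ) else 0) := by
    intro t _
    rw [cg]
    refine (Finset.abs_sum_le_sum_abs _ _).trans (Finset.sum_le_sum fun i _ => ?_)
    split_ifs
    · rw [abs_div, Nat.abs_cast]
    · simp
  refine (Finset.sum_le_sum h1).trans ?_
  rw [Finset.sum_comm]
  refine Finset.sum_le_sum fun i hi => ?_
  have hdn := hd i hi
  have hdpos : 0 < d i := Nat.pos_of_dvd_of_pos hdn hn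
  have hpos : 0 < n / d i := Nat.div_pos (Nat.le_of_dvd hn hdn) hdpos
  rw [← Finset.sum_filter]
  have := sum_filter_dvd (n / d i) (d i) hpos (fun _ => |w i| / (d i : ℝ))
  rw [Nat.div_mul_cancel hdn] at this
  rw [this]
  have hd0 : (d i : ℝ) ≠ 0 := by exact_mod_cast hdpos.ne'
  simp only [sum_const, card_range, nsmul_eq_mul]
  exact le_of_eq (by field_simp)

lemma cg_sum_pow {ι : Type*} (I : Finset ι) (w : ι → ℝ) (d : ι → ℕ) (n : ℕ) (hn : 0 < n)
    (hd : ∀ i ∈ I, d i ∣ n) (ζ : ℂ) (hζ : ζ ^ n = 1) :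
    ∑ t ∈ range n, (cg I w d n t : ℂ) * ζ ^ t =
      ∑ i ∈ I, if ζ ^ (n / d i) = 1 then (w i : ℂ) else 0 := by
  have h1 : ∀ t ∈ range n, (cg I w d n t : ℂ) * ζ ^ t =
      ∑ i ∈ I, (if (n / d i) ∣ t then ((w i : ℂ) / d i) * ζ ^ t else 0) := by
    intro t _
    rw [cg]
    push_cast
    rw [Finset.sum_mul]
    refine Finset.sum_congr rfl fun i _ => ?_
    split_ifs <;> simp
  rw [Finset.sum_congr rfl h1, Finset.sum_comm]
  refine Finset.sum_congr rfl fun i hi => ?_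
  have hdn := hd i hi
  have hdpos : 0 < d i := Nat.pos_of_dvd_of_pos hdn hn
  have hpos : 0 < n / d i := Nat.div_pos (Nat.le_of_dvd hn hdn) hdpos
  rw [← Finset.sum_filter]
  have := sum_filter_dvd (n / d i) (d i) hpos (fun t => ((w i : ℂ) / d i) * ζ ^ t)
  rw [Nat.div_mul_cancel hdn] at this
  rw [this, ← Finset.mul_sum]
  have hd0 : (d i : ℂ) ≠ 0 := by exact_mod_cast hdpos.ne'
  simp_rw [pow_mul]
  split_ifs with h
  · simp only [h, one_pow, sum_const, card_range, nsmul_eq_mul, mul_one]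
    field_simp
  · rw [geom_sum_eq h, ← pow_mul, Nat.div_mul_cancel hdn, hζ]
    simp

/-- Small prime factors. -/
def Lset (z n : ℕ) : Finset ℕ := n.primeFactors.filter (fun l => l ≤ z)

/-- Large prime factors. -/
def Uset (z n : ℕ) : Finset ℕ := n.primeFactors.filter (fun l => z < l)

/-- coefficients for the sifted indicator with primes up to `z` -/
noncomputable def cT (z n t : ℕ) : ℝ :=
  cg (Lset z n).powerset (fun S => (-1) ^ S.card) (fun S => ∏ l ∈ S, l) n t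

/-- coefficients for the tail -/
noncomputable def cL (z n t : ℕ) : ℝ := cg (Uset z n) (fun _ => 1) (fun l => l) n t

lemma prod_dvd_of_subset {n : ℕ} {S : Finset ℕ} (hS : S ⊆ n.primeFactors) : ∏ l ∈ S, l ∣ n := by
  refine Finset.prod_primes_dvd n (fun l hl => ?_) (fun l hl => ?_)
  · exact (Nat.prime_of_mem_primeFactors (hS hl)).prime
  · exact Nat.dvd_of_mem_primeFactors (hS hl)

lemma hdT {z n : ℕ} : ∀ S ∈ (Lset z n).powerset, (∏ l ∈ S, l) ∣ n := by
  intro S hS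
  rw [mem_powerset] at hS
  exact prod_dvd_of_subset (hS.trans (Finset.filter_subset _ _))

lemma hdL {z n : ℕ} : ∀ l ∈ Uset z n, l ∣ n := fun _ hl =>
  Nat.dvd_of_mem_primeFactors (mem_of_mem_filter _ hl)

lemma sum_abs_cT_le (z n : ℕ) (hn : 0 < n) :
    ∑ t ∈ range n, |cT z n t| ≤ 2 ^ (Lset z n).card := by
  refine (sum_abs_cg_le _ _ _ n hn hdT).trans ?_
  simp only [abs_pow, abs_neg, abs_one, one_pow, sum_const, card_powerset, nsmul_eq_mul, Nat.cast_pow, Nat.cast_ofNat, mul_one, Std.le_refl]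

lemma sum_abs_cL_le (z n : ℕ) (hn : 0 < n) :
    ∑ t ∈ range n, |cL z n t| ≤ (Uset z n).card := by
  refine (sum_abs_cg_le _ _ _ n hn hdL).trans ?_
  simp only [abs_one, sum_const, nsmul_eq_mul, mul_one, Std.le_refl]

/-- For `ζ^n = 1`, divisibility of `n / order` in terms of powers. -/
lemma pow_eq_one_iff_dvd {n d : ℕ} (hd : d ∣ n) (ζ : ℂ) (hζ : ζ ^ n = 1) :
    ζ ^ (n / d) = 1 ↔ d ∣ n / orderOf ζ := by
  have hoz : orderOf ζ ∣ n := orderOf_dvd_of_pow_eq_one hζ
  rw [← orderOf_dvd_iff_pow_eq_one]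
  rw [Nat.dvd_div_iff_mul_dvd hoz, Nat.dvd_div_iff_mul_dvd hd, mul_comm]

lemma cT_sum_pow (z n : ℕ) (hn : 0 < n) (ζ : ℂ) (hζ : ζ ^ n = 1) :
    ∑ t ∈ range n, (cT z n t : ℂ) * ζ ^ t =
      if ∀ l ∈ Lset z n, ζ ^ (n / l) ≠ 1 then 1 else 0 := by
  unfold cT
  rw [cg_sum_pow _ _ _ n hn hdT ζ hζ]
  have hoz : orderOf ζ ∣ n := orderOf_dvd_of_pow_eq_one hζ
  have h1 : ∀ S ∈ (Lset z n).powerset,
      (if ζ ^ (n / ∏ l ∈ S, l) = 1 then (((-1 : ℝ) ^ S.card : ℝ) : ℂ) else 0) =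
      ∏ l ∈ S, (if ζ ^ (n / l) = 1 then (-1 : ℂ) else 0) := by
    intro S hS
    have hSs := mem_powerset.1 hS
    by_cases h : ∀ l ∈ S, ζ ^ (n / l) = 1
    · have h2 : ζ ^ (n / ∏ l ∈ S, l) = 1 := by
        rw [pow_eq_one_iff_dvd (hdT S hS) ζ hζ]
        refine Finset.prod_primes_dvd _ (fun l hl => ?_) (fun l hl => ?_)
        · exact (Nat.prime_of_mem_primeFactors (mem_of_mem_filter _ (hSs hl))).prime
        · rw [← pow_eq_one_iff_dvd
            (Nat.dvd_of_mem_primeFactors (mem_of_mem_filter _ (hSs hl))) ζ hζ]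
          exact h l hl
      rw [if_pos h2, Finset.prod_congr rfl (fun l hl => if_pos (h l hl)), Finset.prod_const]
      push_cast
      rfl
    · push Not at h
      obtain ⟨l, hl, hlne⟩ := h
      have h2 : ¬ ζ ^ (n / ∏ l ∈ S, l) = 1 := by
        intro h3
        rw [pow_eq_one_iff_dvd (hdT S hS) ζ hζ] at h3
        apply hlne
        rw [pow_eq_one_iff_dvd
            (Nat.dvd_of_mem_primeFactors (mem_of_mem_filter _ (hSs hl))) ζ hζ]
        exact (Finset.dvd_prod_of_mem _ hl).trans h3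
      rw [if_neg h2]
      symm
      exact Finset.prod_eq_zero hl (if_neg hlne)
  rw [Finset.sum_congr rfl h1, ← Finset.prod_one_add]
  by_cases h : ∀ l ∈ Lset z n, ζ ^ (n / l) ≠ 1
  · rw [if_pos h]
    refine Finset.prod_eq_one fun l hl => ?_
    rw [if_neg (h l hl), add_zero]
  · rw [if_neg h]
    push Not at h
    obtain ⟨l, hl, hl1⟩ := h
    refine Finset.prod_eq_zero hl ?_
    rw [if_pos hl1]
    ring

lemma cL_sum_pow (z n : ℕ) (hn : 0 < n) (ζ : ℂ) (hζ : ζ ^ n = 1) :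
    ∑ t ∈ range n, (cL z n t : ℂ) * ζ ^ t =
      ∑ l ∈ Uset z n, if ζ ^ (n / l) = 1 then 1 else 0 := by
  unfold cL
  rw [cg_sum_pow _ _ _ n hn hdL ζ hζ]
  simp only [Complex.ofReal_one, sum_boole]

lemma cT_zero (z n : ℕ) : cT z n 0 = ∏ l ∈ Lset z n, (1 - 1 / (l : ℝ)) := by
  rw [cT, cg_zero]
  have h1 : ∀ S ∈ (Lset z n).powerset, ((-1 : ℝ) ^ S.card) / ((∏ l ∈ S, l : ℕ) : ℝ) =
      ∏ l ∈ S, (-(1 / (l : ℝ))) := by
    intro S _
    rw [Finset.prod_neg, Finset.prod_div_distrib, Nat.cast_prod]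
    simp only [prod_const_one, one_div]
    ring
  rw [Finset.sum_congr rfl h1, ← Finset.prod_one_add]
  refine Finset.prod_congr rfl fun l _ => by ring

lemma cL_zero (z n : ℕ) : cL z n 0 = ∑ l ∈ Uset z n, 1 / (l : ℝ) := by
  rw [cL, cg_zero]

end Vale.Agent.P016
end
end

section

section

namespace Vale.Agent.P016

open Finset

/-- grid points -/
def gpt (r i l : ℕ) : ℕ := 2 ^ i + 2 ^ i * l / i ^ r

lemma gpt_ge (r i l : ℕ) : 2 ^ i ≤ gpt r i l := Nat.le_add_right _ _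

lemma gpt_le {r i l : ℕ} (hi : 0 < i) (hl : l ≤ i ^ r) : gpt r i l ≤ 2 ^ (i + 1) := by
  unfold gpt
  have h1 : 2 ^ i * l / i ^ r ≤ 2 ^ i := by
    calc 2 ^ i * l / i ^ r ≤ 2 ^ i * i ^ r / i ^ r :=
          Nat.div_le_div_right (Nat.mul_le_mul_left _ hl)
      _ = 2 ^ i := Nat.mul_div_cancel _ (by positivity)
  rw [pow_succ]
  omega

lemma exists_gpt (r : ℕ) {i x : ℕ} (hi : 0 < i) (h1 : 2 ^ i ≤ x) (h2 : x < 2 ^ (i + 1)) :
    ∃ l, l + 1 ≤ i ^ r ∧ gpt r i l ≤ x ∧ x ≤ gpt r i (l + 1) ∧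
      ((gpt r i (l + 1) : ℕ) : ℝ) - gpt r i l ≤ 2 ^ i / (i : ℝ) ^ r + 1 := by
  obtain ⟨y, rfl⟩ := Nat.exists_eq_add_of_le h1
  have hy : y < 2 ^ i := by rw [pow_succ] at h2; omega
  have hir : 0 < i ^ r := by positivity
  have h2i : 0 < 2 ^ i := by positivity
  set l := y * i ^ r / 2 ^ i with hl
  have hl1 : 2 ^ i * l ≤ y * i ^ r := Nat.mul_div_le _ _
  have hl2 : y * i ^ r < 2 ^ i * (l + 1) := by
    have := Nat.lt_mul_div_succ (y * i ^ r) h2i
    rw [hl]
    exact this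
  refine ⟨l, ?_, ?_, ?_, ?_⟩
  · have : l < i ^ r := by
      rw [hl, Nat.div_lt_iff_lt_mul h2i, mul_comm (i ^ r)]
      exact Nat.mul_lt_mul_of_pos_right hy hir
    omega
  · unfold gpt
    have : 2 ^ i * l / i ^ r ≤ y := by
      calc 2 ^ i * l / i ^ r ≤ y * i ^ r / i ^ r := Nat.div_le_div_right hl1
        _ = y := Nat.mul_div_cancel _ hir
    omega
  · unfold gpt
    have : y ≤ 2 ^ i * (l + 1) / i ^ r := by
      rw [Nat.le_div_iff_mul_le hir]
      exact hl2.le
    omega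
  · unfold gpt
    have e1 : ((2 ^ i * (l + 1) / i ^ r : ℕ) : ℝ) ≤ (2 ^ i * (l + 1)) / (i : ℝ) ^ r := by
      have := @Nat.cast_div_le ℝ _ _ _ (2 ^ i * (l + 1)) (i ^ r)
      push_cast at this
      exact this
    have e2 : ((2 ^ i * l) : ℝ) / (i : ℝ) ^ r - 1 ≤ ((2 ^ i * l / i ^ r : ℕ) : ℝ) := by
      have h3 : 2 ^ i * l < (2 ^ i * l / i ^ r + 1) * i ^ r := by
        have := Nat.lt_div_mul_add (a := 2 ^ i * l) hir
        linarith only [this]
      have h4 : ((2 ^ i * l : ℕ) : ℝ) < (((2 ^ i * l / i ^ r : ℕ) : ℝ) + 1) * (i : ℝ) ^ r := by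
        exact_mod_cast h3
      have hirr : (0 : ℝ) < (i : ℝ) ^ r := by exact_mod_cast hir
      have h5 : ((2 ^ i * l : ℕ) : ℝ) / (i : ℝ) ^ r < ((2 ^ i * l / i ^ r : ℕ) : ℝ) + 1 := by
        rw [div_lt_iff₀ hirr]
        exact h4
      push_cast at h5 ⊢
      linarith only [h5]
    push_cast
    have e3 : ((2 : ℝ) ^ i * (l + 1)) / (i : ℝ) ^ r = 2 ^ i * l / (i : ℝ) ^ r + 2 ^ i / (i : ℝ) ^ r := by
      ring
    rw [e3] at e1
    linarith only [e1, e2]

lemma log_bounds {i x : ℕ} (hi : 3 ≤ i) (h1 : 2 ^ i ≤ x) (h2 : x ≤ 2 ^ (i + 1)) :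
    (i : ℝ) / 2 ≤ Real.log x ∧ Real.log x ≤ i := by
  have h1r : (2 : ℝ) ^ i ≤ x := by exact_mod_cast h1
  have h2r : (x : ℝ) ≤ 2 ^ (i + 1) := by exact_mod_cast h2
  have hx : (0 : ℝ) < x := lt_of_lt_of_le (by positivity) h1r
  have e1 := Real.log_le_log (by positivity) h1r
  have e2 := Real.log_le_log hx h2r
  rw [Real.log_pow] at e1 e2
  have hi3 : (3 : ℝ) ≤ i := by exact_mod_cast hi
  have l1 := Real.log_two_gt_d9
  have l2 := Real.log_two_lt_d9
  push_cast at e2
  constructor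
  · nlinarith only [e1, l1]
  · nlinarith only [hi3, l2, e2]

/-- Pointwise interpolation between two consecutive grid points. -/
lemma interp (D : ℕ) {i x y y' : ℕ} (N M : ℕ → ℝ) (hN : Monotone N) (hM : Monotone M)
    (hM1 : ∀ u v : ℕ, u ≤ v → M v - M u ≤ (v : ℝ) - u)
    (hi : 2 ^ (2 * D + 9) ≤ i) (hi2 : i ^ (D + 4) ≤ 2 ^ i)
    (hx1 : 2 ^ i ≤ x) (hx2 : x < 2 ^ (i + 1)) (hy1 : 2 ^ i ≤ y) (hyx : y ≤ x) (hxy : x ≤ y')
    (hy2 : y' ≤ 2 ^ (i + 1))
    (hgap : (y' : ℝ) - y ≤ 2 ^ i / (i : ℝ) ^ (D + 4) + 1)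
    (hMx : (x : ℝ) / (Real.log x) ^ 3 ≤ M x)
    (hNy : |N y - M y| ≤ M y / (Real.log y) ^ (2 * D + 7))
    (hNy' : |N y' - M y'| ≤ M y' / (Real.log y') ^ (2 * D + 7)) :
    |N x - M x| ≤ M x / (Real.log x) ^ D := by
  have hi512 : 512 ≤ i := by
    refine le_trans ?_ hi
    calc 512 = 2 ^ 9 := by norm_num
      _ ≤ 2 ^ (2 * D + 9) := Nat.pow_le_pow_right (by norm_num) (by omega)
  have hi3 : 3 ≤ i := by omega
  have hir : (512 : ℝ) ≤ i := by exact_mod_cast hi512
  have hDi : (2 : ℝ) ^ (2 * D + 9) ≤ i := by exact_mod_cast hi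
  have hi0 : (0 : ℝ) < i := by linarith only [hir]
  obtain ⟨lx1, lx2⟩ := log_bounds hi3 hx1 hx2.le
  obtain ⟨ly1, ly2⟩ := log_bounds hi3 hy1 (hyx.trans hx2.le)
  obtain ⟨ly1', ly2'⟩ := log_bounds hi3 (hx1.trans hxy) hy2
  have hxr : (2 : ℝ) ^ i ≤ x := by exact_mod_cast hx1
  have hx0 : (0 : ℝ) < x := lt_of_lt_of_le (by positivity) hxr
  have hlx0 : 0 < Real.log x := by linarith only [hir, lx1]
  have hly0 : 0 < Real.log y := by linarith only [hir, ly1]
  have hly0' : 0 < Real.log y' := by linarith only [hir, ly1']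
  have hMxpos : 0 < M x := lt_of_lt_of_le (by (clear * - hx0 hlx0; positivity)) hMx
  have hyx' : M y ≤ M x := hM hyx
  have hMy0 : 0 ≤ M y := by
    have h1 := (abs_nonneg _).trans hNy
    have h2 : 0 < (Real.log y) ^ (2 * D + 7) := by (clear * - hly0; positivity)
    by_contra hc
    push Not at hc
    exact absurd h1 (not_le.2 (div_neg_of_neg_of_pos hc h2))
  -- gap
  have hgap' : (y' : ℝ) - y ≤ 2 * x / (i : ℝ) ^ (D + 4) := by
    have h1 : (1 : ℝ) ≤ 2 ^ i / (i : ℝ) ^ (D + 4) := by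
      rw [one_le_div (by positivity)]
      exact_mod_cast hi2
    have h2 : (2 : ℝ) ^ i / (i : ℝ) ^ (D + 4) ≤ x / (i : ℝ) ^ (D + 4) :=
      div_le_div_of_nonneg_right hxr (by positivity)
    have h3 : 2 * (x : ℝ) / (i : ℝ) ^ (D + 4) = x / (i : ℝ) ^ (D + 4) + x / (i : ℝ) ^ (D + 4) := by
      ring
    linarith only [hgap, h1, h2, h3]
  have hxM : (x : ℝ) ≤ (i : ℝ) ^ 3 * M x := by
    rw [div_le_iff₀ (by (clear * - hlx0; positivity))] at hMx
    refine hMx.trans ?_
    rw [mul_comm]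
    refine mul_le_mul_of_nonneg_right ?_ hMxpos.le
    exact pow_le_pow_left₀ hlx0.le lx2 3
  have hgapM : (y' : ℝ) - y ≤ 2 * M x / (i : ℝ) ^ (D + 1) := by
    refine hgap'.trans ?_
    rw [div_le_div_iff₀ (by (clear * - hi512; positivity)) (by positivity)]
    have : (i : ℝ) ^ (D + 4) = (i : ℝ) ^ (D + 1) * (i : ℝ) ^ 3 := by ring
    rw [this]
    have h1 : (x : ℝ) * (i : ℝ) ^ (D + 1) ≤ (i : ℝ) ^ 3 * M x * (i : ℝ) ^ (D + 1) :=
      mul_le_mul_of_nonneg_right hxM (by positivity)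
    linarith only [h1]
  set g : ℝ := (y' : ℝ) - y with hg
  have hyxr : (y : ℝ) ≤ x := by exact_mod_cast hyx
  have hxyr : (x : ℝ) ≤ y' := by exact_mod_cast hxy
  have hg0 : 0 ≤ g := by linarith only [hyxr, hxyr]
  set W : ℝ := ((i : ℝ) / 2) ^ (2 * D + 7) with hW
  have hWpos : 0 < W := by positivity
  have hW1 : 1 ≤ W := one_le_pow₀ (by linarith only [hir])
  have b1 : M y / (Real.log y) ^ (2 * D + 7) ≤ M x / W := by
    refine (div_le_div_of_nonneg_right hyx' (by (clear * - hly0; positivity))).trans ?_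
    exact div_le_div_of_nonneg_left hMxpos.le hWpos (pow_le_pow_left₀ (by positivity) ly1 _)
  have b2 : M y' / (Real.log y') ^ (2 * D + 7) ≤ M x / W + g := by
    have c1 : M y' ≤ M x + g := by
      have := hM1 x y' hxy
      linarith only [hyxr, this]
    have c2 : M y' / (Real.log y') ^ (2 * D + 7) ≤ (M x + g) / (Real.log y') ^ (2 * D + 7) :=
      div_le_div_of_nonneg_right c1 (by (clear * - hly0'; positivity))
    have c3 : (M x + g) / (Real.log y') ^ (2 * D + 7) ≤ (M x + g) / W :=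
      div_le_div_of_nonneg_left (by (clear * - hMxpos hg0; positivity)) hWpos (pow_le_pow_left₀ (by positivity) ly1' _)
    have c4 : (M x + g) / W ≤ M x / W + g := by
      rw [add_div]
      have : g / W ≤ g := div_le_self hg0 hW1
      linarith only [this]
    linarith only [c2, c3, c4]
  have key : M x / W + 2 * g ≤ M x / (Real.log x) ^ D := by
    have d1 : M x / (i : ℝ) ^ D ≤ M x / (Real.log x) ^ D :=
      div_le_div_of_nonneg_left hMxpos.le (by (clear * - hlx0; positivity)) (pow_le_pow_left₀ hlx0.le lx2 _)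
    refine le_trans ?_ d1
    have d2 : M x / W ≤ (1 / 2) * (M x / (i : ℝ) ^ D) := by
      have : (1 / 2 : ℝ) * (M x / (i : ℝ) ^ D) = M x / (2 * (i : ℝ) ^ D) := by
        (clear * - hi512 hMxpos; field_simp)
      rw [this]
      refine div_le_div_of_nonneg_left hMxpos.le (by positivity) ?_
      rw [hW, div_pow, le_div_iff₀ (by positivity)]
      have e1 : (i : ℝ) ^ (2 * D + 7) = (i : ℝ) ^ D * ((i : ℝ) ^ (D + 6) * i) := by ring
      rw [e1]
      have e2 : 2 * (i : ℝ) ^ D * 2 ^ (2 * D + 7) = (i : ℝ) ^ D * 2 ^ (2 * D + 8) := by ring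
      rw [e2]
      refine mul_le_mul_of_nonneg_left ?_ (by positivity)
      have e3 : (2 : ℝ) ^ (2 * D + 8) ≤ i := by
        refine le_trans ?_ hDi
        exact pow_le_pow_right₀ (by norm_num) (by (clear * -; omega))
      refine e3.trans ?_
      have e4 : (1 : ℝ) ≤ (i : ℝ) ^ (D + 6) := one_le_pow₀ (by linarith only [hir])
      nlinarith only [e4]
    have d3 : 2 * g ≤ (1 / 2) * (M x / (i : ℝ) ^ D) := by
      have f1 : 2 * g ≤ 4 * M x / (i : ℝ) ^ (D + 1) := by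
        have : 4 * M x / (i : ℝ) ^ (D + 1) = 2 * (2 * M x / (i : ℝ) ^ (D + 1)) := by ring
        linarith only [hgapM, this]
      refine f1.trans ?_
      have : (1 / 2 : ℝ) * (M x / (i : ℝ) ^ D) = M x / (2 * (i : ℝ) ^ D) := by
        (clear * - hi512 hMxpos; field_simp)
      rw [this, div_le_div_iff₀ (by positivity) (by positivity), pow_succ]
      have f2 : 0 < M x * (i : ℝ) ^ D := by positivity
      nlinarith only [f2, hir]
    linarith only [d2, d3]
  rw [abs_le] at hNy hNy' ⊢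
  have n1 := hN hyx
  have n2 := hN hxy
  have m1 := hM1 y x hyx
  have m2 := hM1 x y' hxy
  constructor
  · have : N x - M x ≥ -(M x / W) - g := by linarith only [hxyr, b1, n1, m1, hNy.1]
    linarith only [hNy, hyxr, hxyr, b1, key, n1, m1]
  · have : N x - M x ≤ M x / W + 2 * g := by linarith only [hNy', hyxr, b2, n2, m2, hNy'.2]
    linarith only [hNy', hyxr, b2, key, n2, m2]

lemma sum_inv_sq_le {i₀ i₁ : ℕ} (h : 2 ≤ i₀) : ∑ i ∈ Icc i₀ i₁, 1 / (i : ℝ) ^ 2 ≤ 1 := by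
  rcases Nat.lt_or_ge i₁ 1 with h1 | h1
  · rw [Finset.Icc_eq_empty (by omega)]
    simp only [one_div, sum_empty, zero_le_one]
  have h2 := sum_Ioc_inv_sq_le_sub (α := ℝ) (k := 1) (n := i₁) (by norm_num) h1
  have h3 : ∑ i ∈ Icc i₀ i₁, 1 / (i : ℝ) ^ 2 ≤ ∑ i ∈ Ioc 1 i₁, ((i : ℝ) ^ 2)⁻¹ := by
    simp only [one_div]
    refine Finset.sum_le_sum_of_subset_of_nonneg ?_ fun _ _ _ => by positivity
    intro i hi
    rw [mem_Icc] at hi
    rw [mem_Ioc]
    omega
  have h4 : (0 : ℝ) ≤ (i₁ : ℝ)⁻¹ := by positivity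
  simp only [Nat.cast_one, inv_one] at h2
  linarith only [h3, h4, h2]

open Classical in
/-- From an exceptional-set bound at each point to a uniform exceptional-set bound on an
interval, for monotone counting functions. -/
theorem grid_union (D : ℕ) (M : ℕ → ℝ) (hM : Monotone M)
    (hM1 : ∀ u v : ℕ, u ≤ v → M v - M u ≤ (v : ℝ) - u)
    (hM3 : ∃ x₁ : ℕ, ∀ x : ℕ, x₁ ≤ x → (x : ℝ) / (Real.log x) ^ 3 ≤ M x) :
    ∃ x₀ : ℕ, ∀ {α : Type} (S : Finset α) (N : α → ℕ → ℝ), (∀ a, Monotone (N a)) →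
      ∀ (T : ℝ) (X₀ X : ℕ), 0 ≤ T → x₀ ≤ X₀ →
      (∀ x : ℕ, X₀ ≤ 2 * x → x ≤ 2 * X →
        ((S.filter (fun a => M x / (Real.log x) ^ (2 * D + 7) < |N a x - M x|)).card : ℝ) ≤
          T / (Real.log x) ^ (2 * D + 7)) →
      ((S.filter (fun a => ∃ x : ℕ, X₀ ≤ x ∧ x ≤ X ∧
        M x / (Real.log x) ^ D < |N a x - M x|)).card : ℝ) ≤ T / (Real.log X₀) ^ D := by
  obtain ⟨x₁, hx₁⟩ := hM3
  -- i₀ large enough
  have hev : ∃ m : ℕ, ∀ i : ℕ, m ≤ i → i ^ (D + 4) ≤ 2 ^ i := by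
    have h := (isLittleO_pow_const_const_pow_of_one_lt (R := ℝ) (D + 4)
      (r := 2) (by norm_num)).bound (c := 1) (by norm_num)
    obtain ⟨m, hm⟩ := Filter.eventually_atTop.1 h
    refine ⟨m, fun i hi => ?_⟩
    have h1 := hm i hi
    simp only [norm_pow, RCLike.norm_natCast, one_mul, Real.norm_ofNat] at h1
    exact_mod_cast h1
  obtain ⟨m, hm⟩ := hev
  refine ⟨2 ^ (max (max m x₁) (2 ^ (2 * D + 9))), ?_⟩
  intro α S N hN T X₀ X hT hX₀ hexc
  set m₀ := max (max m x₁) (2 ^ (2 * D + 9)) with hm₀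
  set i₀ := Nat.log 2 X₀ with hi₀
  have hX₀0 : X₀ ≠ 0 := by
    have : 0 < 2 ^ m₀ := by positivity
    omega
  have hi₀m : m₀ ≤ i₀ := by
    rw [hi₀]
    exact Nat.le_log_of_pow_le (by norm_num) hX₀
  have hi₀D : 2 ^ (2 * D + 9) ≤ i₀ := (le_max_right _ _).trans hi₀m
  have hi₀mm : m ≤ i₀ := ((le_max_left _ _).trans (le_max_left _ _)).trans hi₀m
  have hi₀x : x₁ ≤ i₀ := ((le_max_right _ _).trans (le_max_left _ _)).trans hi₀m
  have hi₀512 : 512 ≤ i₀ := by
    refine le_trans ?_ hi₀D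
    calc 512 = 2 ^ 9 := by norm_num
      _ ≤ 2 ^ (2 * D + 9) := Nat.pow_le_pow_right (by norm_num) (by omega)
  have hX₀lt : X₀ < 2 ^ (i₀ + 1) := Nat.lt_pow_succ_log_self (by norm_num) _
  have hX₀le : 2 ^ i₀ ≤ X₀ := Nat.pow_log_le_self 2 hX₀0
  set E := fun y : ℕ => S.filter (fun a => M y / (Real.log y) ^ (2 * D + 7) < |N a y - M y|) with hE
  have hsub : S.filter (fun a => ∃ x : ℕ, X₀ ≤ x ∧ x ≤ X ∧
        M x / (Real.log x) ^ D < |N a x - M x|) ⊆
      (Icc i₀ (Nat.log 2 X)).biUnion fun i => (range (i ^ (D + 4) + 1)).biUnion fun l =>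
        E (gpt (D + 4) i l) := by
    intro a ha
    rw [mem_filter] at ha
    obtain ⟨haS, x, hx1, hx2, hx3⟩ := ha
    by_contra hcon
    simp only [mem_biUnion, mem_Icc, mem_range, not_exists, not_and] at hcon
    have hx0 : x ≠ 0 := by omega
    set i := Nat.log 2 x with hi
    have hi1 : i₀ ≤ i := Nat.log_mono_right hx1
    have hi2 : i ≤ Nat.log 2 X := Nat.log_mono_right hx2
    have hxi : 2 ^ i ≤ x := Nat.pow_log_le_self 2 hx0
    have hxi' : x < 2 ^ (i + 1) := Nat.lt_pow_succ_log_self (by norm_num) _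
    obtain ⟨l, hl1, hl2, hl3, hl4⟩ := exists_gpt (D + 4) (by omega) hxi hxi'
    have c1 := hcon i ⟨hi1, hi2⟩ l (by omega)
    have c2 := hcon i ⟨hi1, hi2⟩ (l + 1) (by omega)
    simp only [hE, mem_filter, haS, true_and, not_lt] at c1 c2
    refine absurd hx3 (not_lt.2 ?_)
    refine interp D (N a) M (hN a) hM hM1 (hi₀D.trans hi1) (hm i (hi₀mm.trans hi1)) hxi hxi'
      (gpt_ge _ _ _) hl2 hl3 (gpt_le (by omega) hl1) hl4 (hx₁ x ?_) c1 c2
    have : i < 2 ^ i := Nat.lt_two_pow_self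
    omega
  have hcard : ((S.filter (fun a => ∃ x : ℕ, X₀ ≤ x ∧ x ≤ X ∧
        M x / (Real.log x) ^ D < |N a x - M x|)).card : ℝ) ≤
      ∑ i ∈ Icc i₀ (Nat.log 2 X), ∑ l ∈ range (i ^ (D + 4) + 1),
        ((E (gpt (D + 4) i l)).card : ℝ) := by
    have h1 := (Finset.card_le_card hsub).trans Finset.card_biUnion_le
    have h2 : ∑ i ∈ Icc i₀ (Nat.log 2 X), ((range (i ^ (D + 4) + 1)).biUnion fun l =>
        E (gpt (D + 4) i l)).card ≤ ∑ i ∈ Icc i₀ (Nat.log 2 X),
          ∑ l ∈ range (i ^ (D + 4) + 1), (E (gpt (D + 4) i l)).card :=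
      Finset.sum_le_sum fun i _ => Finset.card_biUnion_le
    exact_mod_cast h1.trans h2
  refine hcard.trans ?_
  have hi₀r : (0 : ℝ) < i₀ := by exact_mod_cast (by omega : 0 < i₀)
  have hinner : ∀ i ∈ Icc i₀ (Nat.log 2 X), ∑ l ∈ range (i ^ (D + 4) + 1),
        ((E (gpt (D + 4) i l)).card : ℝ) ≤
        T * 2 ^ (2 * D + 8) / (i₀ : ℝ) ^ (D + 1) * (1 / (i : ℝ) ^ 2) := by
    intro i hi
    rw [mem_Icc] at hi
    obtain ⟨hi1, hi2⟩ := hi
    have hir : (1 : ℝ) ≤ i := by exact_mod_cast (by omega : 1 ≤ i)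
    have hi₀i : (i₀ : ℝ) ≤ i := by exact_mod_cast hi1
    have hX0 : X ≠ 0 := by
      rintro rfl
      simp at hi2
      omega
    have e1 : ∀ l ∈ range (i ^ (D + 4) + 1), ((E (gpt (D + 4) i l)).card : ℝ) ≤
        T / ((i : ℝ) / 2) ^ (2 * D + 7) := by
      intro l hl
      rw [mem_range] at hl
      have g1 : 2 ^ i ≤ gpt (D + 4) i l := gpt_ge _ _ _
      have g2 : gpt (D + 4) i l ≤ 2 ^ (i + 1) := gpt_le (by omega) (by omega)
      have h2i : 2 ^ i₀ ≤ 2 ^ i := Nat.pow_le_pow_right (by norm_num) hi1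
      have hXi : 2 ^ i ≤ X := Nat.pow_le_of_le_log hX0 hi2
      have h1 := hexc (gpt (D + 4) i l) (by rw [pow_succ] at hX₀lt; omega)
        (by rw [pow_succ] at g2; (clear * - g2 hXi; omega))
      refine h1.trans ?_
      obtain ⟨b1, b2⟩ := log_bounds (by omega) g1 g2
      exact div_le_div_of_nonneg_left hT (by (clear * - hir; positivity)) (pow_le_pow_left₀ (by (clear * - hir; positivity)) b1 _)
    refine (Finset.sum_le_sum e1).trans ?_
    rw [Finset.sum_const, card_range, nsmul_eq_mul]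
    have h1 : ((i ^ (D + 4) + 1 : ℕ) : ℝ) ≤ 2 * (i : ℝ) ^ (D + 4) := by
      push_cast
      have : (1 : ℝ) ≤ (i : ℝ) ^ (D + 4) := one_le_pow₀ hir
      linarith only [this]
    have h2 : ((i ^ (D + 4) + 1 : ℕ) : ℝ) * (T / ((i : ℝ) / 2) ^ (2 * D + 7)) ≤
        (2 * (i : ℝ) ^ (D + 4)) * (T / ((i : ℝ) / 2) ^ (2 * D + 7)) :=
      mul_le_mul_of_nonneg_right h1 (by (clear * - hT hir; positivity))
    refine h2.trans ?_
    have hi0 : (0 : ℝ) < i := by linarith only [hir]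
    have h3 : (2 * (i : ℝ) ^ (D + 4)) * (T / ((i : ℝ) / 2) ^ (2 * D + 7)) =
        T * 2 ^ (2 * D + 8) / (i : ℝ) ^ (D + 1) * (1 / (i : ℝ) ^ 2) := by
      rw [div_pow]
      field_simp
      ring
    rw [h3]
    refine mul_le_mul_of_nonneg_right ?_ (by (clear * - hir; positivity))
    exact div_le_div_of_nonneg_left (by (clear * - hT; positivity)) (by (clear * - hi₀512; positivity))
      (pow_le_pow_left₀ hi₀r.le hi₀i _)
  refine (Finset.sum_le_sum hinner).trans ?_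
  rw [← Finset.mul_sum]
  have hs := sum_inv_sq_le (i₀ := i₀) (i₁ := Nat.log 2 X) (by omega)
  have hc : 0 ≤ T * 2 ^ (2 * D + 8) / (i₀ : ℝ) ^ (D + 1) := by (clear * - hT hi₀512; positivity)
  have h4 : T * 2 ^ (2 * D + 8) / (i₀ : ℝ) ^ (D + 1) *
      ∑ i ∈ Icc i₀ (Nat.log 2 X), 1 / (i : ℝ) ^ 2 ≤
      T * 2 ^ (2 * D + 8) / (i₀ : ℝ) ^ (D + 1) := mul_le_of_le_one_right hc hs
  refine h4.trans ?_
  obtain ⟨b1, b2⟩ := log_bounds (by omega) hX₀le hX₀lt.le
  have hl0 : 0 < Real.log X₀ := by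
    have : (0 : ℝ) < (i₀ : ℝ) / 2 := by (clear * - hi₀512; positivity)
    linarith only [hi₀r, b1]
  have h5 : T / (i₀ : ℝ) ^ D ≤ T / (Real.log X₀) ^ D :=
    div_le_div_of_nonneg_left hT (by (clear * - hl0; positivity)) (pow_le_pow_left₀ hl0.le b2 _)
  refine le_trans ?_ h5
  rw [div_le_div_iff₀ (by (clear * - hi₀512; positivity)) (by positivity), pow_succ (i₀ : ℝ) D]
  have h6 : (2 : ℝ) ^ (2 * D + 8) ≤ i₀ := by
    have h7 : (2 : ℝ) ^ (2 * D + 9) ≤ i₀ := by exact_mod_cast hi₀D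
    refine le_trans ?_ h7
    exact pow_le_pow_right₀ (by norm_num) (by omega)
  have h8 : 0 ≤ T * (i₀ : ℝ) ^ D := by (clear * - hT hi₀512; positivity)
  linarith only [mul_le_mul_of_nonneg_left h6 h8]

end Vale.Agent.P016
end
end

section

section

namespace Vale.Agent.P016

open Finset

open Classical in
/-- `z`-smooth integers up to `y` (all prime factors `< z`) -/
noncomputable def Sm (z y : ℕ) : Finset ℕ :=
  (Icc 1 y).filter (fun n => ∀ p : ℕ, p.Prime → p ∣ n → p < z)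

lemma mem_Sm {z y n : ℕ} : n ∈ Sm z y ↔ (1 ≤ n ∧ n ≤ y) ∧ ∀ p : ℕ, p.Prime → p ∣ n → p < z := by
  classical
  rw [Sm, mem_filter, mem_Icc]

/-- primes below `z` -/
def Pb (z : ℕ) : Finset ℕ := (range z).filter Nat.Prime

lemma mem_Pb {z p : ℕ} : p ∈ Pb z ↔ p.Prime ∧ p < z := by simp [Pb, and_comm]

lemma sum_eta_le (z : ℕ) (hz : 3 ≤ z) (η : ℝ) (h0 : 0 ≤ η) :
    ∑ p ∈ Pb z, ((p : ℝ) ^ η / p) ≤ Real.log (Real.log z) + 21 + 3 * (z : ℝ) ^ η := by
  have hzr : (3 : ℝ) ≤ z := by exact_mod_cast hz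
  have hz0 : (0 : ℝ) < z := by linarith only [hzr]
  have hlogz : 1 ≤ Real.log z := by
    rw [Real.le_log_iff_exp_le hz0]
    have := Real.exp_one_lt_d9
    linarith only [hzr, this]
  set A := (z : ℝ) ^ η with hA
  have hA1 : 1 ≤ A := Real.one_le_rpow (by linarith only [hzr]) h0
  -- termwise
  have h1 : ∀ p ∈ Pb z, (p : ℝ) ^ η / p ≤ 1 / (p : ℝ) + (A / Real.log z) * (Real.log p / p) := by
    intro p hp
    rw [mem_Pb] at hp
    have hp0 : (0 : ℝ) < p := by exact_mod_cast hp.1.pos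
    have hp1 : (1 : ℝ) ≤ p := by exact_mod_cast hp.1.one_lt.le
    have hlp : 0 ≤ Real.log p := Real.log_nonneg hp1
    have hpz : Real.log p ≤ Real.log z := Real.log_le_log hp0 (by exact_mod_cast hp.2.le)
    set θ := Real.log p / Real.log z with hθ
    have hθ0 : 0 ≤ θ := by (clear * - hlogz; positivity)
    have hθ1 : θ ≤ 1 := by rw [hθ, div_le_one (by linarith only [hlogz])]; exact hpz
    have e1 : (p : ℝ) ^ η = A ^ θ := by
      rw [hA, ← Real.rpow_mul hz0.le, Real.rpow_def_of_pos hp0, Real.rpow_def_of_pos hz0, hθ]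
      congr 1
      field_simp
    have e2 := rpow_one_add_le_one_add_mul_self (s := A - 1) (by linarith only [hA1]) hθ0 hθ1
    rw [show 1 + (A - 1) = A by ring] at e2
    have e3 : (p : ℝ) ^ η ≤ 1 + θ * A := by
      rw [e1]
      linarith only [hθ0, e2]
    calc (p : ℝ) ^ η / p ≤ (1 + θ * A) / p := div_le_div_of_nonneg_right e3 hp0.le
      _ = _ := by rw [hθ]; (clear * - hlogz hp0 hA1; field_simp)
  refine (Finset.sum_le_sum h1).trans ?_
  rw [Finset.sum_add_distrib, ← Finset.mul_sum]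
  have h2 : ∑ p ∈ Pb z, 1 / (p : ℝ) ≤ Real.log (Real.log z) + 21 := by
    have hm := Vale.Agent.P031.mertens_explicit z hzr
    rw [Nat.floor_natCast] at hm
    have h3 : ∑ p ∈ Pb z, 1 / (p : ℝ) ≤
        ∑ p ∈ (Finset.range (z + 1)).filter Nat.Prime, (1 : ℝ) / p := by
      refine Finset.sum_le_sum_of_subset_of_nonneg ?_ fun _ _ _ => by (clear * -; positivity)
      intro p hp
      rw [mem_Pb] at hp
      rw [mem_filter, mem_range]
      exact ⟨by omega, hp.1⟩
    have := (abs_le.1 hm).2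
    linarith only [h3, this]
  have h3 : (A / Real.log z) * ∑ p ∈ Pb z, Real.log p / p ≤ 3 * A := by
    have h4 : ∑ p ∈ Pb z, Real.log p / p ≤ Real.log z + Real.log 4 := by
      refine le_trans ?_ (sum_log_div_le z (by omega))
      refine Finset.sum_le_sum_of_subset_of_nonneg ?_ fun p _ _ =>
        div_nonneg (Real.log_natCast_nonneg p) (Nat.cast_nonneg p)
      intro p hp
      rw [mem_Pb] at hp
      rw [mem_primesUpto]
      exact ⟨hp.1, hp.2.le⟩
    have h5 : Real.log 4 ≤ 2 * Real.log z := by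
      have e : Real.log 4 = 2 * Real.log 2 := by
        rw [show (4 : ℝ) = 2 ^ 2 by norm_num, Real.log_pow]
        push_cast
        ring
      rw [e]
      have := Real.log_le_log (by norm_num : (0 : ℝ) < 2) (by linarith only [hzr] : (2 : ℝ) ≤ z)
      linarith only [this]
    calc (A / Real.log z) * ∑ p ∈ Pb z, Real.log p / p ≤ (A / Real.log z) * (3 * Real.log z) :=
          mul_le_mul_of_nonneg_left (by linarith only [h4, h5]) (by positivity)
      _ = 3 * A := by field_simp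
  linarith only [h2, h3]

/-- Rankin sum over smooth numbers. -/
lemma F_bound : ∃ C : ℝ, 1 ≤ C ∧ ∀ z y : ℕ, 3 ≤ z → ∀ η : ℝ, 0 ≤ η → η ≤ 1 / 4 →
    ∑ n ∈ Sm z y, (n : ℝ) ^ (-(1 - η)) ≤ C * Real.log z * Real.exp (3 * (z : ℝ) ^ η) := by
  have hsum : Summable (fun n : ℕ => 1 / (n : ℝ) ^ (3 / 2 : ℝ)) :=
    Real.summable_one_div_nat_rpow.2 (by norm_num)
  obtain ⟨C0, hC0⟩ : ∃ C0 : ℝ, C0 = ∑' n : ℕ, 1 / (n : ℝ) ^ (3 / 2 : ℝ) := ⟨_, rfl⟩
  have hC00 : 0 ≤ C0 := by rw [hC0]; exact tsum_nonneg fun _ => by (clear * -; positivity)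
  refine ⟨5 / 2 * Real.exp (21 + 3 * C0), ?_, fun z y hz η h0 h1 => ?_⟩
  · have : 1 ≤ Real.exp (21 + 3 * C0) := Real.one_le_exp (by positivity)
    linarith only [this]
  have hzr : (3 : ℝ) ≤ z := by exact_mod_cast hz
  have hz0 : (0 : ℝ) < z := by linarith only [hzr]
  have hlogz : 1 ≤ Real.log z := by
    rw [Real.le_log_iff_exp_le hz0]
    have := Real.exp_one_lt_d9
    linarith only [hzr, this]
  set f : ℕ → ℝ := fun p => (p : ℝ) ^ η with hf
  have hPp : ∀ p ∈ Pb z, p.Prime := fun p hp => (mem_Pb.1 hp).1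
  have hfp : ∀ p : ℕ, 2 ≤ p → f p / p ≤ (p : ℝ) ^ (-(3 / 4 : ℝ)) := by
    intro p hp
    have hp0 : (0 : ℝ) < p := by positivity
    have hp1 : (1 : ℝ) ≤ p := by exact_mod_cast (by omega : 1 ≤ p)
    have e : f p / p = (p : ℝ) ^ (η - 1) := by
      rw [hf]
      simp only
      rw [Real.rpow_sub_one hp0.ne']
    rw [e]
    exact Real.rpow_le_rpow_of_exponent_le hp1 (by linarith only [h1])
  have h34 : (3 : ℝ) ^ (-(3 / 4 : ℝ)) ≤ 2 / 3 := by
    have h5 : ((3 : ℝ) ^ (-(3 / 4 : ℝ))) ^ 4 ≤ (2 / 3) ^ 4 := by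
      rw [← Real.rpow_natCast, ← Real.rpow_mul (by norm_num)]
      rw [show -(3 / 4 : ℝ) * ((4 : ℕ) : ℝ) = -3 by norm_num, Real.rpow_neg (by norm_num)]
      rw [show ((3 : ℝ)) ^ (3 : ℝ) = 27 by
        rw [show (3 : ℝ) = ((3 : ℕ) : ℝ) by norm_num, Real.rpow_natCast]; norm_num]
      norm_num
    exact le_of_pow_le_pow_left₀ (by norm_num) (by norm_num) h5
  have hrank := Vale.Agent.P016.Rk.rankin (Pb z) hPp f (fun p _ => by rw [hf]; (clear * -; positivity))
    (fun p hp => by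
      have h2 := (hPp p hp).two_le
      have hp1 : (1 : ℝ) < p := by exact_mod_cast (by omega : 1 < p)
      rw [hf]
      simp only
      calc (p : ℝ) ^ η ≤ (p : ℝ) ^ (1 / 4 : ℝ) := Real.rpow_le_rpow_of_exponent_le hp1.le h1
        _ < (p : ℝ) ^ (1 : ℝ) := Real.rpow_lt_rpow_of_exponent_lt hp1 (by norm_num)
        _ = p := Real.rpow_one _)
    (Sm z y) (fun n hn => by
      rw [mem_Sm] at hn
      refine ⟨by omega, fun p hp => ?_⟩
      rw [mem_Pb]
      have hpp := Nat.prime_of_mem_primeFactors hp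
      exact ⟨hpp, hn.2 p hpp (Nat.dvd_of_mem_primeFactors hp)⟩)
  have hlhs : ∀ n ∈ Sm z y, (n : ℝ) ^ (-(1 - η)) =
      (∏ p ∈ n.primeFactors, (f p) ^ (n.factorization p)) / (n : ℝ) := by
    intro n hn
    rw [mem_Sm] at hn
    have hn0 : n ≠ 0 := by omega
    have hnr : (0 : ℝ) < n := by exact_mod_cast (by omega : 0 < n)
    have e1 : ∏ p ∈ n.primeFactors, (f p) ^ (n.factorization p) = (n : ℝ) ^ η := by
      have e2 : (n : ℝ) = ∏ p ∈ n.primeFactors, (p : ℝ) ^ (n.factorization p) := by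
        conv_lhs => rw [← Nat.prod_factorization_pow_eq_self hn0]
        rw [Finsupp.prod]
        push_cast
        rfl
      conv_rhs => rw [e2]
      rw [← Real.finsetProd_rpow _ _ (fun p _ => by (clear * -; positivity))]
      refine Finset.prod_congr rfl fun p _ => ?_
      rw [hf]
      simp only
      rw [← Real.rpow_natCast, ← Real.rpow_mul (Nat.cast_nonneg p), mul_comm,
        Real.rpow_mul (Nat.cast_nonneg p), Real.rpow_natCast]
    rw [e1, show -(1 - η) = η - 1 by ring, Real.rpow_sub_one hnr.ne']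
  rw [Finset.sum_congr rfl hlhs]
  refine hrank.trans ?_
  have hprod := Vale.Agent.P016.Rk.prod_inv_le (Pb z) f (6 / 5) (by norm_num) (by norm_num)
    (fun p _ => by rw [hf]; (clear * -; positivity))
    (fun p hp hp2 => by
      have h2 := (hPp p hp).two_le
      have h3 : 3 ≤ p := by omega
      refine (hfp p h2).trans (le_trans ?_ h34)
      exact Real.rpow_le_rpow_of_nonpos (by norm_num) (by exact_mod_cast h3) (by norm_num))
    (by
      rw [hf]
      simp only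
      push_cast
      calc (2 : ℝ) ^ η ≤ (2 : ℝ) ^ (1 / 4 : ℝ) := Real.rpow_le_rpow_of_exponent_le (by norm_num) h1
        _ ≤ 6 / 5 := by
          have h5 : ((2 : ℝ) ^ (1 / 4 : ℝ)) ^ 4 ≤ (6 / 5) ^ 4 := by
            rw [← Real.rpow_natCast, ← Real.rpow_mul (by norm_num)]
            norm_num
          exact le_of_pow_le_pow_left₀ (by norm_num) (by norm_num) h5)
  refine hprod.trans ?_
  have hs1 := sum_eta_le z hz η h0
  have hs2 : ∑ p ∈ (Pb z).erase 2, 3 * (f p / p) ^ 2 ≤ 3 * C0 := by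
    rw [← Finset.mul_sum]
    refine mul_le_mul_of_nonneg_left ?_ (by norm_num)
    calc ∑ p ∈ (Pb z).erase 2, (f p / p) ^ 2 ≤ ∑ p ∈ (Pb z).erase 2, 1 / (p : ℝ) ^ (3 / 2 : ℝ) := by
          refine Finset.sum_le_sum fun p hp => ?_
          have h2 := (hPp p (Finset.mem_of_mem_erase hp)).two_le
          have hp0 : (0 : ℝ) < p := by positivity
          calc (f p / p) ^ 2 ≤ ((p : ℝ) ^ (-(3 / 4 : ℝ))) ^ 2 :=
                pow_le_pow_left₀ (by rw [hf]; (clear * - h2; positivity)) (hfp p h2) 2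
            _ = 1 / (p : ℝ) ^ (3 / 2 : ℝ) := by
                rw [← Real.rpow_natCast, ← Real.rpow_mul hp0.le, one_div, ← Real.rpow_neg hp0.le]
                congr 1
                norm_num
      _ ≤ C0 := by
          rw [hC0]
          exact hsum.sum_le_tsum _ fun _ _ => by (clear * -; positivity)
  have hexp : Real.exp (∑ p ∈ Pb z, f p / p + ∑ p ∈ (Pb z).erase 2, 3 * (f p / p) ^ 2) ≤
      Real.exp (21 + 3 * C0) * Real.log z * Real.exp (3 * (z : ℝ) ^ η) := by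
    have e : Real.exp (21 + 3 * C0) * Real.log z * Real.exp (3 * (z : ℝ) ^ η) =
        Real.exp (Real.log (Real.log z) + 21 + 3 * (z : ℝ) ^ η + 3 * C0) := by
      rw [show Real.log (Real.log z) + 21 + 3 * (z : ℝ) ^ η + 3 * C0 =
        (21 + 3 * C0) + Real.log (Real.log z) + 3 * (z : ℝ) ^ η by ring,
        Real.exp_add ((21 + 3 * C0) + Real.log (Real.log z)) (3 * (z : ℝ) ^ η),
        Real.exp_add (21 + 3 * C0) (Real.log (Real.log z)),
        Real.exp_log (by linarith only [hlogz] : 0 < Real.log (z : ℝ))]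
    rw [e]
    exact Real.exp_le_exp.2 (add_le_add hs1 hs2)
  calc (1 - (6 / 5 : ℝ) / 2)⁻¹ *
        Real.exp (∑ p ∈ Pb z, f p / p + ∑ p ∈ (Pb z).erase 2, 3 * (f p / p) ^ 2)
      ≤ (5 / 2) * (Real.exp (21 + 3 * C0) * Real.log z * Real.exp (3 * (z : ℝ) ^ η)) := by
        refine mul_le_mul (by norm_num) hexp (by positivity) (by norm_num)
    _ = _ := by ring

/-- tail of the sum of reciprocals of smooth numbers -/
lemma tail_bound : ∃ C : ℝ, 1 ≤ C ∧ ∀ z y : ℕ, 3 ≤ z → ∀ η : ℝ, 0 ≤ η → η ≤ 1 / 4 →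
    ∀ M : ℝ, 0 < M →
    ∑ n ∈ (Sm z y).filter (fun n : ℕ => M < n), 1 / (n : ℝ) ≤
      M ^ (-η) * (C * Real.log z * Real.exp (3 * (z : ℝ) ^ η)) := by
  obtain ⟨C, hC, h⟩ := F_bound
  refine ⟨C, hC, fun z y hz η h0 h1 M hM => ?_⟩
  calc ∑ n ∈ (Sm z y).filter (fun n : ℕ => M < n), 1 / (n : ℝ)
      ≤ ∑ n ∈ (Sm z y).filter (fun n : ℕ => M < n), M ^ (-η) * (n : ℝ) ^ (-(1 - η)) := by
        refine Finset.sum_le_sum fun n hn => ?_
        rw [mem_filter] at hn
        have hn0 : (0 : ℝ) < n := hM.trans hn.2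
        have e1 : 1 / (n : ℝ) = (n : ℝ) ^ (-η) * (n : ℝ) ^ (-(1 - η)) := by
          rw [← Real.rpow_add hn0, show -η + -(1 - η) = -1 by ring, Real.rpow_neg_one, one_div]
        rw [e1]
        refine mul_le_mul_of_nonneg_right ?_ (by positivity)
        exact Real.rpow_le_rpow_of_nonpos hM hn.2.le (by linarith only [h0])
    _ = M ^ (-η) * ∑ n ∈ (Sm z y).filter (fun n : ℕ => M < n), (n : ℝ) ^ (-(1 - η)) := by
        rw [Finset.mul_sum]
    _ ≤ M ^ (-η) * ∑ n ∈ Sm z y, (n : ℝ) ^ (-(1 - η)) := by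
        refine mul_le_mul_of_nonneg_left ?_ (by positivity)
        exact Finset.sum_le_sum_of_subset_of_nonneg (Finset.filter_subset _ _)
          fun _ _ _ => by positivity
    _ ≤ _ := mul_le_mul_of_nonneg_left (h z y hz η h0 h1) (by positivity)

open ArithmeticFunction in
/-- The von Mangoldt sum over smooth integers. -/
lemma G_bound (z t : ℕ) (hz : 3 ≤ z) (η : ℝ) (h0 : 0 ≤ η) (h1 : η ≤ 1 / 4) (ht : 1 ≤ t)
    (hlt : Real.log t ≤ Real.sqrt z) :
    ∑ d ∈ Sm z t, vonMangoldt d ≤ 8 * ((t : ℝ) ^ (1 - η) * (z : ℝ) ^ η) := by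
  have hzr : (3 : ℝ) ≤ z := by exact_mod_cast hz
  have hz0 : (0 : ℝ) < z := by linarith only [hzr]
  have htr : (1 : ℝ) ≤ t := by exact_mod_cast ht
  have ht0 : (0 : ℝ) < t := by linarith only [htr]
  have hpsi : ∀ n : ℕ, ∑ d ∈ Ioc 0 n, vonMangoldt d ≤ 6 * n := by
    intro n
    have h2 := Chebyshev.psi_le_const_mul_self (x := (n : ℝ)) (Nat.cast_nonneg n)
    rw [Chebyshev.psi, Nat.floor_natCast] at h2
    have h3 : Real.log 4 ≤ 2 := by
      have e : Real.log 4 = 2 * Real.log 2 := by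
        rw [show (4 : ℝ) = 2 ^ 2 by norm_num, Real.log_pow]
        push_cast
        ring
      rw [e]
      have := Real.log_two_lt_d9
      linarith only [this]
    have h4 : (Real.log 4 + 4) * (n : ℝ) ≤ 6 * n :=
      mul_le_mul_of_nonneg_right (by linarith only [h3]) (Nat.cast_nonneg n)
    exact h2.trans h4
  rcases le_total t z with htz | htz
  · have h2 : ∑ d ∈ Sm z t, vonMangoldt d ≤ 6 * t := by
      refine le_trans ?_ (hpsi t)
      refine Finset.sum_le_sum_of_subset_of_nonneg ?_ fun _ _ _ => vonMangoldt_nonneg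
      intro d hd
      rw [mem_Sm] at hd
      rw [mem_Ioc]
      omega
    have h3 : (t : ℝ) ≤ (t : ℝ) ^ (1 - η) * (z : ℝ) ^ η := by
      calc (t : ℝ) = (t : ℝ) ^ (1 - η) * (t : ℝ) ^ η := by
            rw [← Real.rpow_add ht0, show 1 - η + η = 1 by ring, Real.rpow_one]
        _ ≤ _ := by
            refine mul_le_mul_of_nonneg_left ?_ (by positivity)
            exact Real.rpow_le_rpow ht0.le (by exact_mod_cast htz) h0
    linarith only [h2, h3]
  · -- t ≥ z
    have hsplit : ∑ d ∈ Sm z t, vonMangoldt d ≤ ∑ d ∈ Ioc 0 z, vonMangoldt d +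
        ∑ d ∈ (Ioc 0 t).filter (fun n : ℕ => ¬ n.Prime), vonMangoldt d := by
      rw [← Finset.sum_filter_add_sum_filter_not (Sm z t) (fun d => d ≤ z)]
      refine add_le_add ?_ ?_
      · refine Finset.sum_le_sum_of_subset_of_nonneg ?_ fun _ _ _ => vonMangoldt_nonneg
        intro d hd
        rw [mem_filter, mem_Sm] at hd
        rw [mem_Ioc]
        omega
      · refine Finset.sum_le_sum_of_subset_of_nonneg ?_ fun _ _ _ => vonMangoldt_nonneg
        intro d hd
        rw [mem_filter, mem_Sm] at hd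
        rw [mem_filter, mem_Ioc]
        refine ⟨by omega, fun hp => ?_⟩
        have := hd.1.2 d hp dvd_rfl
        omega
    have h5 : ∑ d ∈ (Ioc 0 t).filter (fun n : ℕ => ¬ n.Prime), vonMangoldt d ≤
        2 * Real.sqrt t * Real.log t := by
      have h6 := Chebyshev.psi_sub_theta_eq_sum_not_prime (t : ℝ)
      have h7 := Chebyshev.psi_sub_theta_le (x := (t : ℝ)) htr
      rw [h6, Nat.floor_natCast] at h7
      exact h7
    have h8 : 2 * Real.sqrt t * Real.log t ≤ 2 * (Real.sqrt t * Real.sqrt z) := by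
      have : 0 ≤ Real.sqrt t := Real.sqrt_nonneg _
      nlinarith only [hlt, this]
    have h9 : (z : ℝ) ≤ Real.sqrt t * Real.sqrt z := by
      have : Real.sqrt z ≤ Real.sqrt t := Real.sqrt_le_sqrt (by exact_mod_cast htz)
      calc (z : ℝ) = Real.sqrt z * Real.sqrt z := (Real.mul_self_sqrt hz0.le).symm
        _ ≤ _ := mul_le_mul_of_nonneg_right this (Real.sqrt_nonneg _)
    have h10 : Real.sqrt t * Real.sqrt z ≤ (t : ℝ) ^ (1 - η) * (z : ℝ) ^ η := by
      have e1 : (t : ℝ) ^ (1 - η) * (z : ℝ) ^ η =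
          (Real.sqrt t * Real.sqrt z) * ((t : ℝ) / z) ^ (1 / 2 - η) := by
        have hdr : ((t : ℝ) / z) ^ (1 / 2 - η) = (t : ℝ) ^ (1 / 2 - η) * (z : ℝ) ^ (-(1 / 2 - η)) := by
          rw [Real.div_rpow ht0.le hz0.le, Real.rpow_neg hz0.le]
          rfl
        rw [Real.sqrt_eq_rpow, Real.sqrt_eq_rpow, hdr]
        calc (t : ℝ) ^ (1 - η) * (z : ℝ) ^ η
            = ((t : ℝ) ^ (1 / 2 : ℝ) * (t : ℝ) ^ (1 / 2 - η)) *
              ((z : ℝ) ^ (1 / 2 : ℝ) * (z : ℝ) ^ (-(1 / 2 - η))) := by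
              rw [← Real.rpow_add ht0, ← Real.rpow_add hz0]
              congr 2 <;> ring
          _ = _ := by ring
      rw [e1]
      have e2 : 1 ≤ ((t : ℝ) / z) ^ (1 / 2 - η) := by
        apply Real.one_le_rpow
        · rw [one_le_div hz0]
          exact_mod_cast htz
        · linarith only [h1]
      exact le_mul_of_one_le_right (by positivity) e2
    have h11 := hpsi z
    calc ∑ d ∈ Sm z t, vonMangoldt d ≤ 6 * z + 2 * (Real.sqrt t * Real.sqrt z) := by linarith only [hsplit, h5, h8, h11]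
      _ ≤ 8 * (Real.sqrt t * Real.sqrt z) := by linarith only [h9]
      _ ≤ _ := mul_le_mul_of_nonneg_left h10 (by norm_num)

open ArithmeticFunction in
/-- The sum of `log n` over smooth `n ≤ y`. -/
lemma sum_log_smooth (z y : ℕ) :
    ∑ n ∈ Sm z y, Real.log n = ∑ m ∈ Sm z y, ∑ d ∈ Sm z (y / m), vonMangoldt d := by
  have h1 : ∀ n ∈ Sm z y, Real.log n = ∑ d ∈ n.divisors, vonMangoldt d := fun n _ =>
    vonMangoldt_sum.symm
  rw [Finset.sum_congr rfl h1, Finset.sum_sigma', Finset.sum_sigma']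
  refine Finset.sum_bij' (fun s _ => (⟨s.1 / s.2, s.2⟩ : Σ _ : ℕ, ℕ))
    (fun s _ => (⟨s.1 * s.2, s.2⟩ : Σ _ : ℕ, ℕ)) ?_ ?_ ?_ ?_ ?_
  · rintro ⟨n, d⟩ h
    rw [mem_sigma, mem_Sm, Nat.mem_divisors] at h
    simp only at h
    obtain ⟨⟨⟨h1, h2⟩, h3⟩, ⟨m, rfl⟩, h5⟩ := h
    have hd : 0 < d := Nat.pos_of_ne_zero fun h0 => h5 (by rw [h0, zero_mul])
    have hm : 0 < m := Nat.pos_of_ne_zero fun h0 => h5 (by rw [h0, mul_zero])
    rw [mem_sigma, mem_Sm, mem_Sm]
    simp only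
    rw [Nat.mul_div_cancel_left m hd]
    refine ⟨⟨⟨hm, ?_⟩, fun p hp hpm => h3 p hp (hpm.mul_left d)⟩, ⟨hd, ?_⟩,
      fun p hp hpd => h3 p hp (hpd.mul_right m)⟩
    · exact (Nat.le_mul_of_pos_left m hd).trans h2
    · rw [Nat.le_div_iff_mul_le hm]
      exact h2
  · rintro ⟨m, d⟩ h
    rw [mem_sigma, mem_Sm, mem_Sm] at h
    simp only at h
    obtain ⟨⟨⟨h1, h2⟩, h3⟩, ⟨h4, h5⟩, h6⟩ := h
    rw [mem_sigma, mem_Sm, Nat.mem_divisors]
    simp only
    refine ⟨⟨⟨Nat.mul_pos h1 h4, ?_⟩, fun p hp hpd => ?_⟩, dvd_mul_left d m, by positivity⟩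
    · rw [Nat.le_div_iff_mul_le (by omega)] at h5
      rw [mul_comm]
      exact h5
    · rcases (Nat.Prime.dvd_mul hp).1 hpd with h | h
      · exact h3 p hp h
      · exact h6 p hp h
  · rintro ⟨n, d⟩ h
    rw [mem_sigma, Nat.mem_divisors] at h
    simp only at h ⊢
    rw [Nat.div_mul_cancel h.2.1]
  · rintro ⟨m, d⟩ h
    rw [mem_sigma, mem_Sm, mem_Sm] at h
    simp only at h ⊢
    rw [Nat.mul_div_cancel m (by omega)]
  · rintro ⟨n, d⟩ h
    rfl

/-- The number of smooth integers. -/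
lemma Psi_bound : ∃ C : ℝ, 1 ≤ C ∧ ∀ z y : ℕ, 3 ≤ z → 2 ≤ y → ∀ η : ℝ, 0 ≤ η → η ≤ 1 / 4 →
    Real.log y ≤ Real.sqrt z →
    ((Sm z y).card : ℝ) ≤ Real.sqrt y + C * y * (Real.log z / Real.log y) *
      (z : ℝ) ^ η * (y : ℝ) ^ (-η) * Real.exp (3 * (z : ℝ) ^ η) := by
  obtain ⟨C, hC, h⟩ := F_bound
  refine ⟨16 * C, by linarith, fun z y hz hy η h0 h1 hyz => ?_⟩
  have hyr : (2 : ℝ) ≤ y := by exact_mod_cast hy
  have hy0 : (0 : ℝ) < y := by linarith only [hyr]
  have hz0 : (0 : ℝ) < z := by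
    have : (3 : ℝ) ≤ z := by exact_mod_cast hz
    linarith only [this]
  have hlogy : 0 < Real.log y := Real.log_pos (by linarith only [hyr])
  -- the logarithmic sum
  have hlog : ∑ n ∈ Sm z y, Real.log n ≤
      8 * ((y : ℝ) ^ (1 - η) * (z : ℝ) ^ η) * (C * Real.log z * Real.exp (3 * (z : ℝ) ^ η)) := by
    rw [sum_log_smooth]
    calc ∑ m ∈ Sm z y, ∑ d ∈ Sm z (y / m), ArithmeticFunction.vonMangoldt d
        ≤ ∑ m ∈ Sm z y, 8 * ((y : ℝ) ^ (1 - η) * (z : ℝ) ^ η) * (m : ℝ) ^ (-(1 - η)) := by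
          refine Finset.sum_le_sum fun m hm => ?_
          rw [mem_Sm] at hm
          have hm0 : (0 : ℝ) < m := by exact_mod_cast (by omega : 0 < m)
          have hdiv : 1 ≤ y / m := Nat.div_pos hm.1.2 (by omega)
          have hle : ((y / m : ℕ) : ℝ) ≤ (y : ℝ) / m := Nat.cast_div_le
          have hle2 : ((y / m : ℕ) : ℝ) ≤ y := by exact_mod_cast Nat.div_le_self y m
          have h2 := G_bound z (y / m) hz η h0 h1 hdiv (le_trans (Real.log_le_log
            (by exact_mod_cast hdiv) hle2) hyz)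
          refine h2.trans ?_
          have h3 : ((y / m : ℕ) : ℝ) ^ (1 - η) ≤ (y : ℝ) ^ (1 - η) * (m : ℝ) ^ (-(1 - η)) := by
            rw [Real.rpow_neg hm0.le, ← div_eq_mul_inv, ← Real.div_rpow hy0.le hm0.le]
            exact Real.rpow_le_rpow (Nat.cast_nonneg _) hle (by linarith only [h1])
          calc 8 * (((y / m : ℕ) : ℝ) ^ (1 - η) * (z : ℝ) ^ η)
              ≤ 8 * (((y : ℝ) ^ (1 - η) * (m : ℝ) ^ (-(1 - η))) * (z : ℝ) ^ η) := by
                refine mul_le_mul_of_nonneg_left ?_ (by norm_num)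
                exact mul_le_mul_of_nonneg_right h3 (by positivity)
            _ = _ := by ring
      _ = 8 * ((y : ℝ) ^ (1 - η) * (z : ℝ) ^ η) * ∑ m ∈ Sm z y, (m : ℝ) ^ (-(1 - η)) := by
          rw [Finset.mul_sum]
      _ ≤ _ := mul_le_mul_of_nonneg_left (h z y hz η h0 h1) (by positivity)
  -- splitting at sqrt y
  have hsplit : ((Sm z y).card : ℝ) ≤ Real.sqrt y +
      ((Sm z y).filter (fun n : ℕ => Real.sqrt y < n)).card := by
    have h2 : (((Sm z y).filter (fun n : ℕ => ¬ Real.sqrt y < n)).card : ℝ) ≤ Real.sqrt y := by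
      have h3 : (Sm z y).filter (fun n : ℕ => ¬ Real.sqrt y < n) ⊆ Icc 1 ⌊Real.sqrt y⌋₊ := by
        intro n hn
        rw [mem_filter, mem_Sm] at hn
        rw [mem_Icc]
        exact ⟨hn.1.1.1, Nat.le_floor (not_lt.1 hn.2)⟩
      have h4 := Finset.card_le_card h3
      rw [Nat.card_Icc, Nat.add_sub_cancel] at h4
      calc (((Sm z y).filter (fun n : ℕ => ¬ Real.sqrt y < n)).card : ℝ)
          ≤ (⌊Real.sqrt y⌋₊ : ℝ) := by exact_mod_cast h4
        _ ≤ _ := Nat.floor_le (Real.sqrt_nonneg _)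
    have h5 := Finset.card_filter_add_card_filter_not (s := Sm z y) (fun n : ℕ => Real.sqrt y < n)
    have h6 : ((Sm z y).card : ℝ) = ((Sm z y).filter (fun n : ℕ => Real.sqrt y < n)).card +
        ((Sm z y).filter (fun n : ℕ => ¬ Real.sqrt y < n)).card := by
      exact_mod_cast h5.symm
    linarith only [h2, h6]
  have hbig : (((Sm z y).filter (fun n : ℕ => Real.sqrt y < n)).card : ℝ) * (Real.log y / 2) ≤
      ∑ n ∈ Sm z y, Real.log n := by
    calc (((Sm z y).filter (fun n : ℕ => Real.sqrt y < n)).card : ℝ) * (Real.log y / 2)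
        = ∑ n ∈ (Sm z y).filter (fun n : ℕ => Real.sqrt y < n), (Real.log y / 2) := by
          rw [Finset.sum_const, nsmul_eq_mul]
      _ ≤ ∑ n ∈ (Sm z y).filter (fun n : ℕ => Real.sqrt y < n), Real.log n := by
          refine Finset.sum_le_sum fun n hn => ?_
          rw [mem_filter] at hn
          rw [← Real.log_sqrt hy0.le]
          exact Real.log_le_log (Real.sqrt_pos.2 hy0) hn.2.le
      _ ≤ _ := Finset.sum_le_sum_of_subset_of_nonneg (Finset.filter_subset _ _)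
          fun n _ _ => Real.log_natCast_nonneg n
  have hbig2 : (((Sm z y).filter (fun n : ℕ => Real.sqrt y < n)).card : ℝ) ≤
      16 * C * y * (Real.log z / Real.log y) *
      (z : ℝ) ^ η * (y : ℝ) ^ (-η) * Real.exp (3 * (z : ℝ) ^ η) := by
    have e1 : (y : ℝ) ^ (1 - η) = y * (y : ℝ) ^ (-η) := by
      rw [show 1 - η = 1 + -η by ring, Real.rpow_add hy0, Real.rpow_one]
    have h2 := hbig.trans hlog
    rw [← le_div_iff₀ (by positivity)] at h2
    refine h2.trans (le_of_eq ?_)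
    rw [e1]
    field_simp
    ring
  linarith only [hsplit, hbig2]

end Vale.Agent.P016
end
end

section

section

/-! The Selberg upper bound sieve on top of Mathlib's `BoundingSieve`. -/

open Finset Nat ArithmeticFunction
open scoped ArithmeticFunction.Moebius

namespace Vale.Agent.P016.BT.Selberg

open BoundingSieve

variable (s : BoundingSieve) (z : ℕ)

/-- the divisors of `prodPrimes` up to `z` -/
def dset : Finset ℕ := s.prodPrimes.divisors.filter (· ≤ z)

/-- The Selberg main term sum. -/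
noncomputable def SS : ℝ := ∑ l ∈ dset s z, s.selbergTerms l

/-- The Selberg weights. -/
noncomputable def wt (d : ℕ) : ℝ :=
  (μ d : ℝ) / s.nu d * (∑ l ∈ dset s z, if d ∣ l then s.selbergTerms l else 0) / SS s z

variable {s z}

lemma mem_dset {d : ℕ} : d ∈ dset s z ↔ d ∣ s.prodPrimes ∧ d ≤ z := by
  simp only [dset, mem_filter, mem_divisors, ne_eq, prodPrimes_ne_zero, not_false_eq_true, and_true]

lemma dset_subset : dset s z ⊆ s.prodPrimes.divisors := Finset.filter_subset _ _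

lemma SS_pos (hz : 1 ≤ z) : 0 < SS s z := by
  unfold SS
  apply Finset.sum_pos
  · intro l hl
    exact selbergTerms_pos (mem_dset.1 hl).1
  · exact ⟨1, mem_dset.2 ⟨one_dvd _, hz⟩⟩

lemma wt_one (hz : 1 ≤ z) : wt s z 1 = 1 := by
  have h := SS_pos (s := s) hz
  have h1 : s.nu 1 = 1 := s.nu_mult.map_one
  unfold wt
  rw [h1]
  simp only [moebius_apply_one, Int.cast_one, one_dvd, if_true, div_one, one_mul]
  exact div_self h.ne'

lemma sum_moebius (m : ℕ) : (∑ d ∈ m.divisors, (μ d : ℤ)) = if m = 1 then 1 else 0 := by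
  rw [← ArithmeticFunction.coe_mul_zeta_apply, moebius_mul_coe_zeta, ArithmeticFunction.one_apply]

/-- `∑_{l ∣ d ∣ k} μ(d) = μ(l) [k = l]`. -/
lemma sum_moebius_between {l k : ℕ} (hk : Squarefree k) :
    (∑ d ∈ k.divisors, if l ∣ d then (μ d : ℤ) else 0) = if k = l then μ l else 0 := by
  by_cases hlk : l ∣ k
  · obtain ⟨m, rfl⟩ := hlk
    have hl0 : l ≠ 0 := by
      rintro rfl; simp at hk
    have hm0 : m ≠ 0 := by
      rintro rfl; simp at hk
    rw [← Finset.sum_filter]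
    have : (l * m).divisors.filter (fun d => l ∣ d) = m.divisors.image (fun e => l * e) := by
      ext d
      simp only [Finset.mem_filter, Nat.mem_divisors, Finset.mem_image]
      constructor
      · rintro ⟨⟨h1, h2⟩, ⟨e, rfl⟩⟩
        exact ⟨e, ⟨Nat.dvd_of_mul_dvd_mul_left (Nat.pos_of_ne_zero hl0) h1, hm0⟩, rfl⟩
      · rintro ⟨e, ⟨h1, _⟩, rfl⟩
        exact ⟨⟨Nat.mul_dvd_mul_left l h1, mul_ne_zero hl0 hm0⟩, dvd_mul_right _ _⟩
    rw [this, Finset.sum_image (fun a _ b _ h => Nat.eq_of_mul_eq_mul_left (Nat.pos_of_ne_zero hl0) h)]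
    have hcop : ∀ e ∈ m.divisors, μ (l * e) = μ l * μ e := by
      intro e he
      apply isMultiplicative_moebius.map_mul_of_coprime
      have : Squarefree (l * m) := hk
      exact (Nat.coprime_of_squarefree_mul this).coprime_dvd_right (Nat.dvd_of_mem_divisors he)
    rw [Finset.sum_congr rfl hcop, ← Finset.mul_sum, sum_moebius]
    by_cases hm : m = 1
    · subst hm; simp only [↓reduceIte, mul_one]
    · simp only [hm, if_false, mul_zero]
      rw [if_neg]
      intro h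
      apply hm
      have : l * m = l * 1 := by simpa only [mul_one] using h
      exact Nat.eq_of_mul_eq_mul_left (Nat.pos_of_ne_zero hl0) this
  · rw [if_neg (fun h => hlk (by rw [h]))]
    apply Finset.sum_eq_zero
    intro d hd
    rw [if_neg]
    intro h
    exact hlk (h.trans (Nat.dvd_of_mem_divisors hd))

/-- The diagonal variables. -/
lemma diag (l : ℕ) (hl : l ∣ s.prodPrimes) :
    (∑ d ∈ s.prodPrimes.divisors, if l ∣ d then s.nu d * wt s z d else 0) =
      (if l ≤ z then (μ l : ℝ) * s.selbergTerms l else 0) / SS s z := by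
  have h1 : ∀ d ∈ s.prodPrimes.divisors, (if l ∣ d then s.nu d * wt s z d else 0) =
      (∑ k ∈ dset s z, if d ∣ k then (if l ∣ d then (μ d : ℝ) else 0) * s.selbergTerms k else 0)
        / SS s z := by
    intro d hd
    have hd' := Nat.dvd_of_mem_divisors hd
    have hnu : s.nu d ≠ 0 := nu_ne_zero hd'
    by_cases hld : l ∣ d
    · simp only [hld, if_true]
      unfold wt
      rw [mul_div_assoc', ← mul_assoc, mul_div_cancel₀ _ hnu, Finset.mul_sum]
      congr 1
      apply Finset.sum_congr rfl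
      intro k _
      rw [mul_ite, mul_zero]
    · simp only [hld, ↓reduceIte, zero_mul, ite_self, sum_const_zero, zero_div]
  rw [Finset.sum_congr rfl h1, ← Finset.sum_div]
  congr 1
  rw [Finset.sum_comm]
  have h2 : ∀ k ∈ dset s z, (∑ d ∈ s.prodPrimes.divisors,
      if d ∣ k then (if l ∣ d then (μ d : ℝ) else 0) * s.selbergTerms k else 0) =
      if k = l then (μ l : ℝ) * s.selbergTerms k else 0 := by
    intro k hk
    have hk' := (mem_dset.1 hk).1
    rw [← Finset.sum_filter, Nat.divisors_filter_dvd_of_dvd prodPrimes_ne_zero hk',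
      ← Finset.sum_mul]
    have := sum_moebius_between (l := l) (squarefree_of_dvd_prodPrimes hk')
    have h3 : (∑ d ∈ k.divisors, if l ∣ d then (μ d : ℝ) else 0) = if k = l then (μ l : ℝ) else 0 := by
      have h4 := congrArg (fun x : ℤ => (x : ℝ)) this
      simp only [Int.cast_sum, Int.cast_ite, Int.cast_zero] at h4
      exact h4
    rw [h3, ite_mul, zero_mul]
  rw [Finset.sum_congr rfl h2]
  by_cases hlz : l ≤ z
  · have : l ∈ dset s z := mem_dset.2 ⟨hl, hlz⟩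
    rw [Finset.sum_ite_eq' (dset s z) l]
    simp only [this, ↓reduceIte, hlz]
  · have : l ∉ dset s z := fun h => hlz (mem_dset.1 h).2
    rw [Finset.sum_ite_eq' (dset s z) l]
    simp [this, hlz]

lemma mainSum_eq (hz : 1 ≤ z) : s.mainSum (lambdaSquared (wt s z)) = 1 / SS s z := by
  have hS := SS_pos (s := s) hz
  rw [mainSum_lambdaSquared_eq_sum_mul_sum_sq]
  have h1 : ∀ l ∈ s.prodPrimes.divisors, (s.selbergTerms l)⁻¹ *
        (∑ d ∈ divisors s.prodPrimes, if l ∣ d then s.nu d * wt s z d else 0) ^ 2 =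
        if l ≤ z then s.selbergTerms l / (SS s z)^2 else 0 := by
    intro l hl
    have hl' := Nat.dvd_of_mem_divisors hl
    rw [diag l hl']
    have hg := selbergTerms_pos hl'
    by_cases hlz : l ≤ z
    · simp only [hlz, if_true]
      have hmu : (μ l : ℝ)^2 = 1 := by
        have := moebius_sq_eq_one_of_squarefree (squarefree_of_dvd_prodPrimes hl')
        exact_mod_cast this
      rw [div_pow, mul_pow, hmu]
      (clear * - hS hg; field_simp)
    · simp only [hlz, ↓reduceIte, zero_div, ne_eq, OfNat.ofNat_ne_zero, not_false_eq_true, zero_pow, mul_zero]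
  rw [Finset.sum_congr rfl h1, ← Finset.sum_filter, ← Finset.sum_div]
  change SS s z / _ = _
  field_simp

lemma abs_wt_le (hz : 1 ≤ z) (d : ℕ) (hd : d ∣ s.prodPrimes) : |wt s z d| ≤ 1 := by
  have hS := SS_pos (s := s) hz
  have hnu := nu_pos_of_dvd_prodPrimes hd
  have hmu : |(μ d : ℝ)| ≤ 1 := by
    have := abs_moebius_le_one (n := d)
    exact_mod_cast this
  have hT0 : 0 ≤ (∑ l ∈ dset s z, if d ∣ l then s.selbergTerms l else 0) := by
    apply Finset.sum_nonneg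
    intro l hl
    split_ifs
    · exact (selbergTerms_pos (mem_dset.1 hl).1).le
    · exact le_rfl
  -- key inequality
  have key : (∑ l ∈ dset s z, if d ∣ l then s.selbergTerms l else 0) / s.nu d ≤ SS s z := by
    -- the sum over multiples
    set M := (dset s z).filter (fun m => Nat.Coprime m d ∧ m * d ∈ dset s z) with hM
    have hg : ∀ m ∈ M, s.selbergTerms (m * d) = s.selbergTerms m * s.selbergTerms d := by
      intro m hm
      exact selbergTerms_isMultiplicative.map_mul_of_coprime (Finset.mem_filter.1 hm).2.1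
    have hd0 : 0 < d := Nat.pos_of_dvd_of_pos hd (Nat.pos_of_ne_zero prodPrimes_ne_zero)
    have h1 : (∑ l ∈ dset s z, if d ∣ l then s.selbergTerms l else 0) =
        s.selbergTerms d * ∑ m ∈ M, s.selbergTerms m := by
      rw [← Finset.sum_filter, Finset.mul_sum]
      have : (dset s z).filter (fun l => d ∣ l) = M.image (fun m => m * d) := by
        ext l
        simp only [Finset.mem_filter, Finset.mem_image, hM]
        constructor
        · rintro ⟨hl, ⟨m, rfl⟩⟩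
          have hsq := squarefree_of_dvd_prodPrimes (mem_dset.1 hl).1
          have hcop := Nat.coprime_of_squarefree_mul hsq
          refine ⟨m, ⟨?_, hcop.symm, by rwa [mul_comm]⟩, by rw [mul_comm]⟩
          have := mem_dset.1 hl
          refine mem_dset.2 ⟨(dvd_mul_left m d).trans this.1, ?_⟩
          exact le_trans (Nat.le_mul_of_pos_left m hd0) this.2
        · rintro ⟨m, ⟨_, _, h3⟩, rfl⟩
          exact ⟨h3, dvd_mul_left _ _⟩
      rw [this, Finset.sum_image (fun a _ b _ h => Nat.eq_of_mul_eq_mul_right hd0 h)]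
      apply Finset.sum_congr rfl
      intro m hm
      rw [hg m hm, mul_comm]
    have h2 : s.selbergTerms d / s.nu d = ∑ k ∈ d.divisors, s.selbergTerms k := by
      rw [div_eq_mul_inv, ← sum_divisors_selbergTerms_eq_selbergTerms_mul_nu_inv hd,
        ← Finset.sum_filter, Nat.divisors_filter_dvd_of_dvd prodPrimes_ne_zero hd]
    rw [h1, mul_div_right_comm, h2, Finset.sum_mul_sum, ← Finset.sum_product']
    -- injection (k, m) ↦ k * m
    have hinj : Set.InjOn (fun x : ℕ × ℕ => x.1 * x.2) (d.divisors ×ˢ M : Finset (ℕ × ℕ)) := by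
      rintro ⟨k, m⟩ h ⟨k', m'⟩ h' heq
      simp only [Finset.coe_product, Set.mem_prod, Finset.mem_coe, Nat.mem_divisors] at h h' heq
      have hc : Nat.Coprime m d := (Finset.mem_filter.1 h.2).2.1
      have hc' : Nat.Coprime m' d := (Finset.mem_filter.1 h'.2).2.1
      have e1 : k = Nat.gcd (k * m) d := by
        rw [Nat.Coprime.gcd_mul_right_cancel k hc]
        exact (Nat.gcd_eq_left h.1.1).symm
      have e2 : k' = Nat.gcd (k' * m') d := by
        rw [Nat.Coprime.gcd_mul_right_cancel k' hc']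
        exact (Nat.gcd_eq_left h'.1.1).symm
      have ek : k = k' := by rw [e1, e2, heq]
      subst ek
      have hk0 : 0 < k := Nat.pos_of_dvd_of_pos h.1.1 hd0
      have := Nat.eq_of_mul_eq_mul_left hk0 heq
      rw [this]
    have hprod : ∀ x ∈ d.divisors ×ˢ M, s.selbergTerms x.1 * s.selbergTerms x.2 =
        s.selbergTerms (x.1 * x.2) := by
      rintro ⟨k, m⟩ h
      simp only [Finset.mem_product, Nat.mem_divisors] at h
      have hc : Nat.Coprime m d := (Finset.mem_filter.1 h.2).2.1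
      exact (selbergTerms_isMultiplicative.map_mul_of_coprime
        (hc.symm.coprime_dvd_left h.1.1)).symm
    rw [Finset.sum_congr rfl hprod, ← Finset.sum_image (g := fun x : ℕ × ℕ => x.1 * x.2)
      (f := fun l => s.selbergTerms l) hinj]
    unfold SS
    apply Finset.sum_le_sum_of_subset_of_nonneg
    · intro l hl
      obtain ⟨⟨k, m⟩, hx, rfl⟩ := Finset.mem_image.1 hl
      simp only [Finset.mem_product, Nat.mem_divisors] at hx
      have hmM := Finset.mem_filter.1 hx.2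
      have hmd := mem_dset.1 hmM.2.2
      have hkd : k * m ∣ m * d := by rw [mul_comm k m]; exact Nat.mul_dvd_mul_left m hx.1.1
      refine mem_dset.2 ⟨hkd.trans hmd.1, le_trans (Nat.le_of_dvd ?_ hkd) hmd.2⟩
      exact Nat.pos_of_dvd_of_pos hmd.1 (Nat.pos_of_ne_zero prodPrimes_ne_zero)
    · intro l hl _
      exact (selbergTerms_pos (mem_dset.1 hl).1).le
  have e : wt s z d = (μ d : ℝ) * (((∑ l ∈ dset s z, if d ∣ l then s.selbergTerms l else 0) / s.nu d)
      / SS s z) := by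
    unfold wt; ring
  rw [e, abs_mul]
  have h5 : |((∑ l ∈ dset s z, if d ∣ l then s.selbergTerms l else 0) / s.nu d) / SS s z| ≤ 1 := by
    rw [abs_of_nonneg (by (clear * - hT0 hnu hS; positivity)), div_le_one hS]
    exact key
  calc _ ≤ 1 * 1 := mul_le_mul hmu h5 (abs_nonneg _) zero_le_one
    _ = 1 := one_mul 1

lemma wt_eq_zero {d : ℕ} (hdz : z < d) : wt s z d = 0 := by
  unfold wt
  have : (∑ l ∈ dset s z, if d ∣ l then s.selbergTerms l else 0) = 0 := by
    apply Finset.sum_eq_zero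
    intro l hl
    rw [if_neg]
    intro h
    have hl' := mem_dset.1 hl
    have hl0 : 0 < l := Nat.pos_of_dvd_of_pos hl'.1 (Nat.pos_of_ne_zero prodPrimes_ne_zero)
    have := Nat.le_of_dvd hl0 h
    omega
  rw [this]; simp only [mul_zero, zero_div]

lemma errSum_le (hz : 1 ≤ z) : s.errSum (lambdaSquared (wt s z)) ≤
    ∑ d1 ∈ dset s z, ∑ d2 ∈ dset s z, |s.rem (Nat.lcm d1 d2)| := by
  unfold errSum
  have h1 : ∀ d ∈ s.prodPrimes.divisors, |lambdaSquared (wt s z) d| * |s.rem d| ≤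
      ∑ d1 ∈ dset s z, ∑ d2 ∈ dset s z, if d = Nat.lcm d1 d2 then |s.rem d| else 0 := by
    intro d hd
    have hd' := Nat.dvd_of_mem_divisors hd
    have hle : |lambdaSquared (wt s z) d| ≤ ∑ d1 ∈ dset s z, ∑ d2 ∈ dset s z,
        if d = Nat.lcm d1 d2 then (1:ℝ) else 0 := by
      unfold lambdaSquared
      calc |∑ d1 ∈ d.divisors, ∑ d2 ∈ d.divisors,
              if d = d1.lcm d2 then wt s z d1 * wt s z d2 else 0|
          ≤ ∑ d1 ∈ d.divisors, ∑ d2 ∈ d.divisors,
              |if d = d1.lcm d2 then wt s z d1 * wt s z d2 else 0| := by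
            refine (Finset.abs_sum_le_sum_abs _ _).trans (Finset.sum_le_sum fun d1 _ => ?_)
            exact Finset.abs_sum_le_sum_abs _ _
        _ ≤ ∑ d1 ∈ d.divisors, ∑ d2 ∈ d.divisors,
              if (d1 ∈ dset s z ∧ d2 ∈ dset s z) then (if d = d1.lcm d2 then (1:ℝ) else 0) else 0 := by
            refine Finset.sum_le_sum fun d1 hd1 => Finset.sum_le_sum fun d2 hd2 => ?_
            have h1' : d1 ∣ s.prodPrimes := (Nat.dvd_of_mem_divisors hd1).trans hd'
            have h2' : d2 ∣ s.prodPrimes := (Nat.dvd_of_mem_divisors hd2).trans hd'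
            by_cases hlcm : d = d1.lcm d2
            · rw [if_pos hlcm]
              by_cases hz1 : d1 ≤ z
              · by_cases hz2 : d2 ≤ z
                · rw [if_pos ⟨mem_dset.2 ⟨h1', hz1⟩, mem_dset.2 ⟨h2', hz2⟩⟩, if_pos hlcm, abs_mul]
                  calc _ ≤ (1:ℝ) * 1 := mul_le_mul (abs_wt_le hz _ h1') (abs_wt_le hz _ h2')
                        (abs_nonneg _) zero_le_one
                    _ = 1 := one_mul 1
                · rw [wt_eq_zero (not_le.1 hz2), mul_zero, abs_zero]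
                  split_ifs <;> norm_num
              · rw [wt_eq_zero (not_le.1 hz1), zero_mul, abs_zero]
                split_ifs <;> norm_num
            · rw [if_neg hlcm, abs_zero]
              split_ifs <;> norm_num
        _ ≤ ∑ d1 ∈ s.prodPrimes.divisors, ∑ d2 ∈ s.prodPrimes.divisors,
              if (d1 ∈ dset s z ∧ d2 ∈ dset s z) then (if d = d1.lcm d2 then (1:ℝ) else 0) else 0 := by
            have hsub : d.divisors ⊆ s.prodPrimes.divisors := Nat.divisors_subset_of_dvd prodPrimes_ne_zero hd'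
            have hnn : ∀ d1 d2 : ℕ, (0:ℝ) ≤ if (d1 ∈ dset s z ∧ d2 ∈ dset s z) then
                (if d = d1.lcm d2 then (1:ℝ) else 0) else 0 := by
              intro d1 d2; split_ifs <;> norm_num
            calc _ ≤ ∑ d1 ∈ d.divisors, ∑ d2 ∈ s.prodPrimes.divisors,
              if (d1 ∈ dset s z ∧ d2 ∈ dset s z) then (if d = d1.lcm d2 then (1:ℝ) else 0) else 0 :=
                  Finset.sum_le_sum fun d1 _ => Finset.sum_le_sum_of_subset_of_nonneg hsub
                    (fun d2 _ _ => hnn d1 d2)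
              _ ≤ _ := Finset.sum_le_sum_of_subset_of_nonneg hsub
                    (fun d1 _ _ => Finset.sum_nonneg fun d2 _ => hnn d1 d2)
        _ = ∑ d1 ∈ dset s z, ∑ d2 ∈ dset s z, if d = Nat.lcm d1 d2 then (1:ℝ) else 0 := by
            have : ∀ d1 ∈ s.prodPrimes.divisors, (∑ d2 ∈ s.prodPrimes.divisors,
              if (d1 ∈ dset s z ∧ d2 ∈ dset s z) then (if d = d1.lcm d2 then (1:ℝ) else 0) else 0)
              = if d1 ∈ dset s z then ∑ d2 ∈ dset s z, (if d = d1.lcm d2 then (1:ℝ) else 0) else 0 := by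
              intro d1 _
              by_cases h : d1 ∈ dset s z
              · simp only [h, true_and, if_true]
                rw [← Finset.sum_filter]
                apply Finset.sum_congr _ (fun _ _ => rfl)
                ext x; simp only [Finset.mem_filter]
                exact ⟨fun hx => hx.2, fun hx => ⟨dset_subset hx, hx⟩⟩
              · simp [h]
            rw [Finset.sum_congr rfl this, ← Finset.sum_filter]
            apply Finset.sum_congr _ (fun _ _ => rfl)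
            ext x; simp only [Finset.mem_filter]
            exact ⟨fun hx => hx.2, fun hx => ⟨dset_subset hx, hx⟩⟩
    calc |lambdaSquared (wt s z) d| * |s.rem d|
        ≤ (∑ d1 ∈ dset s z, ∑ d2 ∈ dset s z, if d = Nat.lcm d1 d2 then (1:ℝ) else 0) * |s.rem d| :=
          mul_le_mul_of_nonneg_right hle (abs_nonneg _)
      _ = _ := by
          rw [Finset.sum_mul]
          apply Finset.sum_congr rfl
          intro d1 _
          rw [Finset.sum_mul]
          apply Finset.sum_congr rfl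
          intro d2 _
          rw [ite_mul, one_mul, zero_mul]
  refine (Finset.sum_le_sum h1).trans (le_of_eq ?_)
  rw [Finset.sum_comm]
  apply Finset.sum_congr rfl
  intro d1 hd1
  rw [Finset.sum_comm]
  apply Finset.sum_congr rfl
  intro d2 hd2
  have : Nat.lcm d1 d2 ∈ s.prodPrimes.divisors := by
    rw [Nat.mem_divisors]
    exact ⟨Nat.lcm_dvd (mem_dset.1 hd1).1 (mem_dset.1 hd2).1, prodPrimes_ne_zero⟩
  rw [Finset.sum_ite_eq' (s.prodPrimes.divisors)]
  simp only [this, ↓reduceIte, rem, multSum]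

/-- **Selberg's upper bound sieve.** -/
theorem selberg_bound (hz : 1 ≤ z) :
    s.siftedSum ≤ s.totalMass / SS s z +
      ∑ d1 ∈ dset s z, ∑ d2 ∈ dset s z, |s.rem (Nat.lcm d1 d2)| := by
  have h := siftedSum_le_mainSum_errSum_of_upperMoebius (s := s) _
    (upperMoebius_lambdaSquared (wt s z) (wt_one hz))
  rw [mainSum_eq hz, mul_one_div] at h
  exact h.trans (by gcongr; exact errSum_le hz)

end Vale.Agent.P016.BT.Selberg
end
end

section

section

/-! Lower bounds for the Selberg main term through completely multiplicative functions. -/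

open Finset Nat ArithmeticFunction
open scoped ArithmeticFunction.Moebius

namespace Vale.Agent.P016.BT.Selberg

open BoundingSieve

/-- The completely multiplicative extension of a function on the primes. -/
noncomputable def cm (ω : ℕ → ℝ) : ℕ →* ℝ where
  toFun n := if n = 0 then 0 else (n.primeFactorsList.map ω).prod
  map_one' := by simp
  map_mul' := by
    intro a b
    by_cases ha : a = 0
    · simp [ha]
    by_cases hb : b = 0
    · simp [hb]
    simp only [ha, hb, mul_eq_zero, or_self, if_false]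
    rw [← List.prod_append, ← List.map_append]
    exact ((Nat.perm_primeFactorsList_mul ha hb).map ω).prod_eq

lemma cm_apply {ω : ℕ → ℝ} {n : ℕ} (hn : n ≠ 0) :
    cm ω n = (n.primeFactorsList.map ω).prod := by
  change (if n = 0 then 0 else _) = _
  rw [if_neg hn]

lemma cm_zero {ω : ℕ → ℝ} : cm ω 0 = 0 := by
  simp only [cm, MonoidHom.coe_mk, OneHom.coe_mk, ↓reduceIte]

lemma cm_prime {ω : ℕ → ℝ} {p : ℕ} (hp : p.Prime) : cm ω p = ω p := by
  rw [cm_apply hp.ne_zero, Nat.primeFactorsList_prime hp]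
  simp

lemma cm_nonneg {ω : ℕ → ℝ} (hω : ∀ p, p.Prime → 0 ≤ ω p) (n : ℕ) : 0 ≤ cm ω n := by
  by_cases hn : n = 0
  · rw [hn, cm_zero]
  rw [cm_apply hn]
  apply List.prod_nonneg
  intro x hx
  obtain ⟨p, hp, rfl⟩ := List.mem_map.1 hx
  exact hω p (Nat.prime_of_mem_primeFactorsList hp)

lemma cm_euler_le {ω : ℕ → ℝ} (h0 : ∀ p, p.Prime → 0 ≤ ω p) (h1 : ∀ p, p.Prime → ω p < 1)
    (S T : Finset ℕ) (hT : ∀ n ∈ T, n ∈ Nat.factoredNumbers S) :
    ∑ n ∈ T, cm ω n ≤ ∏ p ∈ S with p.Prime, (1 - ω p)⁻¹ := by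
  have h := EulerProduct.summable_and_hasSum_factoredNumbers_prod_filter_prime_geometric
    (f := cm ω) (fun {p} hp => by
      rw [cm_prime hp, Real.norm_eq_abs, abs_of_nonneg (h0 p hp)]; exact h1 p hp) S
  have h2 : ∏ p ∈ S with p.Prime, (1 - cm ω p)⁻¹ = ∏ p ∈ S with p.Prime, (1 - ω p)⁻¹ := by
    apply Finset.prod_congr rfl
    intro p hp
    rw [cm_prime (Finset.mem_filter.1 hp).2]
  rw [← h2, ← h.2.tsum_eq]
  let T' : Finset (Nat.factoredNumbers S) := T.subtype (fun n => n ∈ Nat.factoredNumbers S)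
  have h3 : ∑ n ∈ T, cm ω n = ∑ n ∈ T', cm ω n := by
    rw [Finset.sum_subtype_of_mem (fun n => cm ω n) hT]
  rw [h3]
  exact h.2.summable.sum_le_tsum T' (fun n _ => cm_nonneg h0 n)

variable {s : BoundingSieve} {z : ℕ}

/-- product of the prime divisors -/
def rad (n : ℕ) : ℕ := ∏ p ∈ n.primeFactors, p

lemma rad_dvd (n : ℕ) : rad n ∣ n := Nat.prod_primeFactors_dvd n

lemma primeFactors_rad (n : ℕ) : (rad n).primeFactors = n.primeFactors := by
  unfold rad
  exact Nat.primeFactors_prod (fun p hp => Nat.prime_of_mem_primeFactors hp)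

/-- The Selberg main term is at least the sum of the completely multiplicative extension. -/
theorem le_SS : ∑ n ∈ Icc 1 z, cm (fun p => if p ∣ s.prodPrimes then s.nu p else 0) n ≤ SS s z := by
  set ω : ℕ → ℝ := fun p => if p ∣ s.prodPrimes then s.nu p else 0 with hω
  have h0 : ∀ p, p.Prime → 0 ≤ ω p := by
    intro p hp
    simp only [hω]
    split_ifs with h
    · exact (s.nu_pos_of_prime p hp h).le
    · exact le_rfl
  have h1 : ∀ p, p.Prime → ω p < 1 := by
    intro p hp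
    simp only [hω]
    split_ifs with h
    · exact s.nu_lt_one_of_prime p hp h
    · exact zero_lt_one
  -- restrict to numbers all of whose prime factors divide prodPrimes
  set A := (Icc 1 z).filter (fun n => ∀ p ∈ n.primeFactors, p ∣ s.prodPrimes) with hA
  have hsum : ∑ n ∈ Icc 1 z, cm ω n = ∑ n ∈ A, cm ω n := by
    symm
    apply Finset.sum_subset (Finset.filter_subset _ _)
    intro n hn hnA
    have hn0 : n ≠ 0 := by have := (Finset.mem_Icc.1 hn).1; omega
    have : ∃ p ∈ n.primeFactors, ¬ p ∣ s.prodPrimes := by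
      by_contra hcon
      push Not at hcon
      exact hnA (Finset.mem_filter.2 ⟨hn, hcon⟩)
    obtain ⟨p, hp, hpP⟩ := this
    rw [cm_apply hn0]
    apply List.prod_eq_zero
    rw [List.mem_map]
    exact ⟨p, (Nat.mem_primeFactors_iff_mem_primeFactorsList).1 hp, by simp [hω, hpP]⟩
  rw [hsum]
  have hmaps : ∀ n ∈ A, rad n ∈ dset s z := by
    intro n hn
    have hn' := Finset.mem_filter.1 hn
    have hn1 := Finset.mem_Icc.1 hn'.1
    refine mem_dset.2 ⟨?_, (Nat.le_of_dvd (by omega) (rad_dvd n)).trans hn1.2⟩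
    unfold rad
    exact Finset.prod_primes_dvd _ (fun p hp => (Nat.prime_of_mem_primeFactors hp).prime) hn'.2
  rw [← Finset.sum_fiberwise_of_maps_to hmaps]
  unfold SS
  apply Finset.sum_le_sum
  intro l hl
  have hlP := (mem_dset.1 hl).1
  have hlsq := squarefree_of_dvd_prodPrimes hlP
  have hl0 : l ≠ 0 := hlsq.ne_zero
  -- factor out l
  set B := A.filter (fun n => rad n = l) with hB
  have hBl : ∀ n ∈ B, l ∣ n := by
    intro n hn
    have := (Finset.mem_filter.1 hn).2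
    rw [← this]; exact rad_dvd n
  have hfac : ∀ n ∈ B, cm ω n = cm ω l * cm ω (n / l) := by
    intro n hn
    rw [← map_mul, Nat.mul_div_cancel' (hBl n hn)]
  rw [Finset.sum_congr rfl hfac, ← Finset.mul_sum]
  have hinj : Set.InjOn (fun n => n / l) (B : Set ℕ) := by
    intro a ha b hb hab
    have e1 := Nat.mul_div_cancel' (hBl a ha)
    have e2 := Nat.mul_div_cancel' (hBl b hb)
    simp only at hab
    rw [← e1, ← e2, hab]
  rw [← Finset.sum_image (g := fun n => n / l) (f := fun n => cm ω n) hinj]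
  have hT : ∀ n ∈ B.image (fun n => n / l), n ∈ Nat.factoredNumbers l.primeFactors := by
    intro k hk
    obtain ⟨n, hn, rfl⟩ := Finset.mem_image.1 hk
    have hnB := Finset.mem_filter.1 hn
    have hnA := Finset.mem_filter.1 hnB.1
    have hn1 := Finset.mem_Icc.1 hnA.1
    rw [Nat.mem_factoredNumbers_iff_forall_le]
    have hk0 : n / l ≠ 0 := by
      have := Nat.div_pos (Nat.le_of_dvd (by omega) (hBl n hn)) (Nat.pos_of_ne_zero hl0)
      omega
    refine ⟨hk0, fun p hp hpp hpd => ?_⟩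
    rw [← hnB.2, primeFactors_rad, Nat.mem_primeFactors]
    exact ⟨hpp, hpd.trans (Nat.div_dvd_of_dvd (hBl n hn)), by omega⟩
  have h2 := cm_euler_le h0 h1 l.primeFactors _ hT
  have h3 : ∏ p ∈ l.primeFactors with p.Prime, (1 - ω p)⁻¹ =
      ∏ p ∈ l.primeFactors, (1 - s.nu p)⁻¹ := by
    rw [Finset.filter_true_of_mem (fun p hp => Nat.prime_of_mem_primeFactors hp)]
    apply Finset.prod_congr rfl
    intro p hp
    have : p ∣ s.prodPrimes := (Nat.dvd_of_mem_primeFactors hp).trans hlP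
    simp only [hω, this, ↓reduceIte]
  have h4 : cm ω l = s.nu l := by
    rw [cm_apply hl0, ← prod_primeFactors_nu hlP]
    have hnd : l.primeFactorsList.Nodup := (Nat.squarefree_iff_nodup_primeFactorsList hl0).1 hlsq
    have : l.primeFactors = l.primeFactorsList.toFinset := rfl
    rw [this, List.prod_toFinset _ hnd]
    congr 1
    apply List.map_congr_left
    intro p hp
    have : p ∣ s.prodPrimes := (Nat.dvd_of_mem_primeFactorsList hp).trans hlP
    simp [hω, this]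
  rw [selbergTerms_apply, ← h3, h4]
  exact mul_le_mul_of_nonneg_left h2 (nu_pos_of_dvd_prodPrimes hlP).le

end Vale.Agent.P016.BT.Selberg
end
end

section

section

open Finset

namespace Vale.Agent.P016

lemma sum_tau_le (x : ℕ) :
    ∑ n ∈ Icc 1 x, (n.divisors.card : ℝ) ≤ x * (1 + Real.log x) := by
  have h1 : ∑ n ∈ Icc 1 x, n.divisors.card = ∑ d ∈ Icc 1 x, x / d := by
    have h2 : ∀ n ∈ Icc 1 x, n.divisors.card = ∑ d ∈ Icc 1 x, if d ∣ n then 1 else 0 := by
      intro n hn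
      rw [mem_Icc] at hn
      rw [← Finset.card_filter]
      congr 1
      ext d
      simp only [Nat.mem_divisors, mem_filter, mem_Icc]
      constructor
      · rintro ⟨hd, hn0⟩
        exact ⟨⟨Nat.pos_of_dvd_of_pos hd (by omega), (Nat.le_of_dvd (by omega) hd).trans hn.2⟩, hd⟩
      · rintro ⟨_, hd⟩
        exact ⟨hd, by omega⟩
    rw [Finset.sum_congr rfl h2, Finset.sum_comm]
    refine Finset.sum_congr rfl fun d _ => ?_
    rw [← Finset.card_filter]
    have := Nat.Ioc_filter_dvd_card_eq_div x d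
    rw [← this]
    congr 1
  have h3 : ∑ n ∈ Icc 1 x, (n.divisors.card : ℝ) = ((∑ d ∈ Icc 1 x, x / d : ℕ) : ℝ) := by
    rw [← h1]; push_cast; rfl
  rw [h3]
  push_cast
  calc ∑ d ∈ Icc 1 x, ((x / d : ℕ) : ℝ) ≤ ∑ d ∈ Icc 1 x, (x : ℝ) * (d : ℝ)⁻¹ := by
        refine Finset.sum_le_sum fun d _ => ?_
        rw [← div_eq_mul_inv]
        exact Nat.cast_div_le
    _ = x * ((harmonic x : ℚ) : ℝ) := by
        rw [← Finset.mul_sum, harmonic_eq_sum_Icc]
        push_cast
        rfl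
    _ ≤ x * (1 + Real.log x) := by
        refine mul_le_mul_of_nonneg_left (harmonic_le_one_add_log x) (by (clear * -; positivity))

lemma prod_one_sub_inv_ge (S : Finset ℕ) (hS : ∀ q ∈ S, 2 ≤ q) :
    1 / ((#S : ℝ) + 1) ≤ ∏ q ∈ S, (1 - (q : ℝ)⁻¹) := by
  induction S using Finset.induction_on_max with
  | empty => simp only [card_empty, CharP.cast_eq_zero, zero_add, ne_eq, one_ne_zero, not_false_eq_true, div_self, prod_empty, Std.le_refl]
  | insert m S hm ih =>
    have hmS : m ∉ S := fun h => lt_irrefl _ (hm m h)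
    rw [Finset.prod_insert hmS, Finset.card_insert_of_notMem hmS]
    have ih' := ih (fun q hq => hS q (mem_insert_of_mem hq))
    have hcard : #S + 2 ≤ m := by
      have hsub : S ⊆ Ico 2 m := by
        intro q hq
        rw [mem_Ico]
        exact ⟨hS q (mem_insert_of_mem hq), hm q hq⟩
      have := card_le_card hsub
      rw [Nat.card_Ico] at this
      have h2 := hS m (mem_insert_self _ _)
      omega
    have hcard' : (#S : ℝ) + 2 ≤ m := by exact_mod_cast hcard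
    have hc0 : (0 : ℝ) ≤ #S := by (clear * -; positivity)
    have h1 : (m : ℝ)⁻¹ ≤ ((#S : ℝ) + 2)⁻¹ := inv_anti₀ (by (clear * -; positivity)) hcard'
    calc 1 / (((#S + 1 : ℕ) : ℝ) + 1) = (1 - ((#S : ℝ) + 2)⁻¹) * (1 / ((#S : ℝ) + 1)) := by
          push_cast
          field_simp
          ring
      _ ≤ (1 - (m : ℝ)⁻¹) * ∏ q ∈ S, (1 - (q : ℝ)⁻¹) := by
          apply mul_le_mul _ ih' (by (clear * -; positivity))
          · have : (m : ℝ)⁻¹ ≤ 1 := by
              apply inv_le_one_of_one_le₀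
              linarith only [hcard']
            linarith only [this]
          · linarith only [h1]

lemma card_primeFactors_le_log (n : ℕ) (hn : 0 < n) : #n.primeFactors ≤ Nat.log 2 n := by
  apply Nat.le_log_of_pow_le (by norm_num)
  calc 2 ^ #n.primeFactors = ∏ _p ∈ n.primeFactors, 2 := by simp
    _ ≤ ∏ p ∈ n.primeFactors, p :=
        Finset.prod_le_prod' fun p hp => (Nat.prime_of_mem_primeFactors hp).two_le
    _ ≤ n := Nat.le_of_dvd hn (Nat.prod_primeFactors_dvd n)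

lemma totient_div_ge (n : ℕ) (hn : 0 < n) :
    1 / ((Nat.log 2 n : ℝ) + 1) ≤ (Nat.totient n : ℝ) / n := by
  have h1 : (Nat.totient n : ℝ) / n = ∏ p ∈ n.primeFactors, (1 - (p : ℝ)⁻¹) := by
    have h2 := Nat.totient_eq_mul_prod_factors n
    have h3 : ((Nat.totient n : ℚ) : ℝ) = ((n * ∏ p ∈ n.primeFactors, (1 - (p : ℚ)⁻¹) : ℚ) : ℝ) := by
      rw [h2]
    push_cast at h3
    rw [h3]
    have : (n : ℝ) ≠ 0 := by positivity
    field_simp
  rw [h1]
  refine le_trans ?_ (prod_one_sub_inv_ge n.primeFactors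
    (fun q hq => (Nat.prime_of_mem_primeFactors hq).two_le))
  have h4 : (#n.primeFactors : ℝ) ≤ (Nat.log 2 n : ℝ) := by
    exact_mod_cast card_primeFactors_le_log n hn
  have h5 : (0 : ℝ) ≤ #n.primeFactors := by (clear * -; positivity)
  exact one_div_le_one_div_of_le (by positivity) (by linarith only [h4])

lemma pi_ge_half : ∃ x₀ : ℕ, ∀ x : ℕ, x₀ ≤ x →
    (x : ℝ) / (2 * Real.log x) ≤ (Nat.primeCounting x : ℝ) := by
  have h1 : ∀ᶠ y : ℝ in Filter.atTop, ‖Real.log y‖ ≤ 0.1 * ‖y‖ :=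
    (Real.isLittleO_log_id_atTop.bound (by norm_num : (0:ℝ) < 0.1))
  obtain ⟨y₀, hy₀⟩ := Filter.eventually_atTop.mp h1
  refine ⟨⌈y₀⌉₊ + 10, fun x hx => ?_⟩
  have hx1 : (10 : ℝ) ≤ x := by
    have : 10 ≤ x := by omega
    exact_mod_cast this
  have hx2 : y₀ ≤ (x : ℝ) + 1 := by
    have : (⌈y₀⌉₊ : ℝ) ≤ x := by
      have : ⌈y₀⌉₊ ≤ x := by omega
      exact_mod_cast this
    linarith only [this, Nat.le_ceil y₀]
  have h2 := hy₀ _ hx2
  rw [Real.norm_of_nonneg (Real.log_nonneg (by linarith only [hx1])), Real.norm_of_nonneg (by linarith only [])] at h2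
  have h3 := Chebyshev.pi_ge x
  have hlog : 0 < Real.log x := Real.log_pos (by linarith only [hx1])
  refine le_trans ?_ h3
  rw [div_le_div_iff₀ (by positivity) hlog]
  have h4 : (0.69 : ℝ) < Real.log 2 := by
    have := Real.log_two_gt_d9
    linarith only [this]
  have h5 : (x : ℝ) * 0.69 ≤ x * Real.log 2 := by
    apply mul_le_mul_of_nonneg_left h4.le (by positivity)
  nlinarith only [hlog, hx1, h2, h5]

lemma artinMain_ge : ∃ x₀ : ℕ, ∀ x : ℕ, x₀ ≤ x →
    (x : ℝ) / (Real.log x) ^ 3 ≤ artinMain x := by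
  obtain ⟨x₁, hx₁⟩ := pi_ge_half
  have h1 : ∀ᶠ y : ℝ in Filter.atTop, 5 ≤ Real.log y :=
    Real.tendsto_log_atTop.eventually_ge_atTop 5
  obtain ⟨y₀, hy₀⟩ := Filter.eventually_atTop.mp h1
  refine ⟨max x₁ (⌈y₀⌉₊ + 2), fun x hx => ?_⟩
  have hxx1 : x₁ ≤ x := (le_max_left _ _).trans hx
  have hxx2 : ⌈y₀⌉₊ + 2 ≤ x := (le_max_right _ _).trans hx
  have hL : 5 ≤ Real.log x := hy₀ _ ((Nat.le_ceil y₀).trans (by exact_mod_cast (by omega : ⌈y₀⌉₊ ≤ x)))
  have hx0 : (0 : ℝ) < x := by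
    have : 0 < x := by omega
    exact_mod_cast this
  have h2 := hx₁ x hxx1
  -- lower bound of the terms
  have h3 : (Nat.primeCounting x : ℝ) * (1 / ((Nat.log 2 x : ℝ) + 1)) ≤ artinMain x := by
    unfold artinMain
    have hcard : (Nat.primeCounting x : ℝ) = #((range (x + 1)).filter Nat.Prime) := by
      rw [Nat.primeCounting, Nat.primeCounting', Nat.count_eq_card_filter_range]
    rw [hcard, ← nsmul_eq_mul, ← Finset.sum_const]
    refine Finset.sum_le_sum fun p hp => ?_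
    rw [mem_filter, mem_range] at hp
    have hp2 := hp.2.two_le
    refine le_trans ?_ (totient_div_ge (p - 1) (by omega))
    have h4 : (Nat.log 2 (p - 1) : ℝ) ≤ (Nat.log 2 x : ℝ) := by
      exact_mod_cast Nat.log_mono_right (by omega)
    have h5 : (0 : ℝ) ≤ (Nat.log 2 (p - 1) : ℝ) := by (clear * -; positivity)
    exact one_div_le_one_div_of_le (by (clear * -; positivity)) (by linarith only [h4])
  have h6 : (Nat.log 2 x : ℝ) ≤ 1.5 * Real.log x := by
    have h7 : (Nat.log 2 x : ℝ) ≤ Real.logb 2 x := by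
      have := Real.natLog_le_logb x 2
      exact_mod_cast this
    refine h7.trans ?_
    rw [Real.logb, div_le_iff₀ (Real.log_pos (by norm_num))]
    have h8 : (0.69 : ℝ) < Real.log 2 := by
      have := Real.log_two_gt_d9
      linarith only [this]
    nlinarith only [hL, h8]
  refine le_trans ?_ h3
  have h9 : (0 : ℝ) < (Nat.log 2 x : ℝ) + 1 := by (clear * -; positivity)
  calc (x : ℝ) / (Real.log x) ^ 3 ≤ (x : ℝ) / (2 * Real.log x) * (1 / ((Nat.log 2 x : ℝ) + 1)) := by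
        rw [div_mul_div_comm, mul_one]
        apply div_le_div_of_nonneg_left hx0.le (by (clear * - hL; positivity))
        have e1 : 2 * Real.log x * ((Nat.log 2 x : ℝ) + 1) ≤
            2 * Real.log x * (1.5 * Real.log x + 1) :=
          mul_le_mul_of_nonneg_left (by linarith only [h6]) (by linarith only [hL])
        have e2 : 0 ≤ (Real.log x - 5) * (Real.log x * Real.log x) :=
          mul_nonneg (by linarith only [hL]) (by positivity)
        nlinarith only [hL, e1, mul_nonneg (by linarith : (0:ℝ) ≤ Real.log x) (by linarith : (0:ℝ) ≤ Real.log x - 1)]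
    _ ≤ _ := mul_le_mul_of_nonneg_right h2 (by (clear * -; positivity))

end Vale.Agent.P016
end
end

section

section

namespace Vale.Agent.P016

open Finset

lemma Tau_le (x : ℕ) : Tau x ≤ x * (1 + Real.log x) := by
  refine le_trans ?_ (sum_tau_le x)
  rw [Tau]
  have h1 : ∑ p ∈ Px x, ((p - 1).divisors.card : ℝ) =
      ∑ n ∈ (Px x).image (fun p => p - 1), (n.divisors.card : ℝ) := by
    rw [Finset.sum_image]
    intro a ha b hb hab
    have h1 := (mem_Px.1 ha).1.two_le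
    have h2 := (mem_Px.1 hb).1.two_le
    simp only at hab
    omega
  rw [h1]
  refine Finset.sum_le_sum_of_subset_of_nonneg ?_ fun _ _ _ => Nat.cast_nonneg _
  intro n hn
  rw [mem_image] at hn
  obtain ⟨p, hp, rfl⟩ := hn
  have h1 := mem_Px.1 hp
  have h2 := h1.1.two_le
  rw [mem_Icc]
  omega

lemma variance_final (D : ℕ) : ∃ C x₀ : ℕ, ∀ x : ℕ, x₀ ≤ x → ∀ Y : ℕ,
    (Real.log x) ^ C ≤ Y → Y ≤ x ^ 3 → ∀ m : ℕ,
    ∑ q ∈ Px Y, (Gx x (m * q)) ^ 2 ≤ (Px Y).card * ((x : ℝ) ^ 2 / (Real.log x) ^ D) := by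
  obtain ⟨x₁, hx₁⟩ := bad_count (D + 3)
  obtain ⟨x₂, hx₂⟩ := ev_log_ge 100
  obtain ⟨x₃, hx₃⟩ := ev_log_pow (D + 2) 100
  refine ⟨16 * (2 * (D + 3) + 3), max x₁ (max x₂ x₃), fun x hx Y hY1 hY2 m => ?_⟩
  have hbad := hx₁ x ((le_max_left _ _).trans hx) Y hY1 hY2
  have hl := hx₂ x ((le_max_left _ _).trans ((le_max_right _ _).trans hx))
  have hlx := hx₃ x ((le_max_right _ _).trans ((le_max_right _ _).trans hx))
  set l := Real.log x with hldef
  set c : ℝ := ((Px Y).card : ℝ) with hc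
  have hc0 : 0 ≤ c := Nat.cast_nonneg _
  have hl0 : 0 < l := by linarith only [hl]
  have hx0 : (0 : ℝ) ≤ x := Nat.cast_nonneg _
  have hvar := variance_le x m (Px Y) (1 / l ^ (D + 3) * c) (by (clear * - hl; positivity))
  rw [← hldef, ← hc] at hvar
  have hTau : Tau x ^ 2 ≤ (x * (1 + l)) ^ 2 := by
    refine pow_le_pow_left₀ ?_ (Tau_le x) 2
    unfold Tau
    exact Finset.sum_nonneg fun _ _ => Nat.cast_nonneg _
  have h1 : 1 / l ^ (D + 3) * c * Tau x ^ 2 ≤ c * ((x : ℝ) ^ 2 / l ^ D) * (4 / 100) := by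
    have e1 : (x * (1 + l)) ^ 2 ≤ (x : ℝ) ^ 2 * (4 * l ^ 2) := by
      rw [mul_pow]
      refine mul_le_mul_of_nonneg_left ?_ (by (clear * -; positivity))
      nlinarith only [hl]
    have e2 : 1 / l ^ (D + 3) * c * Tau x ^ 2 ≤ 1 / l ^ (D + 3) * c * ((x : ℝ) ^ 2 * (4 * l ^ 2)) :=
      mul_le_mul_of_nonneg_left (hTau.trans e1) (by (clear * - hl; positivity))
    refine e2.trans ?_
    have e3 : 1 / l ^ (D + 3) * c * ((x : ℝ) ^ 2 * (4 * l ^ 2)) =
        c * ((x : ℝ) ^ 2 / l ^ D) * (4 * (1 / l)) := by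
      field_simp
      ring
    rw [e3]
    refine mul_le_mul_of_nonneg_left ?_ (by (clear * - hl; positivity))
    have : 1 / l ≤ 1 / 100 := one_div_le_one_div_of_le (by norm_num) hl
    linarith only [this]
  have hbig : (x : ℝ) * l ^ 2 ≤ ((x : ℝ) ^ 2 / l ^ D) * (1 / 100) := by
    have : ((x : ℝ) ^ 2 / l ^ D) * (1 / 100) = x * (x / (100 * l ^ D)) := by
      (clear * - hl; field_simp)
    rw [this]
    refine mul_le_mul_of_nonneg_left ?_ hx0
    rw [le_div_iff₀ (by positivity)]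
    calc l ^ 2 * (100 * l ^ D) = 100 * l ^ (D + 2) := by ring
      _ ≤ x := hlx
  have h2 : c * ((Bad x (Px Y) (1 / l ^ (D + 3) * c)).card : ℝ) * (1 + l) ^ 2 ≤
      c * (((x : ℝ) ^ 2 / l ^ D) * (8 / 100)) := by
    rw [mul_assoc]
    refine mul_le_mul_of_nonneg_left ?_ hc0
    calc ((Bad x (Px Y) (1 / l ^ (D + 3) * c)).card : ℝ) * (1 + l) ^ 2
        ≤ (2 * x) * (4 * l ^ 2) := by
          refine mul_le_mul hbad ?_ (by positivity) (by (clear * -; positivity))
          nlinarith only [hl]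
      _ = 8 * (x * l ^ 2) := by ring
      _ ≤ 8 * (((x : ℝ) ^ 2 / l ^ D) * (1 / 100)) := by linarith only [hbig]
      _ = _ := by ring
  have h3 : (x : ℝ) * c ≤ c * (((x : ℝ) ^ 2 / l ^ D) * (1 / 100)) := by
    rw [mul_comm]
    refine mul_le_mul_of_nonneg_left ?_ hc0
    refine le_trans ?_ hbig
    have : 1 ≤ l ^ 2 := one_le_pow₀ (by linarith only [hl])
    nlinarith only [this]
  have h4 : 0 ≤ c * ((x : ℝ) ^ 2 / l ^ D) := by (clear * - hl; positivity)
  linarith only [hvar, h1, h2, h3, h4]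

lemma markov_final (D D' : ℕ) : ∃ C x₀ : ℕ, ∀ x : ℕ, x₀ ≤ x → ∀ Y : ℕ,
    (Real.log x) ^ C ≤ Y → Y ≤ x ^ 3 → ∀ m : ℕ,
    (((Px Y).filter (fun q => (x : ℝ) / (Real.log x) ^ D < |Gx x (m * q)|)).card : ℝ) ≤
      (Y : ℝ) / (Real.log x) ^ D' := by
  obtain ⟨C, x₁, hC⟩ := variance_final (2 * D + D')
  obtain ⟨x₂, hx₂⟩ := ev_log_ge 1
  refine ⟨C, max (max x₁ x₂) 1, fun x hx Y hY1 hY2 m => ?_⟩
  have hvar := hC x ((le_max_left _ _).trans ((le_max_left _ _).trans hx)) Y hY1 hY2 m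
  have hl := hx₂ x ((le_max_right _ _).trans ((le_max_left _ _).trans hx))
  have hx1 : 1 ≤ x := (le_max_right _ _).trans hx
  set l := Real.log x with hldef
  have hxr : (0 : ℝ) < x := by exact_mod_cast hx1
  have hl0 : 0 < l := by linarith only [hl]
  set B := (Px Y).filter (fun q => (x : ℝ) / l ^ D < |Gx x (m * q)|) with hB
  have h1 : (B.card : ℝ) * ((x : ℝ) / l ^ D) ^ 2 ≤ ∑ q ∈ Px Y, (Gx x (m * q)) ^ 2 := by
    calc (B.card : ℝ) * ((x : ℝ) / l ^ D) ^ 2 = ∑ q ∈ B, ((x : ℝ) / l ^ D) ^ 2 := by simp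
      _ ≤ ∑ q ∈ B, (Gx x (m * q)) ^ 2 := by
          refine Finset.sum_le_sum fun q hq => ?_
          rw [hB, mem_filter] at hq
          rw [← sq_abs (Gx x (m * q))]
          exact pow_le_pow_left₀ (by positivity) hq.2.le 2
      _ ≤ _ := Finset.sum_le_sum_of_subset_of_nonneg (Finset.filter_subset _ _)
          fun _ _ _ => sq_nonneg _
  have h2 := h1.trans hvar
  have h3 : ((Px Y).card : ℝ) ≤ Y := by
    have : (Px Y).card ≤ Y := by
      have : Px Y ⊆ Icc 1 Y := by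
        intro p hp
        rw [mem_Px] at hp
        rw [mem_Icc]
        exact ⟨hp.1.one_le, hp.2⟩
      simpa only [ge_iff_le, Nat.card_Icc, add_tsub_cancel_right] using Finset.card_le_card this
    exact_mod_cast this
  have h4 : (B.card : ℝ) * ((x : ℝ) / l ^ D) ^ 2 ≤ ((Y : ℝ) / l ^ D') * ((x : ℝ) / l ^ D) ^ 2 := by
    refine h2.trans ?_
    have e : ((Y : ℝ) / l ^ D') * ((x : ℝ) / l ^ D) ^ 2 = Y * ((x : ℝ) ^ 2 / l ^ (2 * D + D')) := by
      rw [div_pow, pow_add, pow_mul, ← pow_mul l D 2, mul_comm D 2, pow_mul]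
      field_simp
    rw [e]
    exact mul_le_mul_of_nonneg_right h3 (by positivity)
  exact le_of_mul_le_mul_right h4 (by positivity)

open Classical in
/-- Exceptional `a ≤ y` with a prime factor exceeding `(log x)^C`. -/
lemma sum_over_m (D D' : ℕ) : ∃ C x₀ : ℕ, ∀ x : ℕ, x₀ ≤ x → ∀ y : ℕ, y ≤ x ^ 3 → ∀ c : ℕ,
    (((Icc 1 y).filter (fun a => (∃ q : ℕ, q.Prime ∧ q ∣ a ∧ (Real.log x) ^ C ≤ q) ∧
      (x : ℝ) / (Real.log x) ^ D < |Gx x (c * a)|)).card : ℝ) ≤ (y : ℝ) / (Real.log x) ^ D' := by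
  obtain ⟨C, x₁, hC⟩ := markov_final D (D' + 2)
  obtain ⟨x₂, hx₂⟩ := ev_log_ge 4
  refine ⟨C, max (max x₁ x₂) 1, fun x hx y hy c => ?_⟩
  have hC := hC x ((le_max_left _ _).trans ((le_max_left _ _).trans hx))
  have hl := hx₂ x ((le_max_right _ _).trans ((le_max_left _ _).trans hx))
  have hx1 : 1 ≤ x := (le_max_right _ _).trans hx
  set l := Real.log x with hldef
  have hxr : (1 : ℝ) ≤ x := by exact_mod_cast hx1
  have hl0 : 0 < l := by linarith only [hl]
  let T : ℕ → Finset ℕ := fun m => if l ^ C ≤ ((y / m : ℕ) : ℝ) then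
    ((Px (y / m)).filter (fun q => (x : ℝ) / l ^ D < |Gx x ((c * m) * q)|)).image (fun q => m * q)
    else ∅
  have hsub : (Icc 1 y).filter (fun a => (∃ q : ℕ, q.Prime ∧ q ∣ a ∧ l ^ C ≤ q) ∧
      (x : ℝ) / l ^ D < |Gx x (c * a)|) ⊆ (Icc 1 y).biUnion T := by
    intro a ha
    rw [mem_filter, mem_Icc] at ha
    obtain ⟨⟨ha1, hay⟩, ⟨q, hqp, ⟨m, rfl⟩, hqC⟩, hG⟩ := ha
    have hm1 : 1 ≤ m := by
      rcases Nat.eq_zero_or_pos m with h | h
      · subst h; omega
      · exact h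
    have hq1 := hqp.one_le
    have hmy : m ≤ y := by nlinarith only [hay, hq1]
    have hqy : q ≤ y / m := (Nat.le_div_iff_mul_le hm1).2 hay
    rw [mem_biUnion]
    refine ⟨m, mem_Icc.2 ⟨hm1, hmy⟩, ?_⟩
    have hcond : l ^ C ≤ ((y / m : ℕ) : ℝ) := hqC.trans (by exact_mod_cast hqy)
    simp only [T, if_pos hcond, mem_image, mem_filter, mem_Px]
    refine ⟨q, ⟨⟨hqp, hqy⟩, ?_⟩, by ring⟩
    have : c * m * q = c * (q * m) := by ring
    rw [this]
    exact hG
  have hT : ∀ m ∈ Icc 1 y, ((T m).card : ℝ) ≤ ((y : ℝ) / l ^ (D' + 2)) * (m : ℝ)⁻¹ := by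
    intro m hm
    rw [mem_Icc] at hm
    have hmr : (0 : ℝ) < m := by exact_mod_cast hm.1
    simp only [T]
    split_ifs with hcond
    · have h1 := hC (y / m) hcond ((Nat.div_le_self y m).trans hy) (c * m)
      have h2 : (((((Px (y / m)).filter (fun q => (x : ℝ) / l ^ D < |Gx x ((c * m) * q)|)).image
          (fun q => m * q)).card : ℕ) : ℝ) ≤
          (((Px (y / m)).filter (fun q => (x : ℝ) / l ^ D < |Gx x ((c * m) * q)|)).card : ℝ) := by
        exact_mod_cast Finset.card_image_le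
      refine h2.trans (h1.trans ?_)
      have h3 : ((y / m : ℕ) : ℝ) ≤ (y : ℝ) / m := Nat.cast_div_le
      calc ((y / m : ℕ) : ℝ) / l ^ (D' + 2) ≤ ((y : ℝ) / m) / l ^ (D' + 2) :=
            div_le_div_of_nonneg_right h3 (by positivity)
        _ = _ := by field_simp
    · simp only [card_empty, CharP.cast_eq_zero, ge_iff_le]
      (clear * - hl hmr; positivity)
  have hsum : ∑ m ∈ Icc 1 y, ((m : ℝ))⁻¹ ≤ l ^ 2 := by
    have h1 := harmonic_le_one_add_log y
    rw [harmonic_eq_sum_Icc] at h1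
    push_cast at h1
    refine h1.trans ?_
    rcases Nat.eq_zero_or_pos y with h | h
    · subst h
      rw [Nat.cast_zero, Real.log_zero, add_zero]
      nlinarith only [hl]
    · have hyr : (0 : ℝ) < y := by exact_mod_cast h
      have h2 : Real.log y ≤ Real.log ((x : ℝ) ^ 3) :=
        Real.log_le_log hyr (by exact_mod_cast hy)
      rw [Real.log_pow] at h2
      push_cast at h2
      nlinarith only [hl, h2]
  calc (((Icc 1 y).filter (fun a => (∃ q : ℕ, q.Prime ∧ q ∣ a ∧ l ^ C ≤ q) ∧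
      (x : ℝ) / l ^ D < |Gx x (c * a)|)).card : ℝ) ≤ (((Icc 1 y).biUnion T).card : ℝ) := by
        exact_mod_cast Finset.card_le_card hsub
    _ ≤ ∑ m ∈ Icc 1 y, ((T m).card : ℝ) := by exact_mod_cast Finset.card_biUnion_le
    _ ≤ ∑ m ∈ Icc 1 y, ((y : ℝ) / l ^ (D' + 2)) * (m : ℝ)⁻¹ := Finset.sum_le_sum hT
    _ = ((y : ℝ) / l ^ (D' + 2)) * ∑ m ∈ Icc 1 y, ((m : ℝ))⁻¹ := by rw [Finset.mul_sum]
    _ ≤ ((y : ℝ) / l ^ (D' + 2)) * l ^ 2 := mul_le_mul_of_nonneg_left hsum (by (clear * - hl; positivity))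
    _ = (y : ℝ) / l ^ D' := by rw [pow_add]; field_simp

end Vale.Agent.P016
end
end

section

section

namespace Vale.Agent.P016

open Finset

lemma artinMain_eq (x : ℕ) : artinMain x = ∑ p ∈ Px x, wt p := rfl

lemma artinMain_nonneg (x : ℕ) : 0 ≤ artinMain x := by
  rw [artinMain_eq]
  exact Finset.sum_nonneg fun p _ => wt_nonneg p

lemma artinCount_eq (b : ℤ) (n x : ℕ) (h : ∀ p ∈ Px x, ((b : ℤ) : ZMod p) = (n : ZMod p)) :
    (artinCount b x : ℝ) = ∑ p ∈ Px x, fp p n := by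
  classical
  unfold artinCount fp
  rw [Finset.sum_ite, Finset.sum_const_zero, add_zero, Finset.sum_const, nsmul_eq_mul, mul_one]
  congr 2
  ext p
  simp only [mem_filter, mem_range, mem_Px]
  constructor
  · rintro ⟨h1, h2, h3, h4⟩
    have hp : p ∈ Px x := mem_Px.2 ⟨h2, by omega⟩
    refine ⟨⟨h2, by omega⟩, ?_, ?_⟩
    · intro h5
      apply h3
      rw [← ZMod.intCast_zmod_eq_zero_iff_dvd, h p hp]
      exact (ZMod.natCast_eq_zero_iff n p).2 h5
    · rw [← h p hp]; exact h4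
  · rintro ⟨⟨h1, h2⟩, h3, h4⟩
    have hp : p ∈ Px x := mem_Px.2 ⟨h1, h2⟩
    refine ⟨by omega, h1, ?_, ?_⟩
    · intro h5
      apply h3
      rw [← ZMod.natCast_eq_zero_iff, ← h p hp]
      exact (ZMod.intCast_zmod_eq_zero_iff_dvd b p).2 h5
    · rw [h p hp]; exact h4

lemma diff_le (b : ℤ) (n x a : ℕ) (ha : a ≠ 0)
    (h : ∀ p ∈ Px x, ((b : ℤ) : ZMod p) = (n : ZMod p))
    (hpa : ∀ p ∈ Px x, p ∣ n → p ∣ a) :
    |(artinCount b x : ℝ) - artinMain x| ≤ |Gx x n| + Nat.log 2 a := by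
  classical
  have h1 : (artinCount b x : ℝ) - artinMain x = Gx x n - ∑ p ∈ Px x, wt p * (1 - up p n) := by
    rw [artinCount_eq b n x h, artinMain_eq, Gx, ← Finset.sum_sub_distrib, ← Finset.sum_sub_distrib]
    refine Finset.sum_congr rfl fun p _ => ?_
    rw [gr]; ring
  have h2 : |∑ p ∈ Px x, wt p * (1 - up p n)| ≤ Nat.log 2 a := by
    have h3 : ∀ p ∈ Px x, |wt p * (1 - up p n)| ≤ if p ∣ a then 1 else 0 := by
      intro p hp
      unfold up
      by_cases hpn : p ∣ n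
      · rw [if_pos hpn, if_pos (hpa p hp hpn), sub_zero, mul_one, abs_of_nonneg (wt_nonneg p)]
        exact wt_le_one p
      · rw [if_neg hpn]
        simp only [sub_self, mul_zero, abs_zero]
        split_ifs <;> norm_num
    refine (Finset.abs_sum_le_sum_abs _ _).trans ((Finset.sum_le_sum h3).trans ?_)
    rw [← Finset.sum_filter, Finset.sum_const, nsmul_eq_mul, mul_one]
    have h4 : (Px x).filter (fun p => p ∣ a) ⊆ a.primeFactors := by
      intro p hp
      rw [mem_filter, mem_Px] at hp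
      rw [Nat.mem_primeFactors]
      exact ⟨hp.1.1, hp.2, ha⟩
    have h5 := (Finset.card_le_card h4).trans (card_primeFactors_le_log a (Nat.pos_of_ne_zero ha))
    exact_mod_cast h5
  rw [h1]
  exact (abs_sub _ _).trans (by linarith only [h2])

/-- product of primes up to `x` -/
def PP (x : ℕ) : ℕ := ∏ p ∈ Px x, p

lemma PP_pos (x : ℕ) : 0 < PP x := Finset.prod_pos fun _ hp => (mem_Px.1 hp).1.pos

lemma neg_cast (x a p : ℕ) (hp : p ∈ Px x) :
    (((-(a : ℤ)) : ℤ) : ZMod p) = (((PP x - 1) * a : ℕ) : ZMod p) := by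
  have h1 : p ∣ PP x := Finset.dvd_prod_of_mem _ hp
  have h2 : ((PP x : ℕ) : ZMod p) = 0 := (ZMod.natCast_eq_zero_iff _ _).2 h1
  rw [Nat.cast_mul, Nat.cast_sub (PP_pos x), h2]
  push_cast
  ring

lemma dvd_of_dvd_neg (x a p : ℕ) (hp : p ∈ Px x) (h : p ∣ (PP x - 1) * a) : p ∣ a := by
  have h1 : p ∣ PP x := Finset.dvd_prod_of_mem _ hp
  have hpp := (mem_Px.1 hp).1
  rcases (Nat.Prime.dvd_mul hpp).1 h with h2 | h2
  · exfalso
    have h3 : p ∣ 1 := by
      have := (Nat.dvd_sub_iff_right (PP_pos x) h1).1 h2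
      exact this
    exact hpp.one_lt.ne' (Nat.dvd_one.1 h3)
  · exact h2

lemma natLog_le {n x : ℕ} (hn : 1 ≤ n) (hnx : n ≤ x ^ 3) :
    (Nat.log 2 n : ℝ) ≤ 5 * Real.log x := by
  have h1 : 2 ^ Nat.log 2 n ≤ n := Nat.pow_log_le_self 2 (by omega)
  have hnr : (0 : ℝ) < n := by exact_mod_cast hn
  have h2 : Real.log ((2 : ℝ) ^ Nat.log 2 n) ≤ Real.log ((x : ℝ) ^ 3) := by
    refine Real.log_le_log (by positivity) ?_
    exact_mod_cast h1.trans hnx
  rw [Real.log_pow, Real.log_pow] at h2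
  push_cast at h2
  have h3 := Real.log_two_gt_d9
  have h4 : (0 : ℝ) ≤ Nat.log 2 n := Nat.cast_nonneg _
  nlinarith only [h2, h3]

open Classical in
/-- Quantitative form. -/
theorem main_quant (D : ℕ) : ∃ C x₀ : ℕ, ∀ x : ℕ, x₀ ≤ x → ∀ y : ℕ, y ≤ x ^ 3 →
    (((Finset.Icc (-(y : ℤ)) (y : ℤ)).filter (fun a : ℤ => a ≠ 0 ∧
      (∃ q : ℕ, q.Prime ∧ (q : ℤ) ∣ a ∧ (Real.log x) ^ C ≤ q) ∧
      artinMain x / (Real.log x) ^ D < |(artinCount a x : ℝ) - artinMain x|)).card : ℝ) ≤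
      (y : ℝ) / (Real.log x) ^ D := by
  obtain ⟨C, x₁, hC⟩ := sum_over_m (D + 4) (D + 1)
  obtain ⟨x₂, hx₂⟩ := ev_log_ge 20
  obtain ⟨x₃, hx₃⟩ := ev_log_pow (D + 4) 10
  obtain ⟨x₄, hx₄⟩ := artinMain_ge
  refine ⟨C, max (max x₁ x₂) (max x₃ x₄), fun x hx y hy => ?_⟩
  have hC := hC x ((le_max_left _ _).trans ((le_max_left _ _).trans hx)) y hy
  have hl := hx₂ x ((le_max_right _ _).trans ((le_max_left _ _).trans hx))
  have hlx := hx₃ x ((le_max_left _ _).trans ((le_max_right _ _).trans hx))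
  have hM := hx₄ x ((le_max_right _ _).trans ((le_max_right _ _).trans hx))
  set l := Real.log x with hldef
  have hl0 : 0 < l := by linarith only [hl]
  have key : ∀ b : ℤ, ∀ n c : ℕ, 1 ≤ n → n ≤ y →
      (∀ p ∈ Px x, ((b : ℤ) : ZMod p) = ((c * n : ℕ) : ZMod p)) →
      (∀ p ∈ Px x, p ∣ c * n → p ∣ n) →
      artinMain x / l ^ D < |(artinCount b x : ℝ) - artinMain x| →
      (x : ℝ) / l ^ (D + 4) < |Gx x (c * n)| := by
    intro b n c hn1 hny h1 h2 h3
    have h4 := diff_le b (c * n) x n (by omega) h1 h2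
    have h5 := natLog_le hn1 (hny.trans hy)
    rw [← hldef] at h5
    have h6 : (x : ℝ) / l ^ (D + 3) ≤ artinMain x / l ^ D := by
      have : (x : ℝ) / l ^ (D + 3) = (x / l ^ 3) / l ^ D := by
        rw [pow_add]; (clear * - hl; field_simp)
      rw [this]
      exact div_le_div_of_nonneg_right hM (by positivity)
    have h7 : (x : ℝ) / l ^ (D + 4) + 5 * l ≤ (x : ℝ) / l ^ (D + 3) := by
      have e1 : (x : ℝ) / l ^ (D + 3) = (x / l ^ (D + 4)) * l := by
        rw [pow_succ l (D + 3)]; (clear * - hl; field_simp)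
      have e2 : 10 ≤ (x : ℝ) / l ^ (D + 4) := by
        rw [le_div_iff₀ (by positivity)]; exact hlx
      rw [e1]
      nlinarith only [hl, e2]
    linarith only [h3, h4, h5, h6, h7]
  set S1 := (Icc 1 y).filter (fun a => (∃ q : ℕ, q.Prime ∧ q ∣ a ∧ l ^ C ≤ q) ∧
      (x : ℝ) / l ^ (D + 4) < |Gx x (1 * a)|) with hS1
  set S2 := (Icc 1 y).filter (fun a => (∃ q : ℕ, q.Prime ∧ q ∣ a ∧ l ^ C ≤ q) ∧
      (x : ℝ) / l ^ (D + 4) < |Gx x ((PP x - 1) * a)|) with hS2
  have hsub : (Finset.Icc (-(y : ℤ)) (y : ℤ)).filter (fun a : ℤ => a ≠ 0 ∧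
      (∃ q : ℕ, q.Prime ∧ (q : ℤ) ∣ a ∧ l ^ C ≤ q) ∧
      artinMain x / l ^ D < |(artinCount a x : ℝ) - artinMain x|) ⊆
      S1.image (fun n : ℕ => (n : ℤ)) ∪ S2.image (fun n : ℕ => -(n : ℤ)) := by
    intro a ha
    rw [mem_filter, mem_Icc] at ha
    obtain ⟨⟨ha1, ha2⟩, ha0, ⟨q, hq, hqa, hqC⟩, hbad⟩ := ha
    have hqn : q ∣ a.natAbs := Int.natCast_dvd.1 hqa
    rcases Int.natAbs_eq a with h | h
    · rw [mem_union]; left
      rw [mem_image]
      refine ⟨a.natAbs, ?_, h.symm⟩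
      rw [hS1, mem_filter, mem_Icc]
      refine ⟨⟨by omega, by omega⟩, ⟨q, hq, hqn, hqC⟩, ?_⟩
      refine key a a.natAbs 1 (by omega) (by omega) (fun p _ => ?_) (fun p _ hp => by simpa only [one_mul] using hp) hbad
      rw [one_mul]
      conv_lhs => rw [h]
      simp
    · rw [mem_union]; right
      rw [mem_image]
      refine ⟨a.natAbs, ?_, h.symm⟩
      rw [hS2, mem_filter, mem_Icc]
      refine ⟨⟨by omega, by omega⟩, ⟨q, hq, hqn, hqC⟩, ?_⟩
      refine key a a.natAbs (PP x - 1) (by omega) (by omega) (fun p hp => ?_)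
        (fun p hp hd => dvd_of_dvd_neg x _ p hp hd) hbad
      rw [← neg_cast x a.natAbs p hp]
      conv_lhs => rw [h]
  have h1 := hC 1
  have h2 := hC (PP x - 1)
  have h3 : (((Finset.Icc (-(y : ℤ)) (y : ℤ)).filter (fun a : ℤ => a ≠ 0 ∧
      (∃ q : ℕ, q.Prime ∧ (q : ℤ) ∣ a ∧ l ^ C ≤ q) ∧
      artinMain x / l ^ D < |(artinCount a x : ℝ) - artinMain x|)).card : ℝ) ≤
      (S1.card : ℝ) + S2.card := by
    have h4 := (Finset.card_le_card hsub).trans (Finset.card_union_le _ _)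
    have h5 : (S1.image (fun n : ℕ => (n : ℤ))).card ≤ S1.card := Finset.card_image_le
    have h6 : (S2.image (fun n : ℕ => -(n : ℤ))).card ≤ S2.card := Finset.card_image_le
    exact_mod_cast h4.trans (add_le_add h5 h6)
  refine h3.trans ?_
  have h7 : (y : ℝ) / l ^ (D + 1) + (y : ℝ) / l ^ (D + 1) ≤ (y : ℝ) / l ^ D := by
    have e1 : (y : ℝ) / l ^ D = (y / l ^ (D + 1)) * l := by
      rw [pow_succ l D]; (clear * - hl; field_simp)
    have e2 : 0 ≤ (y : ℝ) / l ^ (D + 1) := by (clear * - hl; positivity)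
    rw [e1]
    nlinarith only [h1, hl]
  linarith only [h1, h2, h7]

end Vale.Agent.P016
end
end

section

section

namespace Vale.Agent.P016

open Finset

lemma sum_psi_le {x : ℕ} {i : ℕ × ℕ × ℕ × ℕ} (hi : IsIdx x i) (N : ℕ) :
    ‖∑ n ∈ Icc 1 N, psi i n‖ ≤ (x : ℝ) ^ 2 := by
  obtain ⟨hp, hp', hlt, hle, ht1, ht2, ht1', ht2'⟩ := hi
  have hi : IsIdx x i := ⟨hp, hp', hlt, hle, ht1, ht2, ht1', ht2'⟩
  obtain ⟨g, hgr, hgo⟩ := exists_prime_root i.1 hp
  have hco : Nat.Coprime i.1 i.2.2.1 := (Nat.coprime_primes hp hp').2 (by omega)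
  obtain ⟨n₀, hn1, hn2⟩ := Nat.chineseRemainder hco g 1
  have hn₀r : ¬ i.1 ∣ n₀ := by
    intro h
    apply hgr
    exact (hn1.dvd_iff (dvd_refl _)).1 h
  have hn₀s : ¬ i.2.2.1 ∣ n₀ := by
    intro h
    have := (hn2.dvd_iff (dvd_refl _)).1 h
    exact hp'.one_lt.ne' (Nat.dvd_one.1 this)
  have hord : orderOf (ech i.1 n₀) = i.1 - 1 := by
    rw [ech_orderOf hp hn₀r]
    have : (n₀ : ZMod i.1) = (g : ZMod i.1) := (ZMod.natCast_eq_natCast_iff n₀ g _).2 hn1
    rw [this, hgo]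
  have hone : ech i.2.2.1 n₀ = 1 := by
    rw [ech_congr hp' hn2, ech_one hp']
  have hne : psi i n₀ ≠ 1 := by
    unfold psi
    rw [hone, one_pow, mul_one]
    intro h
    have h1 := orderOf_dvd_of_pow_eq_one h
    rw [hord] at h1
    have := Nat.le_of_dvd (by omega) h1
    omega
  have hcoL : Nat.Coprime n₀ (i.1 * i.2.2.1) := by
    refine Nat.Coprime.mul_right ?_ ?_
    · exact ((Nat.Prime.coprime_iff_not_dvd hp).2 hn₀r).symm
    · exact ((Nat.Prime.coprime_iff_not_dvd hp').2 hn₀s).symm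
  have h := periodic_sum (psi i) (i.1 * i.2.2.1) (Nat.mul_pos hp.pos hp'.pos)
    (fun m n => psi_mul hi m n)
    (fun m n hmn => by
      simp only [psi, ech_congr hp (hmn.of_mul_right _), ech_congr hp' (hmn.of_mul_left _)])
    (fun n => psi_norm_le hi n) n₀ hcoL hne N
  refine h.trans ?_
  have h2 : i.1 * i.2.2.1 ≤ x ^ 2 := by
    rw [sq]
    exact Nat.mul_le_mul (by omega) hle
  exact_mod_cast h2

/-- Direct variance bound for full intervals. -/
lemma variance_small (x m A : ℕ) :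
    ∑ a ∈ Icc 1 A, (Gx x (m * a)) ^ 2 ≤
      (x : ℝ) * A + 2 * ((x : ℝ) ^ 4 * (1 + Real.log x) ^ 2) := by
  have h1 := variance_le x m (Icc 1 A) ((x : ℝ) ^ 2) (by positivity)
  have h2 : Bad x (Icc 1 A) ((x : ℝ) ^ 2) = ∅ := by
    rw [Finset.eq_empty_iff_forall_notMem]
    intro i hi
    rw [Bad, mem_filter, mem_Idx] at hi
    exact absurd (sum_psi_le hi.1 A) (not_le.2 hi.2)
  rw [h2] at h1
  simp only [Nat.card_Icc, add_tsub_cancel_right, card_empty, Nat.cast_zero, mul_zero,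
    zero_mul, add_zero] at h1
  refine h1.trans ?_
  have h3 : Tau x ^ 2 ≤ ((x : ℝ) * (1 + Real.log x)) ^ 2 := by
    refine pow_le_pow_left₀ ?_ (Tau_le x) 2
    unfold Tau
    (clear * -; positivity)
  have h4 : (x : ℝ) ^ 2 * Tau x ^ 2 ≤ (x : ℝ) ^ 4 * (1 + Real.log x) ^ 2 := by
    calc (x : ℝ) ^ 2 * Tau x ^ 2 ≤ (x : ℝ) ^ 2 * ((x : ℝ) * (1 + Real.log x)) ^ 2 :=
          mul_le_mul_of_nonneg_left h3 (by positivity)
      _ = _ := by ring
  linarith only [h4]

/-- For `A ≥ x^3` the variance is as small as expected (up to logarithms). -/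
lemma variance_large_A (x m A : ℕ) (hA : x ^ 3 ≤ A) :
    ∑ a ∈ Icc 1 A, (Gx x (m * a)) ^ 2 ≤
      3 * (1 + Real.log x) ^ 2 * x * A := by
  refine (variance_small x m A).trans ?_
  have hAr : (x : ℝ) ^ 3 ≤ A := by exact_mod_cast hA
  have hl : 0 ≤ Real.log x := Real.log_natCast_nonneg x
  have h1 : (1 : ℝ) ≤ (1 + Real.log x) ^ 2 := one_le_pow₀ (by linarith only [hl])
  have hx : (0 : ℝ) ≤ x := Nat.cast_nonneg x
  have hA0 : (0 : ℝ) ≤ A := Nat.cast_nonneg A
  have h2 : (x : ℝ) ^ 4 * (1 + Real.log x) ^ 2 ≤ (1 + Real.log x) ^ 2 * x * A := by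
    calc (x : ℝ) ^ 4 * (1 + Real.log x) ^ 2 = (1 + Real.log x) ^ 2 * x * x ^ 3 := by ring
      _ ≤ _ := mul_le_mul_of_nonneg_left hAr (by positivity)
  have h3 : (x : ℝ) * A ≤ (1 + Real.log x) ^ 2 * x * A := by
    calc (x : ℝ) * A = 1 * (x * A) := by ring
      _ ≤ (1 + Real.log x) ^ 2 * (x * A) := mul_le_mul_of_nonneg_right h1 (by (clear * -; positivity))
      _ = _ := by ring
  linarith only [h2, h3]

end Vale.Agent.P016
end
end

section

section

namespace Vale.Agent.P016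

open Finset

lemma artinCount_mono (a : ℤ) : Monotone (fun x : ℕ => (artinCount a x : ℝ)) := by
  classical
  intro u v huv
  simp only [artinCount, Nat.cast_le]
  refine Finset.card_le_card ?_
  intro p hp
  rw [mem_filter, mem_range] at hp ⊢
  exact ⟨by omega, hp.2⟩

lemma artinMain_term_le (p : ℕ) : (Nat.totient (p - 1) : ℝ) / ((p - 1 : ℕ) : ℝ) ≤ 1 := by
  refine div_le_one_of_le₀ ?_ (by positivity)
  exact_mod_cast Nat.totient_le _

lemma artinMain_mono : Monotone artinMain := by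
  intro u v huv
  unfold artinMain
  refine Finset.sum_le_sum_of_subset_of_nonneg ?_ fun _ _ _ => by (clear * -; positivity)
  intro p hp
  rw [mem_filter, mem_range] at hp ⊢
  exact ⟨by omega, hp.2⟩

lemma artinMain_sub_le (u v : ℕ) (huv : u ≤ v) :
    artinMain v - artinMain u ≤ (v : ℝ) - u := by
  unfold artinMain
  have h1 : (Finset.range (u + 1)).filter Nat.Prime ⊆ (Finset.range (v + 1)).filter Nat.Prime := by
    intro p hp
    rw [mem_filter, mem_range] at hp ⊢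
    exact ⟨by omega, hp.2⟩
  rw [← Finset.sum_sdiff h1, add_sub_cancel_right]
  calc ∑ p ∈ (Finset.range (v + 1)).filter Nat.Prime \ (Finset.range (u + 1)).filter Nat.Prime,
        (Nat.totient (p - 1) : ℝ) / ((p - 1 : ℕ) : ℝ)
      ≤ ∑ p ∈ (Finset.range (v + 1)).filter Nat.Prime \ (Finset.range (u + 1)).filter Nat.Prime,
        (1 : ℝ) := Finset.sum_le_sum fun p _ => artinMain_term_le p
    _ = (((Finset.range (v + 1)).filter Nat.Prime \
          (Finset.range (u + 1)).filter Nat.Prime).card : ℝ) := by simp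
    _ ≤ ((Ioc u v).card : ℝ) := by
        have : (Finset.range (v + 1)).filter Nat.Prime \ (Finset.range (u + 1)).filter Nat.Prime ⊆
            Ioc u v := by
          intro p hp
          rw [mem_sdiff, mem_filter, mem_filter, mem_range, mem_range] at hp
          rw [mem_Ioc]
          constructor
          · by_contra hc
            exact hp.2 ⟨by omega, hp.1.2⟩
          · omega
        exact_mod_cast Finset.card_le_card this
    _ = (v : ℝ) - u := by
        rw [Nat.card_Ioc, Nat.cast_sub huv]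

open Classical in
/-- Uniformity in `x` for `N_a(x)`. -/
theorem artin_grid (D : ℕ) :
    ∃ x₀ : ℕ, ∀ (S : Finset ℤ) (T : ℝ) (X₀ X : ℕ), 0 ≤ T → x₀ ≤ X₀ →
      (∀ x : ℕ, X₀ ≤ 2 * x → x ≤ 2 * X →
        ((S.filter (fun a => artinMain x / (Real.log x) ^ (2 * D + 7) <
          |(artinCount a x : ℝ) - artinMain x|)).card : ℝ) ≤ T / (Real.log x) ^ (2 * D + 7)) →
      ((S.filter (fun a => ∃ x : ℕ, X₀ ≤ x ∧ x ≤ X ∧
        artinMain x / (Real.log x) ^ D < |(artinCount a x : ℝ) - artinMain x|)).card : ℝ) ≤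
          T / (Real.log X₀) ^ D := by
  obtain ⟨x₀, h⟩ := grid_union D artinMain artinMain_mono artinMain_sub_le artinMain_ge
  exact ⟨x₀, fun S T X₀ X hT hX₀ hexc =>
    h S (fun a x => (artinCount a x : ℝ)) artinCount_mono T X₀ X hT hX₀ hexc⟩

end Vale.Agent.P016
end
end

section

section

namespace Vale.Agent.P016

open Finset

/-- number of primes `p ≤ x` dividing `a` -/
def om (x a : ℕ) : ℕ := ((Px x).filter (fun p => p ∣ a)).card

lemma diff_le' (b : ℤ) (n x a : ℕ)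
    (h : ∀ p ∈ Px x, ((b : ℤ) : ZMod p) = (n : ZMod p))
    (hpa : ∀ p ∈ Px x, p ∣ n → p ∣ a) :
    |(artinCount b x : ℝ) - artinMain x| ≤ |Gx x n| + om x a := by
  classical
  have h1 : (artinCount b x : ℝ) - artinMain x = Gx x n - ∑ p ∈ Px x, wt p * (1 - up p n) := by
    rw [artinCount_eq b n x h, artinMain_eq, Gx, ← Finset.sum_sub_distrib, ← Finset.sum_sub_distrib]
    refine Finset.sum_congr rfl fun p _ => ?_
    rw [gr]; ring
  have h2 : |∑ p ∈ Px x, wt p * (1 - up p n)| ≤ om x a := by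
    have h3 : ∀ p ∈ Px x, |wt p * (1 - up p n)| ≤ if p ∣ a then 1 else 0 := by
      intro p hp
      unfold up
      by_cases hpn : p ∣ n
      · rw [if_pos hpn, if_pos (hpa p hp hpn), sub_zero, mul_one, abs_of_nonneg (wt_nonneg p)]
        exact wt_le_one p
      · rw [if_neg hpn]
        simp only [sub_self, mul_zero, abs_zero]
        split_ifs <;> norm_num
    refine (Finset.abs_sum_le_sum_abs _ _).trans ((Finset.sum_le_sum h3).trans ?_)
    rw [← Finset.sum_filter, Finset.sum_const, nsmul_eq_mul, mul_one]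
    exact le_of_eq rfl
  rw [h1]
  exact (abs_sub _ _).trans (by linarith only [h2])

lemma sum_om_le (x y : ℕ) : ∑ a ∈ Icc 1 y, (om x a : ℝ) ≤ y * (1 + Real.log x) := by
  have h1 : ∀ a, (om x a : ℝ) = ∑ p ∈ Px x, if p ∣ a then (1 : ℝ) else 0 := by
    intro a
    rw [om, ← Finset.sum_filter, Finset.sum_const, nsmul_eq_mul, mul_one]
  simp only [h1]
  rw [Finset.sum_comm]
  have h2 : ∀ p ∈ Px x, ∑ a ∈ Icc 1 y, (if p ∣ a then (1 : ℝ) else 0) ≤ y * (p : ℝ)⁻¹ := by
    intro p hp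
    rw [← Finset.sum_filter, Finset.sum_const, nsmul_eq_mul, mul_one]
    have h3 : ((Icc 1 y).filter (fun a => p ∣ a)).card = y / p := by
      have := Nat.Ioc_filter_dvd_card_eq_div y p
      rw [← this]
      rfl
    rw [h3, ← div_eq_mul_inv]
    exact Nat.cast_div_le
  refine (Finset.sum_le_sum h2).trans ?_
  rw [← Finset.mul_sum]
  refine mul_le_mul_of_nonneg_left ?_ (Nat.cast_nonneg _)
  have h4 := harmonic_le_one_add_log x
  rw [harmonic_eq_sum_Icc] at h4
  push_cast at h4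
  refine le_trans ?_ h4
  refine Finset.sum_le_sum_of_subset_of_nonneg ?_ fun _ _ _ => by (clear * -; positivity)
  intro p hp
  rw [mem_Px] at hp
  rw [mem_Icc]
  exact ⟨hp.1.one_le, hp.2⟩

/-- `y ≥ x^3`: few `a ≤ y` with many prime divisors up to `x`. -/
lemma om_large (D D' : ℕ) : ∃ x₀ : ℕ, ∀ x : ℕ, x₀ ≤ x → ∀ y : ℕ,
    (((Icc 1 y).filter (fun a => (x : ℝ) / (Real.log x) ^ D < om x a)).card : ℝ) ≤
      (y : ℝ) / (Real.log x) ^ D' := by
  obtain ⟨x₁, hx₁⟩ := ev_log_pow (D + D' + 1) 2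
  obtain ⟨x₂, hx₂⟩ := ev_log_ge 1
  refine ⟨max (max x₁ x₂) 1, fun x hx y => ?_⟩
  have h1 := hx₁ x ((le_max_left _ _).trans ((le_max_left _ _).trans hx))
  have hl := hx₂ x ((le_max_right _ _).trans ((le_max_left _ _).trans hx))
  have hx1 : 1 ≤ x := (le_max_right _ _).trans hx
  set l := Real.log x with hldef
  have hxr : (0 : ℝ) < x := by exact_mod_cast hx1
  have hl0 : 0 < l := by linarith only [hl]
  set B := (Icc 1 y).filter (fun a => (x : ℝ) / l ^ D < om x a) with hB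
  have h2 : (B.card : ℝ) * ((x : ℝ) / l ^ D) ≤ y * (1 + l) := by
    calc (B.card : ℝ) * ((x : ℝ) / l ^ D) = ∑ a ∈ B, ((x : ℝ) / l ^ D) := by simp
      _ ≤ ∑ a ∈ B, (om x a : ℝ) := by
          refine Finset.sum_le_sum fun a ha => ?_
          rw [hB, mem_filter] at ha
          exact ha.2.le
      _ ≤ ∑ a ∈ Icc 1 y, (om x a : ℝ) :=
          Finset.sum_le_sum_of_subset_of_nonneg (Finset.filter_subset _ _)
            fun _ _ _ => Nat.cast_nonneg _
      _ ≤ _ := sum_om_le x y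
  have h3 : (y : ℝ) * (1 + l) ≤ ((y : ℝ) / l ^ D') * ((x : ℝ) / l ^ D) := by
    have e : ((y : ℝ) / l ^ D') * ((x : ℝ) / l ^ D) = y * (x / l ^ (D + D')) := by
      rw [pow_add]; field_simp
    rw [e]
    refine mul_le_mul_of_nonneg_left ?_ (Nat.cast_nonneg _)
    rw [le_div_iff₀ (by positivity)]
    have e2 : (1 + l) * l ^ (D + D') ≤ 2 * l ^ (D + D' + 1) := by
      rw [pow_succ]
      have : 0 < l ^ (D + D') := by positivity
      nlinarith only [hl, this]
    linarith only [h1, e2]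
  exact le_of_mul_le_mul_right (h2.trans h3) (by positivity)

/-- `y ≥ x^3`: the large deviations of `G_x`. -/
lemma Gx_large (D D' : ℕ) : ∃ x₀ : ℕ, ∀ x : ℕ, x₀ ≤ x → ∀ y : ℕ, x ^ 3 ≤ y → ∀ c : ℕ,
    (((Icc 1 y).filter (fun a => (x : ℝ) / (Real.log x) ^ D < |Gx x (c * a)|)).card : ℝ) ≤
      (y : ℝ) / (Real.log x) ^ D' := by
  obtain ⟨x₁, hx₁⟩ := ev_log_pow (2 * D + D' + 2) 12
  obtain ⟨x₂, hx₂⟩ := ev_log_ge 1
  refine ⟨max (max x₁ x₂) 1, fun x hx y hy c => ?_⟩
  have h1 := hx₁ x ((le_max_left _ _).trans ((le_max_left _ _).trans hx))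
  have hl := hx₂ x ((le_max_right _ _).trans ((le_max_left _ _).trans hx))
  have hx1 : 1 ≤ x := (le_max_right _ _).trans hx
  have hvar := variance_large_A x c y hy
  set l := Real.log x with hldef
  have hxr : (0 : ℝ) < x := by exact_mod_cast hx1
  have hl0 : 0 < l := by linarith only [hl]
  set B := (Icc 1 y).filter (fun a => (x : ℝ) / l ^ D < |Gx x (c * a)|) with hB
  have h2 : (B.card : ℝ) * ((x : ℝ) / l ^ D) ^ 2 ≤ 3 * (1 + l) ^ 2 * x * y := by
    calc (B.card : ℝ) * ((x : ℝ) / l ^ D) ^ 2 = ∑ a ∈ B, ((x : ℝ) / l ^ D) ^ 2 := by simp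
      _ ≤ ∑ a ∈ B, (Gx x (c * a)) ^ 2 := by
          refine Finset.sum_le_sum fun a ha => ?_
          rw [hB, mem_filter] at ha
          rw [← sq_abs (Gx x (c * a))]
          exact pow_le_pow_left₀ (by positivity) ha.2.le 2
      _ ≤ ∑ a ∈ Icc 1 y, (Gx x (c * a)) ^ 2 :=
          Finset.sum_le_sum_of_subset_of_nonneg (Finset.filter_subset _ _)
            fun _ _ _ => sq_nonneg _
      _ ≤ _ := hvar
  have h3 : 3 * (1 + l) ^ 2 * x * y ≤ ((y : ℝ) / l ^ D') * ((x : ℝ) / l ^ D) ^ 2 := by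
    have e : ((y : ℝ) / l ^ D') * ((x : ℝ) / l ^ D) ^ 2 = (x * y) * (x / l ^ (2 * D + D')) := by
      rw [pow_add, div_pow, two_mul, pow_add]; (clear * - hl hx1; field_simp)
    rw [e]
    have e1 : 3 * (1 + l) ^ 2 * (x : ℝ) * y = (x * y) * (3 * (1 + l) ^ 2) := by ring
    rw [e1]
    refine mul_le_mul_of_nonneg_left ?_ (by (clear * - hx1; positivity))
    rw [le_div_iff₀ (by positivity)]
    have e2 : 3 * (1 + l) ^ 2 * l ^ (2 * D + D') ≤ 12 * l ^ (2 * D + D' + 2) := by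
      rw [pow_add l (2 * D + D') 2]
      have h5 : 0 < l ^ (2 * D + D') := by positivity
      have h6 : 3 * (1 + l) ^ 2 ≤ 12 * l ^ 2 := by nlinarith only [hl]
      nlinarith only [h5, h6]
    linarith only [h1, e2]
  exact le_of_mul_le_mul_right (h2.trans h3) (by positivity)

/-- integers `0 < |a| ≤ y` with a prime factor at least `w` -/
noncomputable def SS (y : ℕ) (w : ℝ) : Finset ℤ := by
  classical exact
  (Finset.Icc (-(y : ℤ)) (y : ℤ)).filter (fun a : ℤ => a ≠ 0 ∧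
    ∃ q : ℕ, q.Prime ∧ (q : ℤ) ∣ a ∧ w ≤ q)

lemma mem_SS {y : ℕ} {w : ℝ} {a : ℤ} : a ∈ SS y w ↔
    (-(y : ℤ) ≤ a ∧ a ≤ y) ∧ a ≠ 0 ∧ ∃ q : ℕ, q.Prime ∧ (q : ℤ) ∣ a ∧ w ≤ q := by
  classical
  rw [SS, mem_filter, mem_Icc]

open Classical in
/-- Exceptional-set bound for all `y`. -/
theorem per_x (D : ℕ) : ∃ C x₀ : ℕ, ∀ x : ℕ, x₀ ≤ x → ∀ y : ℕ,
    (((SS y ((Real.log x) ^ C)).filter (fun a : ℤ =>
      artinMain x / (Real.log x) ^ D < |(artinCount a x : ℝ) - artinMain x|)).card : ℝ) ≤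
      (y : ℝ) / (Real.log x) ^ D := by
  obtain ⟨C, x₁, hC⟩ := main_quant D
  obtain ⟨x₂, hx₂⟩ := ev_log_ge 4
  obtain ⟨x₃, hx₃⟩ := om_large (D + 4) (D + 1)
  obtain ⟨x₄, hx₄⟩ := artinMain_ge
  obtain ⟨x₅, hx₅⟩ := Gx_large (D + 4) (D + 1)
  refine ⟨C, max (max x₁ x₂) (max (max x₃ x₄) x₅), fun x hx y => ?_⟩
  have hC := hC x ((le_max_left _ _).trans ((le_max_left _ _).trans hx)) y
  have hl := hx₂ x ((le_max_right _ _).trans ((le_max_left _ _).trans hx))
  have hom := hx₃ x ((le_max_left _ _).trans ((le_max_left _ _).trans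
    ((le_max_right _ _).trans hx))) y
  have hM := hx₄ x ((le_max_right _ _).trans ((le_max_left _ _).trans
    ((le_max_right _ _).trans hx)))
  have hG := hx₅ x ((le_max_right _ _).trans ((le_max_right _ _).trans hx)) y
  rcases le_total y (x ^ 3) with hy | hy
  · refine le_trans ?_ (hC hy)
    have : (SS y ((Real.log x) ^ C)).filter (fun a : ℤ =>
      artinMain x / (Real.log x) ^ D < |(artinCount a x : ℝ) - artinMain x|) =
      (Finset.Icc (-(y : ℤ)) (y : ℤ)).filter (fun a : ℤ => a ≠ 0 ∧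
      (∃ q : ℕ, q.Prime ∧ (q : ℤ) ∣ a ∧ (Real.log x) ^ C ≤ q) ∧
      artinMain x / (Real.log x) ^ D < |(artinCount a x : ℝ) - artinMain x|) := by
      ext a
      rw [mem_filter, mem_filter, mem_SS, mem_Icc]
      (clear * - hC hG hy; tauto)
    rw [this]
  have hG1 := hG hy 1
  have hG2 := hG hy (PP x - 1)
  set l := Real.log x with hldef
  have hl0 : 0 < l := by linarith only [hl]
  have hx0 : (0 : ℝ) ≤ x := Nat.cast_nonneg x
  have key : ∀ b : ℤ, ∀ n c : ℕ,
      (∀ p ∈ Px x, ((b : ℤ) : ZMod p) = ((c * n : ℕ) : ZMod p)) →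
      (∀ p ∈ Px x, p ∣ c * n → p ∣ n) →
      artinMain x / l ^ D < |(artinCount b x : ℝ) - artinMain x| →
      (x : ℝ) / l ^ (D + 4) < |Gx x (c * n)| ∨ (x : ℝ) / l ^ (D + 4) < om x n := by
    intro b n c h1 h2 h3
    by_contra hcon
    push Not at hcon
    have h4 := diff_le' b (c * n) x n h1 h2
    have h6 : (x : ℝ) / l ^ (D + 3) ≤ artinMain x / l ^ D := by
      have : (x : ℝ) / l ^ (D + 3) = (x / l ^ 3) / l ^ D := by
        rw [pow_add]; (clear * - hl; field_simp)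
      rw [this]
      exact div_le_div_of_nonneg_right hM (by positivity)
    have h7 : (x : ℝ) / l ^ (D + 4) + (x : ℝ) / l ^ (D + 4) ≤ (x : ℝ) / l ^ (D + 3) := by
      have e1 : (x : ℝ) / l ^ (D + 3) = (x / l ^ (D + 4)) * l := by
        rw [pow_succ l (D + 3)]; (clear * - hl; field_simp)
      have e2 : 0 ≤ (x : ℝ) / l ^ (D + 4) := by (clear * - hl; positivity)
      rw [e1]
      nlinarith only [hcon, hl]
    linarith only [h3, hcon, h4, h6, h7, hcon.1, hcon.2]
  set S1 := (Icc 1 y).filter (fun a => (x : ℝ) / l ^ (D + 4) < |Gx x (1 * a)|) with hS1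
  set S2 := (Icc 1 y).filter (fun a => (x : ℝ) / l ^ (D + 4) < |Gx x ((PP x - 1) * a)|) with hS2
  set S3 := (Icc 1 y).filter (fun a => (x : ℝ) / l ^ (D + 4) < om x a) with hS3
  have hsub : (SS y (l ^ C)).filter (fun a : ℤ =>
      artinMain x / l ^ D < |(artinCount a x : ℝ) - artinMain x|) ⊆
      (S1 ∪ S3).image (fun n : ℕ => (n : ℤ)) ∪ (S2 ∪ S3).image (fun n : ℕ => -(n : ℤ)) := by
    intro a ha
    rw [mem_filter, mem_SS] at ha
    obtain ⟨⟨⟨ha1, ha2⟩, ha0, -⟩, hbad⟩ := ha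
    rcases Int.natAbs_eq a with h | h
    · rw [mem_union]; left
      rw [mem_image]
      refine ⟨a.natAbs, ?_, h.symm⟩
      have := key a a.natAbs 1 (fun p _ => by
        rw [one_mul]
        conv_lhs => rw [h]
        simp only [Nat.cast_natAbs, Int.cast_abs, Int.cast_eq]) (fun p _ hp => by simpa only [one_mul] using hp) hbad
      rw [mem_union, hS1, hS3, mem_filter, mem_filter, mem_Icc]
      have h2 : 1 ≤ a.natAbs ∧ a.natAbs ≤ y := ⟨by omega, by omega⟩
      exact this.imp (fun h => ⟨h2, h⟩) (fun h => ⟨h2, h⟩)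
    · rw [mem_union]; right
      rw [mem_image]
      refine ⟨a.natAbs, ?_, h.symm⟩
      have := key a a.natAbs (PP x - 1) (fun p hp => by
        rw [← neg_cast x a.natAbs p hp]
        conv_lhs => rw [h])
        (fun p hp hd => dvd_of_dvd_neg x _ p hp hd) hbad
      rw [mem_union, hS2, hS3, mem_filter, mem_filter, mem_Icc]
      have h2 : 1 ≤ a.natAbs ∧ a.natAbs ≤ y := ⟨by omega, by omega⟩
      exact this.imp (fun h => ⟨h2, h⟩) (fun h => ⟨h2, h⟩)
  have h3 : (((SS y (l ^ C)).filter (fun a : ℤ =>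
      artinMain x / l ^ D < |(artinCount a x : ℝ) - artinMain x|)).card : ℝ) ≤
      ((S1.card : ℝ) + S3.card) + (S2.card + S3.card) := by
    have h4 := (Finset.card_le_card hsub).trans (Finset.card_union_le _ _)
    have h5 : ((S1 ∪ S3).image (fun n : ℕ => (n : ℤ))).card ≤ S1.card + S3.card :=
      Finset.card_image_le.trans (Finset.card_union_le _ _)
    have h6 : ((S2 ∪ S3).image (fun n : ℕ => -(n : ℤ))).card ≤ S2.card + S3.card :=
      Finset.card_image_le.trans (Finset.card_union_le _ _)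
    exact_mod_cast h4.trans (add_le_add h5 h6)
  refine h3.trans ?_
  have h7 : 4 * ((y : ℝ) / l ^ (D + 1)) ≤ (y : ℝ) / l ^ D := by
    have e1 : (y : ℝ) / l ^ D = (y / l ^ (D + 1)) * l := by
      rw [pow_succ l D]; (clear * - hl; field_simp)
    have e2 : 0 ≤ (y : ℝ) / l ^ (D + 1) := by (clear * - hl; positivity)
    rw [e1]
    nlinarith only [hl, hG1]
  linarith only [hG1, hG2, hom, h7]

end Vale.Agent.P016
end
end

section

section

namespace Vale.Agent.P016

open Finset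

/-- index set of the characters attached to the primes of `P` -/
noncomputable def IX (P : Finset ℕ) : Finset (Σ _ : ℕ, ℕ) := P.sigma (fun p => Ico 1 (p - 1))

lemma IX_IsI {x : ℕ} {P : Finset ℕ} (hP : P ⊆ Px x) {i : Σ _ : ℕ, ℕ} (hi : i ∈ IX P) :
    IsI x (i.1, i.2) := by
  rw [IX, mem_sigma, mem_Ico] at hi
  have h1 := mem_Px.1 (hP hi.1)
  exact ⟨h1.1, h1.2, hi.2.1, hi.2.2⟩

/-- One-sided first moment bound. -/
lemma one_side (x : ℕ) (P : Finset ℕ) (hP : P ⊆ Px x) (c : ℕ → ℕ → ℝ) (v : ℝ)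
    (hc : ∀ p ∈ P, ∑ t ∈ Ico 1 (p - 1), |c p t| ≤ v) (m : ℕ) (Q : Finset ℕ)
    (hQ : ∀ q ∈ Q, q.Prime) (Y k N : ℕ) (hk : 1 ≤ k) (hY : ∀ q ∈ Q, q ≤ Y) (hN : Y ^ k < N)
    (Δ : ℝ) (hΔ : 0 ≤ Δ)
    (hlow : ∀ q ∈ Q, Δ ≤ (∑ p ∈ P, ∑ t ∈ Ico 1 (p - 1), (c p t : ℂ) * (ech p (m * q)) ^ t).re)
    (V : ℝ) (hV : v * #P ≤ V) (hv : 0 ≤ v) (hx : 1 ≤ x) :
    (Δ * #Q) ^ (2 * k) ≤ V ^ (2 * k - 2) * ((k.factorial : ℝ) * (#Q : ℝ) ^ k *
      ((N : ℝ) * (v * V) + V ^ 2 * ((x : ℝ) * (1 + 2 * Real.log x)))) := by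
  classical
  have hlogx : 0 ≤ Real.log x := Real.log_nonneg (by exact_mod_cast hx)
  set w : (Σ _ : ℕ, ℕ) → ℝ := fun i => |c i.1 i.2| with hw
  set χ : (Σ _ : ℕ, ℕ) → ℕ → ℂ := fun i n => chi (i.1, i.2) n with hχ
  have hw0 : ∀ i ∈ IX P, 0 ≤ w i := fun i _ => abs_nonneg _
  -- the sum over q
  have h1 : Δ * #Q ≤ ∑ i ∈ IX P, w i * ‖∑ q ∈ Q, χ i q‖ := by
    calc Δ * #Q = ∑ q ∈ Q, Δ := by rw [Finset.sum_const, nsmul_eq_mul, mul_comm]
      _ ≤ ∑ q ∈ Q, (∑ p ∈ P, ∑ t ∈ Ico 1 (p - 1), (c p t : ℂ) * (ech p (m * q)) ^ t).re :=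
          Finset.sum_le_sum hlow
      _ = (∑ q ∈ Q, ∑ p ∈ P, ∑ t ∈ Ico 1 (p - 1), (c p t : ℂ) * (ech p (m * q)) ^ t).re := by
          rw [Complex.re_sum]
      _ = (∑ i ∈ IX P, (c i.1 i.2 : ℂ) * (ech i.1 m) ^ i.2 * ∑ q ∈ Q, χ i q).re := by
          congr 1
          simp only [IX, Finset.sum_sigma, Finset.mul_sum]
          rw [Finset.sum_comm]
          refine Finset.sum_congr rfl fun p hp => ?_
          rw [Finset.sum_comm]
          refine Finset.sum_congr rfl fun t _ => Finset.sum_congr rfl fun q _ => ?_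
          have hpp := (mem_Px.1 (hP hp)).1
          rw [hχ]
          simp only [chi]
          rw [ech_mul hpp, mul_pow]
          ring
      _ ≤ ‖∑ i ∈ IX P, (c i.1 i.2 : ℂ) * (ech i.1 m) ^ i.2 * ∑ q ∈ Q, χ i q‖ :=
          Complex.re_le_norm _
      _ ≤ ∑ i ∈ IX P, w i * ‖∑ q ∈ Q, χ i q‖ := by
          refine (norm_sum_le _ _).trans (Finset.sum_le_sum fun i hi => ?_)
          rw [norm_mul, norm_mul, Complex.norm_real, Real.norm_eq_abs, norm_pow]
          have h2 : ‖ech i.1 m‖ ^ i.2 ≤ 1 :=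
            pow_le_one₀ (norm_nonneg _) (ech_norm_le (IX_IsI hP hi).1 m)
          have h3 : |c i.1 i.2| * ‖ech i.1 m‖ ^ i.2 ≤ w i :=
            mul_le_of_le_one_right (abs_nonneg _) h2
          exact mul_le_mul_of_nonneg_right h3 (norm_nonneg _)
  have hsw : ∑ i ∈ IX P, w i ≤ V := by
    refine le_trans ?_ hV
    rw [IX, Finset.sum_sigma]
    calc ∑ p ∈ P, ∑ t ∈ Ico 1 (p - 1), |c p t| ≤ ∑ p ∈ P, v := Finset.sum_le_sum hc
      _ = v * #P := by rw [Finset.sum_const, nsmul_eq_mul, mul_comm]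
  have hsw0 : 0 ≤ ∑ i ∈ IX P, w i := Finset.sum_nonneg hw0
  have hwv : ∀ i ∈ IX P, w i ≤ v := by
    intro i hi
    rw [IX, mem_sigma] at hi
    refine le_trans ?_ (hc i.1 hi.1)
    exact Finset.single_le_sum (f := fun t => |c i.1 t|) (fun _ _ => abs_nonneg _) hi.2
  have hsw2 : ∑ i ∈ IX P, w i ^ 2 ≤ v * V := by
    calc ∑ i ∈ IX P, w i ^ 2 ≤ ∑ i ∈ IX P, v * w i := by
          refine Finset.sum_le_sum fun i hi => ?_
          rw [sq]
          exact mul_le_mul_of_nonneg_right (hwv i hi) (hw0 i hi)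
      _ = v * ∑ i ∈ IX P, w i := by rw [Finset.mul_sum]
      _ ≤ v * V := mul_le_mul_of_nonneg_left hsw hv
  have hL := L1HM Q hQ k N Y hk hY hN (IX P) w hw0 χ
    (fun i hi => chi_one (IX_IsI hP hi)) (fun i hi => chi_mul (IX_IsI hP hi))
    (fun i hi => chi_norm_le (IX_IsI hP hi)) ((x : ℝ) * (1 + 2 * Real.log x)) (by positivity)
    (fun i hi j hj hij => orthPV x _ _ (IX_IsI hP hi) (IX_IsI hP hj) (by
      intro h
      apply hij
      have h1 := congrArg Prod.fst h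
      have h2 := congrArg Prod.snd h
      obtain ⟨a, b⟩ := i
      obtain ⟨a', b'⟩ := j
      simp only at h1 h2
      subst h1; subst h2; rfl) N)
  have hV0 : 0 ≤ V := hsw0.trans hsw
  calc (Δ * #Q) ^ (2 * k) ≤ (∑ i ∈ IX P, w i * ‖∑ q ∈ Q, χ i q‖) ^ (2 * k) :=
        pow_le_pow_left₀ (by (clear * - hΔ; positivity)) h1 _
    _ ≤ _ := hL
    _ ≤ _ := by
        refine mul_le_mul (pow_le_pow_left₀ hsw0 hsw _) ?_ (by (clear * - hx; positivity)) (by (clear * - hV0; positivity))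
        refine mul_le_mul_of_nonneg_left ?_ (by (clear * -; positivity))
        refine add_le_add (mul_le_mul_of_nonneg_left hsw2 (Nat.cast_nonneg N)) ?_
        refine mul_le_mul_of_nonneg_right ?_ (by (clear * - hx; positivity))
        exact pow_le_pow_left₀ hsw0 hsw 2

/-- Rearranged version. -/
lemma one_side' (x : ℕ) (P : Finset ℕ) (hP : P ⊆ Px x) (c : ℕ → ℕ → ℝ) (v : ℝ)
    (hc : ∀ p ∈ P, ∑ t ∈ Ico 1 (p - 1), |c p t| ≤ v) (m : ℕ) (Q : Finset ℕ)
    (hQ : ∀ q ∈ Q, q.Prime) (Y k N : ℕ) (hk : 1 ≤ k) (hY : ∀ q ∈ Q, q ≤ Y) (hN : Y ^ k < N)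
    (Δ : ℝ) (hΔ : 0 < Δ)
    (hlow : ∀ q ∈ Q, Δ ≤ (∑ p ∈ P, ∑ t ∈ Ico 1 (p - 1), (c p t : ℂ) * (ech p (m * q)) ^ t).re)
    (V : ℝ) (hV : v * #P ≤ V) (hv : 0 ≤ v) (hx : 1 ≤ x) (hV0 : 0 < V) :
    (#Q : ℝ) ^ k ≤ (V / Δ) ^ (2 * k) * ((k.factorial : ℝ) *
      ((N : ℝ) * (v / V) + (x : ℝ) * (1 + 2 * Real.log x))) := by
  rcases Nat.eq_zero_or_pos (#Q) with h0 | hpos
  · have hlogx : 0 ≤ Real.log x := Real.log_nonneg (by exact_mod_cast hx)
    rw [h0, Nat.cast_zero, zero_pow (by omega)]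
    (clear * - hV0 hΔ hv hx; positivity)
  have hQpos : (0 : ℝ) < (#Q : ℝ) ^ k := by
    have : (0 : ℝ) < #Q := by exact_mod_cast hpos
    (clear * - hpos; positivity)
  have h := one_side x P hP c v hc m Q hQ Y k N hk hY hN Δ hΔ.le hlow V hV hv hx
  have hVk : V ^ (2 * k - 2) * V ^ 2 = V ^ (2 * k) := by
    rw [← pow_add]
    congr 1
    omega
  have e1 : (Δ * (#Q : ℝ)) ^ (2 * k) = Δ ^ (2 * k) * ((#Q : ℝ) ^ k * (#Q : ℝ) ^ k) := by
    rw [mul_pow, ← pow_add]
    congr 2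
    omega
  have e2 : V ^ (2 * k - 2) * ((k.factorial : ℝ) * (#Q : ℝ) ^ k *
      ((N : ℝ) * (v * V) + V ^ 2 * ((x : ℝ) * (1 + 2 * Real.log x)))) =
      (#Q : ℝ) ^ k * (V ^ (2 * k) * ((k.factorial : ℝ) *
      ((N : ℝ) * (v / V) + (x : ℝ) * (1 + 2 * Real.log x)))) := by
    rw [← hVk]
    (clear * - hV0 hv hx hpos; field_simp)
  rw [e1, e2] at h
  have h2 : Δ ^ (2 * k) * (#Q : ℝ) ^ k ≤ V ^ (2 * k) * ((k.factorial : ℝ) *
      ((N : ℝ) * (v / V) + (x : ℝ) * (1 + 2 * Real.log x))) := by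
    refine le_of_mul_le_mul_left ?_ hQpos
    calc (#Q : ℝ) ^ k * (Δ ^ (2 * k) * (#Q : ℝ) ^ k) = Δ ^ (2 * k) * ((#Q : ℝ) ^ k * (#Q : ℝ) ^ k) := by
          ring
      _ ≤ _ := h
  rw [div_pow, div_mul_eq_mul_div, le_div_iff₀ (by positivity)]
  calc (#Q : ℝ) ^ k * Δ ^ (2 * k) = Δ ^ (2 * k) * (#Q : ℝ) ^ k := by ring
    _ ≤ _ := h2

end Vale.Agent.P016
end
end

section

section

namespace Vale.Agent.P016

open Finset Filter

lemma ev_rpow (C r s : ℝ) (hs : 0 < s) : ∀ᶠ x : ℕ in atTop, C * (Real.log x) ^ r ≤ (x : ℝ) ^ s := by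
  have h := (isLittleO_log_rpow_rpow_atTop r hs).comp_tendsto tendsto_natCast_atTop_atTop
  have h2 := h.bound (c := 1 / (|C| + 1)) (by positivity)
  filter_upwards [h2, eventually_ge_atTop 1] with x hx hx1
  simp only [Function.comp] at hx
  have hlog : 0 ≤ Real.log x := Real.log_nonneg (by exact_mod_cast hx1)
  have h3 : 0 ≤ (Real.log x) ^ r := Real.rpow_nonneg hlog r
  have h4 : 0 ≤ (x : ℝ) ^ s := Real.rpow_nonneg (Nat.cast_nonneg x) s
  rw [Real.norm_of_nonneg h3, Real.norm_of_nonneg h4] at hx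
  have h5 : (|C| + 1) * (Real.log x) ^ r ≤ (x : ℝ) ^ s := by
    calc (|C| + 1) * (Real.log x) ^ r ≤ (|C| + 1) * (1 / (|C| + 1) * (x : ℝ) ^ s) :=
          mul_le_mul_of_nonneg_left hx (by (clear * -; positivity))
      _ = (x : ℝ) ^ s := by field_simp
  refine le_trans ?_ h5
  refine mul_le_mul_of_nonneg_right ?_ h3
  have := le_abs_self C
  linarith only [this]

lemma ev_log_rpow (C s : ℝ) (hs : 0 < s) : ∀ᶠ x : ℕ in atTop, C ≤ (Real.log x) ^ s :=
  ((tendsto_rpow_atTop hs).comp (Real.tendsto_log_atTop.comp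
    tendsto_natCast_atTop_atTop)).eventually_ge_atTop C

/-- Extraction of the `k`-th root. -/
lemma root_bound (x Y : ℕ) (hx : 3 ≤ x) (hY : 2 ≤ Y) (hL : 1 ≤ Real.log x) (q W : ℝ)
    (hW : 0 ≤ W)
    (h : q ^ (Nat.clog Y (x ^ 2)) ≤ W ^ (2 * Nat.clog Y (x ^ 2)) *
      (((Nat.clog Y (x ^ 2)).factorial : ℝ) *
      (((Y ^ (Nat.clog Y (x ^ 2)) + 1 : ℕ) : ℝ) * (2 * Real.log x / x) +
        (x : ℝ) * (1 + 2 * Real.log x)))) :
    q ≤ W ^ 2 * ((Nat.clog Y (x ^ 2) : ℕ) : ℝ) * Y *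
      (7 * Real.log x / x) ^ (1 / ((Nat.clog Y (x ^ 2) : ℕ) : ℝ)) := by
  set k := Nat.clog Y (x ^ 2) with hk
  have hY1 : 1 < Y := by omega
  have hkpos : 0 < k := Nat.clog_pos hY1 (by nlinarith only [hx])
  have hxY : x ^ 2 ≤ Y ^ k := Nat.le_pow_clog hY1 _
  have hxr : (0 : ℝ) < x := by positivity
  have hYk : ((x : ℝ)) ^ 2 ≤ (Y : ℝ) ^ k := by exact_mod_cast hxY
  have hYk1 : (1 : ℝ) ≤ (Y : ℝ) ^ k := one_le_pow₀ (by exact_mod_cast hY1.le)
  have hρ : 0 ≤ 7 * Real.log x / x := by positivity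
  set L := Real.log x with hLdef
  have h1 : ((Y ^ k + 1 : ℕ) : ℝ) * (2 * L / x) + (x : ℝ) * (1 + 2 * L) ≤
      (Y : ℝ) ^ k * (7 * L / x) := by
    push_cast
    have h2 : ((Y : ℝ) ^ k + 1) * (2 * L / x) ≤ (Y : ℝ) ^ k * (4 * L / x) := by
      have : ((Y : ℝ) ^ k + 1) * (2 * L / x) ≤ (2 * (Y : ℝ) ^ k) * (2 * L / x) :=
        mul_le_mul_of_nonneg_right (by linarith only [hYk1]) (by positivity)
      refine this.trans (le_of_eq (by ring))
    have h3 : (x : ℝ) * (1 + 2 * L) ≤ (Y : ℝ) ^ k * (3 * L / x) := by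
      calc (x : ℝ) * (1 + 2 * L) ≤ (x : ℝ) * (3 * L) :=
            mul_le_mul_of_nonneg_left (by linarith only [hL]) hxr.le
        _ = (x : ℝ) ^ 2 * (3 * L / x) := by field_simp
        _ ≤ _ := mul_le_mul_of_nonneg_right hYk (by positivity)
    calc _ ≤ (Y : ℝ) ^ k * (4 * L / x) + (Y : ℝ) ^ k * (3 * L / x) := add_le_add h2 h3
      _ = _ := by ring
  have hfac : (k.factorial : ℝ) ≤ (k : ℝ) ^ k := by exact_mod_cast Nat.factorial_le_pow k
  have h4 : q ^ k ≤ (W ^ 2 * k * Y * (7 * L / x) ^ (1 / (k : ℝ))) ^ k := by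
    have e : ((7 * L / x) ^ (1 / (k : ℝ))) ^ k = 7 * L / x := by
      rw [one_div]
      exact Real.rpow_inv_natCast_pow hρ hkpos.ne'
    rw [mul_pow, mul_pow, mul_pow, e, ← pow_mul]
    calc q ^ k ≤ _ := h
      _ ≤ W ^ (2 * k) * ((k : ℝ) ^ k * ((Y : ℝ) ^ k * (7 * L / x))) := by
          refine mul_le_mul_of_nonneg_left ?_ (by (clear * - hW; positivity))
          exact mul_le_mul hfac h1 (by positivity) (by positivity)
      _ = _ := by ring
  exact le_of_pow_le_pow_left₀ hkpos.ne' (by (clear * - hkpos hY hL hx; positivity)) h4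

/-- The final numerical estimate. -/
lemma numeric_bound (κ : ℝ) (hκ : 0 < κ) (hκ1 : κ ≤ 1) : ∀ᶠ x : ℕ in atTop, ∀ Y : ℕ, 2 ≤ Y →
    ((Nat.clog Y (x ^ 2) : ℕ) : ℝ) * (7 * Real.log x / x) ^ (1 / ((Nat.clog Y (x ^ 2) : ℕ) : ℝ)) ≤
      4 * Real.log x * ((Y : ℝ) ^ (-(1 / 2) + κ / 2) + (x : ℝ) ^ (-(κ / 4))) := by
  filter_upwards [ev_rpow 7 1 (κ / 8) (by positivity), eventually_ge_atTop 3,
    ev_log_rpow 1 1 one_pos] with x h7 hx3 hL1 Y hY
  rw [Real.rpow_one] at h7 hL1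
  set k := Nat.clog Y (x ^ 2) with hk
  set L := Real.log x with hLdef
  have hY1 : 1 < Y := by omega
  have hx2 : 1 < x ^ 2 := by nlinarith only [hx3]
  have hkpos : 0 < k := Nat.clog_pos hY1 hx2
  have hkr : (0 : ℝ) < k := by exact_mod_cast hkpos
  have hxr : (0 : ℝ) < x := by positivity
  have hYr : (0 : ℝ) < Y := by positivity
  set l := Real.log Y with hl
  have hl2 : Real.log 2 ≤ l := Real.log_le_log (by norm_num) (by exact_mod_cast hY)
  have hlog2 : 0.6931471803 < Real.log 2 := Real.log_two_gt_d9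
  have hlpos : 0 < l := by linarith only [hl2, hlog2]
  -- bound of k
  have hk1 : ((k : ℝ) - 1) * l ≤ 2 * L := by
    have h1 : Y ^ (k - 1) < x ^ 2 := by
      have := Nat.pow_pred_clog_lt_self hY1 hx2
      simpa only [hk, gt_iff_lt, Nat.pred_eq_sub_one] using this
    have h2 : ((Y : ℝ)) ^ (k - 1) ≤ (x : ℝ) ^ 2 := by exact_mod_cast h1.le
    have h3 := Real.log_le_log (by positivity) h2
    rw [Real.log_pow, Real.log_pow] at h3
    push_cast [Nat.cast_sub (show 1 ≤ k by omega)] at h3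
    exact h3
  have hk4 : (k : ℝ) ≤ 4 * L := by
    have h1 : ((k : ℝ) - 1) * Real.log 2 ≤ 2 * L := by
      rcases le_or_gt 1 (k : ℝ) with h | h
      · exact (mul_le_mul_of_nonneg_left hl2 (by linarith only [h])).trans hk1
      · nlinarith only [hL1, h, hlog2]
    nlinarith only [hL1, h1, hlog2, hkr]
  -- L / k lower bound
  have hLk : L * l / (l + 2 * L) ≤ L / k := by
    rw [div_le_div_iff₀ (by (clear * - hlpos hL1; positivity)) hkr]
    nlinarith only [hk1, hL1]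
  have hρ0 : 0 < 7 * L / x := by positivity
  have hρ : (7 * L / x) ≤ Real.exp (-((1 - κ / 8) * L)) := by
    have e1 : Real.exp (-((1 - κ / 8) * L)) = (x : ℝ) ^ (κ / 8) / x := by
      rw [show -((1 - κ / 8) * L) = L * (κ / 8) - L by ring, Real.exp_sub, Real.exp_log hxr,
        Real.rpow_def_of_pos hxr]
    rw [e1]
    exact div_le_div_of_nonneg_right h7 hxr.le
  have hroot : (7 * L / x) ^ (1 / (k : ℝ)) ≤ Real.exp (-((1 - κ / 8) * (L / k))) := by
    calc (7 * L / x) ^ (1 / (k : ℝ)) ≤ (Real.exp (-((1 - κ / 8) * L))) ^ (1 / (k : ℝ)) :=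
          Real.rpow_le_rpow hρ0.le hρ (by positivity)
      _ = _ := by
          rw [← Real.exp_mul]
          congr 1
          (clear * - hkpos hL1; field_simp)
  have hcase : Real.exp (-((1 - κ / 8) * (L / k))) ≤
      (Y : ℝ) ^ (-(1 / 2) + κ / 2) + (x : ℝ) ^ (-(κ / 4)) := by
    have hc8 : 0 < 1 - κ / 8 := by linarith only [hκ1]
    have hy0 : 0 ≤ (Y : ℝ) ^ (-(1 / 2) + κ / 2) := Real.rpow_nonneg hYr.le _
    have hx0 : 0 ≤ (x : ℝ) ^ (-(κ / 4)) := Real.rpow_nonneg hxr.le _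
    rcases le_or_gt l (κ * L) with hc | hc
    · have h1 : l / (2 + κ) ≤ L / k := by
        refine le_trans ?_ hLk
        rw [div_le_div_iff₀ (by positivity) (by positivity)]
        nlinarith only [hc, hl2, hlog2]
      have h2 : (1 / 2 - κ / 2) * l ≤ (1 - κ / 8) * (L / k) := by
        refine le_trans ?_ (mul_le_mul_of_nonneg_left h1 hc8.le)
        rw [mul_div_assoc', le_div_iff₀ (by positivity)]
        nlinarith only [hlpos, mul_pos hκ hlpos]
      have h3 : Real.exp (-((1 - κ / 8) * (L / k))) ≤ (Y : ℝ) ^ (-(1 / 2) + κ / 2) := by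
        rw [Real.rpow_def_of_pos hYr]
        apply Real.exp_le_exp.2
        rw [← hl]
        linarith only [h2]
      linarith only [hx0, h3]
    · have h1 : L * κ / (κ + 2) ≤ L / k := by
        refine le_trans ?_ hLk
        rw [div_le_div_iff₀ (by positivity) (by positivity)]
        have : 0 < L := by linarith only [hL1]
        nlinarith only [hc, hL1]
      have h2 : (κ / 4) * L ≤ (1 - κ / 8) * (L / k) := by
        refine le_trans ?_ (mul_le_mul_of_nonneg_left h1 hc8.le)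
        rw [mul_div_assoc', le_div_iff₀ (by positivity)]
        have : 0 < L := by linarith only [hL1]
        nlinarith only [hκ1, mul_pos hκ this]
      have h3 : Real.exp (-((1 - κ / 8) * (L / k))) ≤ (x : ℝ) ^ (-(κ / 4)) := by
        rw [Real.rpow_def_of_pos hxr]
        apply Real.exp_le_exp.2
        linarith only [h2]
      linarith only [hy0, h3]
  have hnn : 0 ≤ (7 * L / x) ^ (1 / (k : ℝ)) := Real.rpow_nonneg hρ0.le _
  exact mul_le_mul hk4 (hroot.trans hcase) hnn (by positivity)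

end Vale.Agent.P016
end
end

section

section

namespace Vale.Agent.P016

open Finset Filter

/-- Multiplicity of `k`-fold products of `z`-rough integers. -/
lemma rough_mult (Q : Finset ℕ) (k Y z : ℕ) (hk : 1 ≤ k) (hz : 2 ≤ z)
    (hQ : ∀ q ∈ Q, 1 ≤ q ∧ q ≤ Y ∧ ∀ p : ℕ, p.Prime → p ∣ q → z ≤ p) (n : ℕ) :
    (#{t ∈ Fintype.piFinset (fun _ : Fin k => Q) | ∏ i, t i = n} : ℝ) ≤
      ((k : ℝ) ^ (Real.log Y / Real.log z)) ^ k := by
  classical
  rcases Finset.eq_empty_or_nonempty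
    ({t ∈ Fintype.piFinset (fun _ : Fin k => Q) | ∏ i, t i = n}) with h | ⟨t0, h0⟩
  · rw [h]; simp only [card_empty, Nat.cast_zero]; positivity
  rw [mem_filter, Fintype.mem_piFinset] at h0
  have hn0 : n ≠ 0 := by
    rw [← h0.2]
    exact Finset.prod_ne_zero_iff.2 fun i _ => by have := (hQ _ (h0.1 i)).1; omega
  have hY1 : 1 ≤ Y := by
    have h1 := hQ _ (h0.1 ⟨0, hk⟩)
    omega
  have hsub : ({t ∈ Fintype.piFinset (fun _ : Fin k => Q) | ∏ i, t i = n}) ⊆
      Nat.finMulAntidiag k n := by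
    intro t ht
    rw [mem_filter] at ht
    rw [Nat.mem_finMulAntidiag]
    exact ⟨ht.2, hn0⟩
  have h1 : #{t ∈ Fintype.piFinset (fun _ : Fin k => Q) | ∏ i, t i = n} ≤
      k ^ (ArithmeticFunction.cardFactors n) :=
    (Finset.card_le_card hsub).trans (card_finMul_le k n hn0)
  have hnY : n ≤ Y ^ k := by
    rw [← h0.2]
    calc ∏ i, t0 i ≤ ∏ _i : Fin k, Y := Finset.prod_le_prod' fun i _ => (hQ _ (h0.1 i)).2.1
      _ = Y ^ k := by simp only [prod_const, card_univ, Fintype.card_fin]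
  have hzn : z ^ (ArithmeticFunction.cardFactors n) ≤ n := by
    have h2 : ∀ p ∈ n.primeFactorsList, z ≤ p := by
      intro p hp
      have hpp := Nat.prime_of_mem_primeFactorsList hp
      have hpd := Nat.dvd_of_mem_primeFactorsList hp
      rw [← h0.2] at hpd
      obtain ⟨i, -, hi⟩ := (Prime.dvd_finsetProd_iff hpp.prime t0).1 hpd
      exact (hQ _ (h0.1 i)).2.2 p hpp hi
    have h3 := List.pow_card_le_prod n.primeFactorsList z h2
    rw [Nat.prod_primeFactorsList hn0] at h3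
    exact h3
  have hlogz : 0 < Real.log z := Real.log_pos (by exact_mod_cast hz)
  have hΩ : (ArithmeticFunction.cardFactors n : ℝ) ≤ Real.log Y / Real.log z * k := by
    have h4 : ((z : ℝ)) ^ (ArithmeticFunction.cardFactors n) ≤ (Y : ℝ) ^ k := by
      exact_mod_cast hzn.trans hnY
    have h5 := Real.log_le_log (by positivity) h4
    rw [Real.log_pow, Real.log_pow] at h5
    rw [div_mul_eq_mul_div, le_div_iff₀ hlogz]
    linarith only [h5]
  have hk1 : (1 : ℝ) ≤ k := by exact_mod_cast hk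
  calc (#{t ∈ Fintype.piFinset (fun _ : Fin k => Q) | ∏ i, t i = n} : ℝ)
      ≤ (k : ℝ) ^ (ArithmeticFunction.cardFactors n) := by exact_mod_cast h1
    _ = (k : ℝ) ^ ((ArithmeticFunction.cardFactors n : ℕ) : ℝ) := (Real.rpow_natCast _ _).symm
    _ ≤ (k : ℝ) ^ (Real.log Y / Real.log z * k) := Real.rpow_le_rpow_of_exponent_le hk1 hΩ
    _ = _ := by
        rw [Real.rpow_mul (by linarith only [hk1]), Real.rpow_natCast]

/-- One-sided first moment bound, general sets. -/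
lemma one_side_gen (x : ℕ) (P : Finset ℕ) (hP : P ⊆ Px x) (c : ℕ → ℕ → ℝ) (v : ℝ)
    (hc : ∀ p ∈ P, ∑ t ∈ Ico 1 (p - 1), |c p t| ≤ v) (m : ℕ) (Q : Finset ℕ) (R : ℝ)
    (Y k N : ℕ) (hQ : ∀ n, (#{t ∈ Fintype.piFinset (fun _ : Fin k => Q) | ∏ i, t i = n} : ℝ) ≤ R)
    (hk : 1 ≤ k) (hY : ∀ q ∈ Q, q ≤ Y) (hN : Y ^ k < N)
    (Δ : ℝ) (hΔ : 0 ≤ Δ)
    (hlow : ∀ q ∈ Q, Δ ≤ (∑ p ∈ P, ∑ t ∈ Ico 1 (p - 1), (c p t : ℂ) * (ech p (m * q)) ^ t).re)
    (V : ℝ) (hV : v * #P ≤ V) (hv : 0 ≤ v) (hx : 1 ≤ x) :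
    (Δ * #Q) ^ (2 * k) ≤ V ^ (2 * k - 2) * (R * (#Q : ℝ) ^ k *
      ((N : ℝ) * (v * V) + V ^ 2 * ((x : ℝ) * (1 + 2 * Real.log x)))) := by
  classical
  have hlogx : 0 ≤ Real.log x := Real.log_nonneg (by exact_mod_cast hx)
  have hR0 : 0 ≤ R := le_trans (Nat.cast_nonneg _) (hQ 0)
  set w : (Σ _ : ℕ, ℕ) → ℝ := fun i => |c i.1 i.2| with hw
  set χ : (Σ _ : ℕ, ℕ) → ℕ → ℂ := fun i n => chi (i.1, i.2) n with hχ
  have hw0 : ∀ i ∈ IX P, 0 ≤ w i := fun i _ => abs_nonneg _
  -- the sum over q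
  have h1 : Δ * #Q ≤ ∑ i ∈ IX P, w i * ‖∑ q ∈ Q, χ i q‖ := by
    calc Δ * #Q = ∑ q ∈ Q, Δ := by rw [Finset.sum_const, nsmul_eq_mul, mul_comm]
      _ ≤ ∑ q ∈ Q, (∑ p ∈ P, ∑ t ∈ Ico 1 (p - 1), (c p t : ℂ) * (ech p (m * q)) ^ t).re :=
          Finset.sum_le_sum hlow
      _ = (∑ q ∈ Q, ∑ p ∈ P, ∑ t ∈ Ico 1 (p - 1), (c p t : ℂ) * (ech p (m * q)) ^ t).re := by
          rw [Complex.re_sum]
      _ = (∑ i ∈ IX P, (c i.1 i.2 : ℂ) * (ech i.1 m) ^ i.2 * ∑ q ∈ Q, χ i q).re := by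
          congr 1
          simp only [IX, Finset.sum_sigma, Finset.mul_sum]
          rw [Finset.sum_comm]
          refine Finset.sum_congr rfl fun p hp => ?_
          rw [Finset.sum_comm]
          refine Finset.sum_congr rfl fun t _ => Finset.sum_congr rfl fun q _ => ?_
          have hpp := (mem_Px.1 (hP hp)).1
          rw [hχ]
          simp only [chi]
          rw [ech_mul hpp, mul_pow]
          ring
      _ ≤ ‖∑ i ∈ IX P, (c i.1 i.2 : ℂ) * (ech i.1 m) ^ i.2 * ∑ q ∈ Q, χ i q‖ :=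
          Complex.re_le_norm _
      _ ≤ ∑ i ∈ IX P, w i * ‖∑ q ∈ Q, χ i q‖ := by
          refine (norm_sum_le _ _).trans (Finset.sum_le_sum fun i hi => ?_)
          rw [norm_mul, norm_mul, Complex.norm_real, Real.norm_eq_abs, norm_pow]
          have h2 : ‖ech i.1 m‖ ^ i.2 ≤ 1 :=
            pow_le_one₀ (norm_nonneg _) (ech_norm_le (IX_IsI hP hi).1 m)
          have h3 : |c i.1 i.2| * ‖ech i.1 m‖ ^ i.2 ≤ w i :=
            mul_le_of_le_one_right (abs_nonneg _) h2
          exact mul_le_mul_of_nonneg_right h3 (norm_nonneg _)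
  have hsw : ∑ i ∈ IX P, w i ≤ V := by
    refine le_trans ?_ hV
    rw [IX, Finset.sum_sigma]
    calc ∑ p ∈ P, ∑ t ∈ Ico 1 (p - 1), |c p t| ≤ ∑ p ∈ P, v := Finset.sum_le_sum hc
      _ = v * #P := by rw [Finset.sum_const, nsmul_eq_mul, mul_comm]
  have hsw0 : 0 ≤ ∑ i ∈ IX P, w i := Finset.sum_nonneg hw0
  have hwv : ∀ i ∈ IX P, w i ≤ v := by
    intro i hi
    rw [IX, mem_sigma] at hi
    refine le_trans ?_ (hc i.1 hi.1)
    exact Finset.single_le_sum (f := fun t => |c i.1 t|) (fun _ _ => abs_nonneg _) hi.2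
  have hsw2 : ∑ i ∈ IX P, w i ^ 2 ≤ v * V := by
    calc ∑ i ∈ IX P, w i ^ 2 ≤ ∑ i ∈ IX P, v * w i := by
          refine Finset.sum_le_sum fun i hi => ?_
          rw [sq]
          exact mul_le_mul_of_nonneg_right (hwv i hi) (hw0 i hi)
      _ = v * ∑ i ∈ IX P, w i := by rw [Finset.mul_sum]
      _ ≤ v * V := mul_le_mul_of_nonneg_left hsw hv
  have hL := L1HMgen Q R k N Y hQ hk hY hN (IX P) w hw0 χ
    (fun i hi => chi_one (IX_IsI hP hi)) (fun i hi => chi_mul (IX_IsI hP hi))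
    (fun i hi => chi_norm_le (IX_IsI hP hi)) ((x : ℝ) * (1 + 2 * Real.log x)) (by (clear * - hx; positivity))
    (fun i hi j hj hij => orthPV x _ _ (IX_IsI hP hi) (IX_IsI hP hj) (by
      intro h
      apply hij
      have h1 := congrArg Prod.fst h
      have h2 := congrArg Prod.snd h
      obtain ⟨a, b⟩ := i
      obtain ⟨a', b'⟩ := j
      simp only at h1 h2
      subst h1; subst h2; rfl) N)
  have hV0 : 0 ≤ V := hsw0.trans hsw
  calc (Δ * #Q) ^ (2 * k) ≤ (∑ i ∈ IX P, w i * ‖∑ q ∈ Q, χ i q‖) ^ (2 * k) :=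
        pow_le_pow_left₀ (by (clear * - hΔ; positivity)) h1 _
    _ ≤ _ := hL
    _ ≤ _ := by
        refine mul_le_mul (pow_le_pow_left₀ hsw0 hsw _) ?_ (by (clear * - hR0 hx; positivity)) (by (clear * - hV0; positivity))
        refine mul_le_mul_of_nonneg_left ?_ (by (clear * - hR0; positivity))
        refine add_le_add (mul_le_mul_of_nonneg_left hsw2 (Nat.cast_nonneg N)) ?_
        refine mul_le_mul_of_nonneg_right ?_ (by (clear * - hx; positivity))
        exact pow_le_pow_left₀ hsw0 hsw 2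

/-- Rearranged version. -/
lemma one_side_gen' (x : ℕ) (P : Finset ℕ) (hP : P ⊆ Px x) (c : ℕ → ℕ → ℝ) (v : ℝ)
    (hc : ∀ p ∈ P, ∑ t ∈ Ico 1 (p - 1), |c p t| ≤ v) (m : ℕ) (Q : Finset ℕ) (R : ℝ)
    (Y k N : ℕ) (hQ : ∀ n, (#{t ∈ Fintype.piFinset (fun _ : Fin k => Q) | ∏ i, t i = n} : ℝ) ≤ R)
    (hk : 1 ≤ k) (hY : ∀ q ∈ Q, q ≤ Y) (hN : Y ^ k < N)
    (Δ : ℝ) (hΔ : 0 < Δ)
    (hlow : ∀ q ∈ Q, Δ ≤ (∑ p ∈ P, ∑ t ∈ Ico 1 (p - 1), (c p t : ℂ) * (ech p (m * q)) ^ t).re)
    (V : ℝ) (hV : v * #P ≤ V) (hv : 0 ≤ v) (hx : 1 ≤ x) (hV0 : 0 < V) :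
    (#Q : ℝ) ^ k ≤ (V / Δ) ^ (2 * k) * (R *
      ((N : ℝ) * (v / V) + (x : ℝ) * (1 + 2 * Real.log x))) := by
  have hR0 : 0 ≤ R := le_trans (Nat.cast_nonneg _) (hQ 0)
  rcases Nat.eq_zero_or_pos (#Q) with h0 | hpos
  · have hlogx : 0 ≤ Real.log x := Real.log_nonneg (by exact_mod_cast hx)
    rw [h0, Nat.cast_zero, zero_pow (by omega)]
    (clear * - hV0 hΔ hR0 hv hx; positivity)
  have hQpos : (0 : ℝ) < (#Q : ℝ) ^ k := by
    have : (0 : ℝ) < #Q := by exact_mod_cast hpos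
    (clear * - hpos; positivity)
  have h := one_side_gen x P hP c v hc m Q R Y k N hQ hk hY hN Δ hΔ.le hlow V hV hv hx
  have hVk : V ^ (2 * k - 2) * V ^ 2 = V ^ (2 * k) := by
    rw [← pow_add]
    congr 1
    omega
  have e1 : (Δ * (#Q : ℝ)) ^ (2 * k) = Δ ^ (2 * k) * ((#Q : ℝ) ^ k * (#Q : ℝ) ^ k) := by
    rw [mul_pow, ← pow_add]
    congr 2
    omega
  have e2 : V ^ (2 * k - 2) * (R * (#Q : ℝ) ^ k *
      ((N : ℝ) * (v * V) + V ^ 2 * ((x : ℝ) * (1 + 2 * Real.log x)))) =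
      (#Q : ℝ) ^ k * (V ^ (2 * k) * (R *
      ((N : ℝ) * (v / V) + (x : ℝ) * (1 + 2 * Real.log x)))) := by
    rw [← hVk]
    (clear * - hV0 hv hx hpos; field_simp)
  rw [e1, e2] at h
  have h2 : Δ ^ (2 * k) * (#Q : ℝ) ^ k ≤ V ^ (2 * k) * (R *
      ((N : ℝ) * (v / V) + (x : ℝ) * (1 + 2 * Real.log x))) := by
    refine le_of_mul_le_mul_left ?_ hQpos
    calc (#Q : ℝ) ^ k * (Δ ^ (2 * k) * (#Q : ℝ) ^ k) = Δ ^ (2 * k) * ((#Q : ℝ) ^ k * (#Q : ℝ) ^ k) := by
          ring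
      _ ≤ _ := h
  rw [div_pow, div_mul_eq_mul_div, le_div_iff₀ (by positivity)]
  calc (#Q : ℝ) ^ k * Δ ^ (2 * k) = Δ ^ (2 * k) * (#Q : ℝ) ^ k := by ring
    _ ≤ _ := h2

/-- Extraction of the `k`-th root, rough version. -/
lemma root_bound_gen (x Y : ℕ) (hx : 3 ≤ x) (hY : 2 ≤ Y) (hL : 1 ≤ Real.log x) (q W r : ℝ)
    (hW : 0 ≤ W) (hr : 0 ≤ r)
    (h : q ^ (Nat.clog Y (x ^ 2)) ≤ W ^ (2 * Nat.clog Y (x ^ 2)) *
      (r ^ (Nat.clog Y (x ^ 2)) *
      (((Y ^ (Nat.clog Y (x ^ 2)) + 1 : ℕ) : ℝ) * (2 * Real.log x / x) +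
        (x : ℝ) * (1 + 2 * Real.log x)))) :
    q ≤ W ^ 2 * r * Y *
      (7 * Real.log x / x) ^ (1 / ((Nat.clog Y (x ^ 2) : ℕ) : ℝ)) := by
  set k := Nat.clog Y (x ^ 2) with hk
  have hY1 : 1 < Y := by omega
  have hkpos : 0 < k := Nat.clog_pos hY1 (by nlinarith only [hx])
  have hxY : x ^ 2 ≤ Y ^ k := Nat.le_pow_clog hY1 _
  have hxr : (0 : ℝ) < x := by positivity
  have hYk : ((x : ℝ)) ^ 2 ≤ (Y : ℝ) ^ k := by exact_mod_cast hxY
  have hYk1 : (1 : ℝ) ≤ (Y : ℝ) ^ k := one_le_pow₀ (by exact_mod_cast hY1.le)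
  have hρ : 0 ≤ 7 * Real.log x / x := by positivity
  set L := Real.log x with hLdef
  have h1 : ((Y ^ k + 1 : ℕ) : ℝ) * (2 * L / x) + (x : ℝ) * (1 + 2 * L) ≤
      (Y : ℝ) ^ k * (7 * L / x) := by
    push_cast
    have h2 : ((Y : ℝ) ^ k + 1) * (2 * L / x) ≤ (Y : ℝ) ^ k * (4 * L / x) := by
      have : ((Y : ℝ) ^ k + 1) * (2 * L / x) ≤ (2 * (Y : ℝ) ^ k) * (2 * L / x) :=
        mul_le_mul_of_nonneg_right (by linarith only [hYk1]) (by positivity)
      refine this.trans (le_of_eq (by ring))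
    have h3 : (x : ℝ) * (1 + 2 * L) ≤ (Y : ℝ) ^ k * (3 * L / x) := by
      calc (x : ℝ) * (1 + 2 * L) ≤ (x : ℝ) * (3 * L) :=
            mul_le_mul_of_nonneg_left (by linarith only [hL]) hxr.le
        _ = (x : ℝ) ^ 2 * (3 * L / x) := by field_simp
        _ ≤ _ := mul_le_mul_of_nonneg_right hYk (by positivity)
    calc _ ≤ (Y : ℝ) ^ k * (4 * L / x) + (Y : ℝ) ^ k * (3 * L / x) := add_le_add h2 h3
      _ = _ := by ring
  have h4 : q ^ k ≤ (W ^ 2 * r * Y * (7 * L / x) ^ (1 / (k : ℝ))) ^ k := by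
    have e : ((7 * L / x) ^ (1 / (k : ℝ))) ^ k = 7 * L / x := by
      rw [one_div]
      exact Real.rpow_inv_natCast_pow hρ hkpos.ne'
    rw [mul_pow, mul_pow, mul_pow, e, ← pow_mul]
    calc q ^ k ≤ _ := h
      _ ≤ W ^ (2 * k) * (r ^ k * ((Y : ℝ) ^ k * (7 * L / x))) := by
          refine mul_le_mul_of_nonneg_left ?_ (by (clear * - hW; positivity))
          exact mul_le_mul_of_nonneg_left h1 (by (clear * - hr; positivity))
      _ = _ := by ring
  exact le_of_pow_le_pow_left₀ hkpos.ne' (by (clear * - hr hY hL hx; positivity)) h4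

/-- Count for one sign, rough version. -/
lemma side_count_gen (x Y m z : ℕ) (hx : 3 ≤ x) (hY : 2 ≤ Y) (hz : 2 ≤ z) (hL : 1 ≤ Real.log x)
    (P : Finset ℕ) (hP : P ⊆ Px x) (v : ℝ) (hv1 : 1 ≤ v) (c : ℕ → ℕ → ℝ)
    (hc : ∀ p ∈ P, ∑ t ∈ Ico 1 (p - 1), |c p t| ≤ v)
    (hpi : (x : ℝ) / (2 * Real.log x) ≤ #(Px x)) (Δ W : ℝ) (hΔ : 0 < Δ)
    (hW : v * #(Px x) / Δ ≤ W) (Q : Finset ℕ)
    (hQ : ∀ q ∈ Q, 1 ≤ q ∧ q ≤ Y ∧ ∀ p : ℕ, p.Prime → p ∣ q → z ≤ p)
    (hlow : ∀ q ∈ Q, Δ ≤ (∑ p ∈ P, ∑ t ∈ Ico 1 (p - 1), (c p t : ℂ) * (ech p (m * q)) ^ t).re) :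
    (#Q : ℝ) ≤ W ^ 2 * (((Nat.clog Y (x ^ 2) : ℕ) : ℝ) ^ (Real.log Y / Real.log z)) * Y *
      (7 * Real.log x / x) ^ (1 / ((Nat.clog Y (x ^ 2) : ℕ) : ℝ)) := by
  have hxr : (0 : ℝ) < x := by positivity
  have hpi0 : (0 : ℝ) < #(Px x) := lt_of_lt_of_le (by positivity) hpi
  have hVpos : 0 < v * #(Px x) := by (clear * - hv1 hpi0; positivity)
  have hW0 : 0 ≤ W := le_trans (by (clear * - hv1 hpi0 hΔ; positivity)) hW
  have hk : 1 ≤ Nat.clog Y (x ^ 2) := Nat.clog_pos (by omega) (by nlinarith only [hx])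
  have hPc : (#P : ℝ) ≤ #(Px x) := by exact_mod_cast Finset.card_le_card hP
  have hmult := rough_mult Q (Nat.clog Y (x ^ 2)) Y z hk hz hQ
  have h := one_side_gen' x P hP c v hc m Q _ Y (Nat.clog Y (x ^ 2))
    (Y ^ (Nat.clog Y (x ^ 2)) + 1) hmult hk
    (fun q hq => (hQ q hq).2.1) (Nat.lt_succ_self _) Δ hΔ hlow (v * #(Px x))
    (mul_le_mul_of_nonneg_left hPc (by linarith only [hv1])) (by linarith only [hv1]) (by omega) hVpos
  refine root_bound_gen x Y hx hY hL (#Q : ℝ) W _ hW0 (by positivity) (h.trans ?_)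
  have h1 : v / (v * #(Px x)) ≤ 2 * Real.log x / x := by
    rw [div_mul_eq_div_div, div_self (by linarith only [hv1] : v ≠ 0)]
    rw [div_le_div_iff₀ hpi0 hxr]
    rw [div_le_iff₀ (by positivity)] at hpi
    linarith only [hpi]
  refine mul_le_mul (pow_le_pow_left₀ (by (clear * - hv1 hpi0 hΔ; positivity)) hW _) ?_ (by (clear * - hk hY hv1 hpi0 hx hL; positivity)) (by (clear * - hW0; positivity))
  refine mul_le_mul_of_nonneg_left ?_ (by positivity)
  refine add_le_add ?_ le_rfl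
  exact mul_le_mul_of_nonneg_left h1 (Nat.cast_nonneg _)

end Vale.Agent.P016
end
end

section

section

open Finset Nat

namespace Vale.Agent.P016.BT.Selberg

/-- the part of `n` composed of primes dividing `k` -/
def kpart (k n : ℕ) : ℕ := (n.primeFactorsList.filter (fun p => p ∣ k)).prod
/-- the part of `n` composed of primes not dividing `k` -/
def kcopart (k n : ℕ) : ℕ := (n.primeFactorsList.filter (fun p => ¬ p ∣ k)).prod

lemma kpart_mul (k n : ℕ) (hn : n ≠ 0) : kpart k n * kcopart k n = n := by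
  unfold kpart kcopart
  rw [← List.prod_append]
  have h := (List.filter_append_perm (fun p => decide (p ∣ k)) n.primeFactorsList).prod_eq
  have h2 : List.filter (fun x => !decide (x ∣ k)) n.primeFactorsList =
      List.filter (fun p => decide (¬ p ∣ k)) n.primeFactorsList := by
    congr 1
    funext x
    by_cases hx : x ∣ k <;> simp [hx]
  rw [h2] at h
  rw [h, Nat.prod_primeFactorsList hn]

lemma kpart_mem (k n : ℕ) (hk : k ≠ 0) (hn : n ≠ 0) : kpart k n ∈ Nat.factoredNumbers k.primeFactors := by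
  rw [Nat.mem_factoredNumbers_iff_forall_le]
  have h0 : kpart k n ≠ 0 := by
    intro h
    have := kpart_mul k n hn
    rw [h] at this; omega
  refine ⟨h0, fun p _ hp hpd => ?_⟩
  unfold kpart at hpd
  obtain ⟨q, hq, hpq⟩ := (Prime.dvd_prod_iff hp.prime).1 hpd
  rw [List.mem_filter] at hq
  have hqp := Nat.prime_of_mem_primeFactorsList hq.1
  have : p = q := (Nat.prime_dvd_prime_iff_eq hp hqp).1 hpq
  rw [Nat.mem_primeFactors]
  refine ⟨hp, ?_, hk⟩
  rw [this]; simpa using hq.2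

lemma kcopart_coprime (k n : ℕ) : Nat.Coprime (kcopart k n) k := by
  rw [Nat.coprime_iff_gcd_eq_one]
  by_contra hne
  obtain ⟨p, hp, hpd⟩ := Nat.exists_prime_and_dvd hne
  have h1 : p ∣ kcopart k n := hpd.trans (Nat.gcd_dvd_left _ _)
  have h2 : p ∣ k := hpd.trans (Nat.gcd_dvd_right _ _)
  unfold kcopart at h1
  obtain ⟨q, hq, hpq⟩ := (Prime.dvd_prod_iff hp.prime).1 h1
  rw [List.mem_filter] at hq
  have hqp := Nat.prime_of_mem_primeFactorsList hq.1
  have : p = q := (Nat.prime_dvd_prime_iff_eq hp hqp).1 hpq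
  have h3 := hq.2
  simp only [decide_eq_true_eq] at h3
  rw [← this] at h3
  exact h3 h2

lemma cm_inv (n : ℕ) (hn : n ≠ 0) : cm (fun p => (p:ℝ)⁻¹) n = (n : ℝ)⁻¹ := by
  rw [cm_apply hn]
  conv_rhs => rw [← Nat.prod_primeFactorsList hn]
  rw [Nat.cast_list_prod, List.prod_inv, List.map_map]
  rfl

/-- `∑_{a ≤ y, (a,k)=1} 1/a ≥ (φ(k)/k) ∑_{a ≤ y} 1/a`. -/
theorem coprime_sum_ge (k y : ℕ) (hk : k ≠ 0) :
    (k.totient : ℝ) / k * ∑ n ∈ Icc 1 y, (n:ℝ)⁻¹ ≤
      ∑ a ∈ (Icc 1 y).filter (fun a => Nat.Coprime a k), (a:ℝ)⁻¹ := by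
  set A := (Icc 1 y).filter (fun a => Nat.Coprime a k) with hA
  set D := (Icc 1 y).image (fun n => kpart k n) with hD
  have h1 : ∑ n ∈ Icc 1 y, (n:ℝ)⁻¹ ≤ (∑ d ∈ D, (d:ℝ)⁻¹) * ∑ a ∈ A, (a:ℝ)⁻¹ := by
    rw [Finset.sum_mul_sum, ← Finset.sum_product']
    have hinj : Set.InjOn (fun n => (kpart k n, kcopart k n)) ((Icc 1 y : Finset ℕ) : Set ℕ) := by
      intro a ha b hb hab
      have ha0 : a ≠ 0 := by have := (Finset.mem_Icc.1 (Finset.mem_coe.1 ha)).1; omega
      have hb0 : b ≠ 0 := by have := (Finset.mem_Icc.1 (Finset.mem_coe.1 hb)).1; omega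
      have e1 := kpart_mul k a ha0
      have e2 := kpart_mul k b hb0
      have := Prod.mk.inj hab
      rw [← e1, ← e2, this.1, this.2]
    have h2 : ∀ n ∈ Icc 1 y, (n:ℝ)⁻¹ = ((kpart k n : ℝ))⁻¹ * ((kcopart k n : ℝ))⁻¹ := by
      intro n hn
      have hn0 : n ≠ 0 := by have := (Finset.mem_Icc.1 hn).1; omega
      rw [← mul_inv, ← Nat.cast_mul, kpart_mul k n hn0]
    rw [Finset.sum_congr rfl h2]
    rw [← Finset.sum_image (g := fun n => (kpart k n, kcopart k n))
      (f := fun x : ℕ × ℕ => (x.1:ℝ)⁻¹ * (x.2:ℝ)⁻¹) hinj]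
    apply Finset.sum_le_sum_of_subset_of_nonneg
    · intro x hx
      obtain ⟨n, hn, rfl⟩ := Finset.mem_image.1 hx
      have hn1 := Finset.mem_Icc.1 hn
      have hn0 : n ≠ 0 := by omega
      have e1 := kpart_mul k n hn0
      have hc0 : kcopart k n ≠ 0 := by
        intro h; rw [h] at e1; omega
      rw [Finset.mem_product]
      refine ⟨Finset.mem_image_of_mem _ hn, ?_⟩
      rw [hA, Finset.mem_filter, Finset.mem_Icc]
      refine ⟨⟨Nat.one_le_iff_ne_zero.2 hc0, ?_⟩, kcopart_coprime k n⟩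
      have : kcopart k n ∣ n := ⟨kpart k n, by rw [mul_comm]; exact e1.symm⟩
      exact (Nat.le_of_dvd (by omega) this).trans hn1.2
    · intro x _ _
      (clear * -; positivity)
  have h3 : ∑ d ∈ D, (d:ℝ)⁻¹ ≤ (k : ℝ) / k.totient := by
    have h4 : ∑ d ∈ D, (d:ℝ)⁻¹ ≤ ∑ d ∈ D, cm (fun p => if p ∣ k then (p:ℝ)⁻¹ else 0) d := by
      apply Finset.sum_le_sum
      intro d hd
      obtain ⟨n, hn, rfl⟩ := Finset.mem_image.1 hd
      have hn0 : n ≠ 0 := by have := (Finset.mem_Icc.1 hn).1; omega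
      have hm := kpart_mem k n hk hn0
      have h0 : kpart k n ≠ 0 := by
        have := kpart_mul k n hn0
        intro h; rw [h] at this; omega
      rw [← cm_inv _ h0, cm_apply h0, cm_apply h0]
      apply le_of_eq
      congr 1
      apply List.map_congr_left
      intro p hp
      have hpk : p ∣ k := by
        rw [Nat.mem_factoredNumbers] at hm
        exact Nat.dvd_of_mem_primeFactors (hm.2 p hp)
      simp [hpk]
    refine h4.trans ?_
    have h0' : ∀ p : ℕ, p.Prime → (0:ℝ) ≤ (if p ∣ k then (p:ℝ)⁻¹ else 0) := by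
      intro p _; split_ifs <;> (clear * -; positivity)
    have h1' : ∀ p : ℕ, p.Prime → (if p ∣ k then (p:ℝ)⁻¹ else 0) < 1 := by
      intro p hp
      split_ifs
      · exact inv_lt_one_of_one_lt₀ (by exact_mod_cast hp.one_lt)
      · exact zero_lt_one
    have h5 := cm_euler_le h0' h1' k.primeFactors D (by
      intro d hd
      obtain ⟨n, hn, rfl⟩ := Finset.mem_image.1 hd
      have hn0 : n ≠ 0 := by have := (Finset.mem_Icc.1 hn).1; omega
      exact kpart_mem k n hk hn0)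
    refine h5.trans (le_of_eq ?_)
    rw [Finset.filter_true_of_mem (fun p hp => Nat.prime_of_mem_primeFactors hp)]
    have h6 : ∏ p ∈ k.primeFactors, (1 - (if p ∣ k then (p:ℝ)⁻¹ else 0))⁻¹ =
        (∏ p ∈ k.primeFactors, (1 - (p:ℝ)⁻¹))⁻¹ := by
      rw [← Finset.prod_inv_distrib]
      apply Finset.prod_congr rfl
      intro p hp
      simp [Nat.dvd_of_mem_primeFactors hp]
    rw [h6]
    have h7 := Nat.totient_eq_mul_prod_factors k
    have h8 : (k.totient : ℝ) = k * ∏ p ∈ k.primeFactors, (1 - (p:ℝ)⁻¹) := by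
      have := congrArg (fun q : ℚ => (q : ℝ)) h7
      push_cast at this
      exact this
    have hk' : (k:ℝ) ≠ 0 := by exact_mod_cast hk
    have ht : (k.totient : ℝ) ≠ 0 := by
      have := Nat.totient_pos.2 (Nat.pos_of_ne_zero hk)
      exact_mod_cast this.ne'
    have hprod : (∏ p ∈ k.primeFactors, (1 - (p:ℝ)⁻¹)) ≠ 0 := by
      intro h; rw [h, mul_zero] at h8; exact ht h8
    rw [h8]
    (clear * - hk'; field_simp)
  have hA0 : 0 ≤ ∑ a ∈ A, (a:ℝ)⁻¹ := Finset.sum_nonneg (fun _ _ => by (clear * -; positivity))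
  have hk' : (0:ℝ) < k := by exact_mod_cast Nat.pos_of_ne_zero hk
  have ht : (0:ℝ) < k.totient := by exact_mod_cast Nat.totient_pos.2 (Nat.pos_of_ne_zero hk)
  calc (k.totient : ℝ) / k * ∑ n ∈ Icc 1 y, (n:ℝ)⁻¹
      ≤ (k.totient : ℝ) / k * (((k : ℝ) / k.totient) * ∑ a ∈ A, (a:ℝ)⁻¹) := by
        gcongr
        exact h1.trans (by (clear * - h3; gcongr))
    _ = ∑ a ∈ A, (a:ℝ)⁻¹ := by field_simp

end Vale.Agent.P016.BT.Selberg
end
end

section

section

open Finset Nat ArithmeticFunction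

namespace Vale.Agent.P016.BT.Selberg

open BoundingSieve

lemma class_count (N r c : ℕ) (hr : 0 < r) :
    |(((Icc 1 N).filter (fun n => n ≡ c [MOD r])).card : ℝ) - (N:ℝ) / r| ≤ 1 := by
  have h := Nat.Ioc_filter_modEq_card 0 N hr c
  have hI : Ioc 0 N = Icc 1 N := by ext x; simp only [mem_Ioc, mem_Icc, and_congr_left_iff]; omega
  rw [hI] at h
  have hr' : (0:ℚ) < r := by exact_mod_cast hr
  set A : ℚ := ((N:ℚ) - c) / r with hA
  set B : ℚ := (((0:ℕ):ℚ) - c) / r with hB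
  have hAB : A - B = N / r := by rw [hA, hB]; push_cast; ring
  have hN0 : (0:ℚ) ≤ N / r := by (clear * - hr; positivity)
  have h1 := Int.floor_le A
  have h2 := Int.lt_floor_add_one A
  have h3 := Int.floor_le B
  have h4 := Int.lt_floor_add_one B
  have hmono : ⌊B⌋ ≤ ⌊A⌋ := Int.floor_le_floor (by linarith only [hAB, hN0])
  rw [max_eq_left (by omega)] at h
  have h' : ((((Icc 1 N).filter (fun n => n ≡ c [MOD r])).card : ℕ) : ℚ) = (⌊A⌋ : ℚ) - ⌊B⌋ := by
    have := congrArg (fun x : ℤ => (x:ℚ)) h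
    push_cast at this
    exact this
  have h5 : |((((Icc 1 N).filter (fun n => n ≡ c [MOD r])).card : ℕ) : ℚ) - (N:ℚ) / r| ≤ 1 := by
    rw [h', abs_le]
    constructor <;> linarith only [hAB, h2, h3, h1, h4]
  have h6 := (Rat.cast_le (K := ℝ)).2 h5
  push_cast at h6
  exact h6


/-- there is one residue class solving both divisibility conditions. -/
lemma exists_class {m d1 d2 : ℕ} (h12 : Nat.Coprime d1 d2) (h2 : Nat.Coprime d2 m) (hd2 : d2 ≠ 0) :
    ∃ c, ∀ n, (d1 ∣ n ∧ d2 ∣ m * n + 1) ↔ n ≡ c [MOD d1 * d2] := by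
  -- find `b` with `m b + 1 ≡ 0 mod d2`
  obtain ⟨b, hb⟩ : ∃ b, d2 ∣ m * b + 1 := by
    by_cases h1 : d2 = 1
    · exact ⟨0, by simp [h1]⟩
    have hlt : 1 < d2 := by omega
    obtain ⟨y, hy⟩ := Nat.exists_mul_mod_eq_one_of_coprime h2.symm hlt
    refine ⟨y * (d2 - 1), ?_⟩
    have e1 : m * y ≡ 1 [MOD d2] := by
      unfold Nat.ModEq; rw [hy.2, Nat.mod_eq_of_lt hlt]
    have e2 : m * (y * (d2 - 1)) + 1 ≡ 1 * (d2 - 1) + 1 [MOD d2] := by
      rw [← mul_assoc]
      exact (e1.mul_right _).add_right 1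
    have e3 : 1 * (d2 - 1) + 1 = d2 := by omega
    rw [e3] at e2
    exact (Nat.modEq_zero_iff_dvd).1 (e2.trans (by simp [Nat.ModEq]))
  obtain ⟨c, hc1, hc2⟩ := Nat.chineseRemainder h12 0 b
  refine ⟨c, fun n => ?_⟩
  rw [← Nat.modEq_and_modEq_iff_modEq_mul h12]
  have h3 : d1 ∣ n ↔ n ≡ c [MOD d1] := by
    rw [← Nat.modEq_zero_iff_dvd]
    exact ⟨fun h => h.trans hc1.symm, fun h => h.trans hc1⟩
  have h4 : d2 ∣ m * n + 1 ↔ n ≡ c [MOD d2] := by
    have hb' : m * b + 1 ≡ 0 [MOD d2] := (Nat.modEq_zero_iff_dvd).2 hb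
    constructor
    · intro h
      have h' : m * n + 1 ≡ 0 [MOD d2] := (Nat.modEq_zero_iff_dvd).2 h
      have h5 : m * n ≡ m * b [MOD d2] := Nat.ModEq.add_right_cancel' 1 (h'.trans hb'.symm)
      exact (Nat.ModEq.cancel_left_of_coprime h2 h5).trans hc2.symm
    · intro h
      rw [← Nat.modEq_zero_iff_dvd]
      exact (((h.trans hc2).mul_left m).add_right 1).trans hb'
  rw [h3, h4]


end Vale.Agent.P016.BT.Selberg
end
end

section

section

open Finset Nat ArithmeticFunction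

namespace Vale.Agent.P016.BT.Selberg

open BoundingSieve


lemma squarefree_prod_primes (S : Finset ℕ) (hS : ∀ p ∈ S, p.Prime) : Squarefree (∏ p ∈ S, p) := by
  apply Finset.squarefree_prod_of_pairwise_isCoprime
  · intro p hp q hq hne
    exact (Nat.coprime_iff_isRelPrime).1 ((Nat.coprime_primes (hS p hp) (hS q hq)).2 hne)
  · intro p hp
    exact (hS p hp).squarefree

lemma prime_dvd_prod_primes {S : Finset ℕ} (hS : ∀ p ∈ S, p.Prime) {p : ℕ} (hp : p.Prime) :
    p ∣ ∏ q ∈ S, q ↔ p ∈ S := by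
  constructor
  · intro h
    obtain ⟨q, hq, hpq⟩ := (Prime.dvd_finsetProd_iff hp.prime _).1 h
    rwa [(Nat.prime_dvd_prime_iff_eq hp (hS q hq)).1 hpq]
  · intro h
    exact Finset.dvd_prod_of_mem _ h


lemma harmonic_ge (w : ℕ) : Real.log ((w:ℝ) + 1) ≤ ∑ n ∈ Icc 1 w, (n:ℝ)⁻¹ := by
  have h := log_add_one_le_harmonic w
  rw [harmonic_eq_sum_Icc] at h
  push_cast at h
  exact h


end Vale.Agent.P016.BT.Selberg
end
end

section

section

open Finset Nat ArithmeticFunction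

namespace Vale.Agent.P016.BT.Selberg

open BoundingSieve

/-- primes up to `z` not dividing `Q` -/
def btPrimes (Q z : ℕ) : Finset ℕ := (Icc 1 z).filter (fun p => p.Prime ∧ ¬ p ∣ Q)

lemma mem_btPrimes {Q z p : ℕ} : p ∈ btPrimes Q z ↔ p ≤ z ∧ p.Prime ∧ ¬ p ∣ Q := by
  simp only [btPrimes, Finset.mem_filter, Finset.mem_Icc]
  constructor
  · rintro ⟨⟨_, h⟩, h2⟩; exact ⟨h, h2⟩
  · rintro ⟨h, h2⟩; exact ⟨⟨h2.1.one_lt.le, h⟩, h2⟩

lemma btPrimes_prime {Q z : ℕ} : ∀ p ∈ btPrimes Q z, p.Prime := fun _ hp => (mem_btPrimes.1 hp).2.1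

/-- The sieve problem for `Q n + 1`, `n ≤ N`. -/
noncomputable def btSieve (Q N z : ℕ) : BoundingSieve where
  support := (Icc 1 N).image (fun n => Q * n + 1)
  prodPrimes := ∏ p ∈ btPrimes Q z, p
  prodPrimes_squarefree := squarefree_prod_primes _ btPrimes_prime
  weights := fun _ => 1
  weights_nonneg := fun _ => zero_le_one
  totalMass := N
  nu := prodPrimeFactors (fun p => (p:ℝ)⁻¹)
  nu_mult := IsMultiplicative.prodPrimeFactors _
  nu_pos_of_prime := by
    intro p hp _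
    rw [prodPrimeFactors_apply hp.ne_zero, Nat.Prime.primeFactors hp, Finset.prod_singleton]
    have := hp.pos
    positivity
  nu_lt_one_of_prime := by
    intro p hp hpd
    rw [prodPrimeFactors_apply hp.ne_zero, Nat.Prime.primeFactors hp, Finset.prod_singleton]
    exact inv_lt_one_of_one_lt₀ (by exact_mod_cast hp.one_lt)

lemma bt_nu {Q N z d : ℕ} (hd : Squarefree d) : (btSieve Q N z).nu d = (d:ℝ)⁻¹ := by
  change (prodPrimeFactors (fun p => (p:ℝ)⁻¹)) d = _
  rw [prodPrimeFactors_apply hd.ne_zero, Finset.prod_inv_distrib]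
  congr 1
  rw [← Nat.cast_prod, Nat.prod_primeFactors_of_squarefree hd]

lemma bt_coprime {Q N z d : ℕ} (hd : d ∣ (btSieve Q N z).prodPrimes) : Nat.Coprime d Q := by
  apply Nat.Coprime.coprime_dvd_left hd
  change Nat.Coprime (∏ p ∈ btPrimes Q z, p) Q
  apply Nat.Coprime.prod_left
  intro p hp
  have := mem_btPrimes.1 hp
  exact (Nat.Prime.coprime_iff_not_dvd this.2.1).2 this.2.2

lemma bt_rem {Q N z d : ℕ} (hQ : Q ≠ 0) (hd : d ∣ (btSieve Q N z).prodPrimes) :
    |(btSieve Q N z).rem d| ≤ 1 := by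
  have hsq := squarefree_of_dvd_prodPrimes hd
  have hcop := bt_coprime hd
  unfold rem
  rw [bt_nu hsq]
  have hinj : Set.InjOn (fun n => Q * n + 1) ((Icc 1 N : Finset ℕ) : Set ℕ) := by
    intro a _ b _ h
    simp only [Nat.add_right_cancel_iff] at h
    exact Nat.eq_of_mul_eq_mul_left (Nat.pos_of_ne_zero hQ) h
  obtain ⟨c, hc⟩ := exists_class (m := Q) (d1 := 1) (d2 := d) (Nat.coprime_one_left d) hcop hsq.ne_zero
  have h2 : (btSieve Q N z).multSum d =
      (((Icc 1 N).filter (fun n => n ≡ c [MOD d])).card : ℝ) := by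
    unfold multSum
    change ∑ x ∈ (Icc 1 N).image (fun n => Q * n + 1), (if d ∣ x then (1:ℝ) else 0) = _
    rw [Finset.sum_image hinj]
    have : (Icc 1 N).filter (fun n => n ≡ c [MOD d]) = (Icc 1 N).filter (fun n => d ∣ Q * n + 1) := by
      apply Finset.filter_congr
      intro n _
      have := hc n
      rw [one_mul] at this
      rw [← this]; simp
    rw [this, Finset.card_filter]
    push_cast
    rfl
  rw [h2]
  have := class_count N d c (Nat.pos_of_ne_zero hsq.ne_zero)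
  have e : (btSieve Q N z).totalMass = N := rfl
  rw [e, show (d:ℝ)⁻¹ * N = N / d by ring]
  exact this

lemma bt_SS_ge (Q N z : ℕ) (hQ : Q ≠ 0) :
    (Q.totient : ℝ) / Q * Real.log z ≤ SS (btSieve Q N z) z := by
  refine le_trans ?_ (le_SS (s := btSieve Q N z) (z := z))
  have h1 := coprime_sum_ge Q z hQ
  have h2 := harmonic_ge z
  have h3 : Real.log z ≤ ∑ n ∈ Icc 1 z, (n:ℝ)⁻¹ := by
    refine le_trans ?_ h2
    rcases Nat.eq_zero_or_pos z with h0 | h0
    · simp [h0]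
    · apply Real.log_le_log (by exact_mod_cast h0); linarith only []
  have h4 : (Q.totient : ℝ) / Q * Real.log z ≤
      ∑ a ∈ (Icc 1 z).filter (fun a => Nat.Coprime a Q), (a:ℝ)⁻¹ := by
    refine le_trans ?_ h1
    gcongr
  refine h4.trans ?_
  set ω : ℕ → ℝ := fun p => if p ∣ (btSieve Q N z).prodPrimes then (btSieve Q N z).nu p else 0
    with hω
  have h0 : ∀ p, p.Prime → 0 ≤ ω p := by
    intro p hp
    simp only [hω]
    split_ifs with h
    · exact ((btSieve Q N z).nu_pos_of_prime p hp h).le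
    · exact le_rfl
  calc ∑ a ∈ (Icc 1 z).filter (fun a => Nat.Coprime a Q), (a:ℝ)⁻¹
      ≤ ∑ a ∈ (Icc 1 z).filter (fun a => Nat.Coprime a Q), cm ω a := by
        apply Finset.sum_le_sum
        intro a ha
        rw [Finset.mem_filter, Finset.mem_Icc] at ha
        have ha0 : a ≠ 0 := by omega
        rw [← cm_inv a ha0, cm_apply ha0, cm_apply ha0]
        apply le_of_eq
        congr 1
        apply List.map_congr_left
        intro p hp
        have hpp := Nat.prime_of_mem_primeFactorsList hp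
        have hpa := Nat.dvd_of_mem_primeFactorsList hp
        have hpQ : ¬ p ∣ Q := (Nat.Prime.coprime_iff_not_dvd hpp).1 (ha.2.coprime_dvd_left hpa)
        have hd : p ∣ (btSieve Q N z).prodPrimes :=
          (prime_dvd_prod_primes btPrimes_prime hpp).2
            (mem_btPrimes.2 ⟨(Nat.le_of_dvd (by omega) hpa).trans ha.1.2, hpp, hpQ⟩)
        simp only [hω, hd, if_true]
        rw [bt_nu hpp.squarefree]
    _ ≤ _ := Finset.sum_le_sum_of_subset_of_nonneg (Finset.filter_subset _ _)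
        (fun n _ _ => cm_nonneg h0 n)

theorem bt_bound_raw (Q N z : ℕ) (hQ : Q ≠ 0) (hz : 2 ≤ z) :
    (((Icc 1 N).filter (fun n => (Q * n + 1).Prime)).card : ℝ) ≤
      z + ((Q:ℝ) / Q.totient) * N / Real.log z + (z:ℝ) ^ 2 := by
  have hS := bt_SS_ge Q N z hQ
  have hsel := selberg_bound (s := btSieve Q N z) (z := z) (by omega)
  have hlog : 0 < Real.log z := Real.log_pos (by exact_mod_cast (by omega : 1 < z))
  have hQ' : (0:ℝ) < Q := by exact_mod_cast Nat.pos_of_ne_zero hQ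
  have ht' : (0:ℝ) < Q.totient := by exact_mod_cast Nat.totient_pos.2 (Nat.pos_of_ne_zero hQ)
  have hmain : (btSieve Q N z).totalMass / SS (btSieve Q N z) z ≤
      ((Q:ℝ) / Q.totient) * N / Real.log z := by
    change (N:ℝ) / _ ≤ _
    have hpos : 0 < (Q.totient : ℝ) / Q * Real.log z := by (clear * - hQ hlog; positivity)
    calc (N:ℝ) / SS (btSieve Q N z) z ≤ N / ((Q.totient : ℝ) / Q * Real.log z) := by
          gcongr
      _ = _ := by field_simp
  have hcardle : (dset (btSieve Q N z) z).card ≤ z := by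
    have : dset (btSieve Q N z) z ⊆ Icc 1 z := by
      intro d hd
      have := mem_dset.1 hd
      rw [Finset.mem_Icc]
      exact ⟨Nat.pos_of_dvd_of_pos this.1 (Nat.pos_of_ne_zero prodPrimes_ne_zero), this.2⟩
    have := Finset.card_le_card this
    rw [Nat.card_Icc] at this
    omega
  have hcard : ((dset (btSieve Q N z) z).card : ℝ) ≤ z := by exact_mod_cast hcardle
  have herr : ∑ d1 ∈ dset (btSieve Q N z) z, ∑ d2 ∈ dset (btSieve Q N z) z,
      |(btSieve Q N z).rem (Nat.lcm d1 d2)| ≤ (z:ℝ) ^ 2 := by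
    calc _ ≤ ∑ d1 ∈ dset (btSieve Q N z) z, ∑ d2 ∈ dset (btSieve Q N z) z, (1:ℝ) :=
          Finset.sum_le_sum fun d1 h1 => Finset.sum_le_sum fun d2 h2 =>
            bt_rem hQ (Nat.lcm_dvd (mem_dset.1 h1).1 (mem_dset.1 h2).1)
      _ = ((dset (btSieve Q N z) z).card : ℝ) * ((dset (btSieve Q N z) z).card : ℝ) := by
          simp only [Finset.sum_const, nsmul_eq_mul, mul_one]
      _ ≤ z * z := by (clear * - hcard hz; gcongr)
      _ = (z:ℝ)^2 := by ring
  have hcount : (((Icc 1 N).filter (fun n => (Q * n + 1).Prime)).card : ℝ) ≤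
      z + (btSieve Q N z).siftedSum := by
    have hinj : Set.InjOn (fun n => Q * n + 1) ((Icc 1 N : Finset ℕ) : Set ℕ) := by
      intro a _ b _ h
      simp only [Nat.add_right_cancel_iff] at h
      exact Nat.eq_of_mul_eq_mul_left (Nat.pos_of_ne_zero hQ) h
    have hsift : (btSieve Q N z).siftedSum =
        (((Icc 1 N).filter (fun n => Nat.Coprime (btSieve Q N z).prodPrimes
          (Q * n + 1))).card : ℝ) := by
      unfold siftedSum
      change ∑ x ∈ (Icc 1 N).image (fun n => Q * n + 1),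
        (if Nat.Coprime (btSieve Q N z).prodPrimes x then (1:ℝ) else 0) = _
      rw [Finset.sum_image hinj, Finset.card_filter]
      push_cast
      rfl
    rw [hsift]
    have hsub : (Icc 1 N).filter (fun n => (Q * n + 1).Prime) ⊆
        (Icc 1 z) ∪ (Icc 1 N).filter (fun n => Nat.Coprime (btSieve Q N z).prodPrimes
          (Q * n + 1)) := by
      intro q hq
      rw [Finset.mem_filter] at hq
      rw [Finset.mem_union]
      by_cases hqz : q ≤ z
      · left; rw [Finset.mem_Icc]; exact ⟨(Finset.mem_Icc.1 hq.1).1, hqz⟩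
      · right
        rw [Finset.mem_filter]
        refine ⟨hq.1, ?_⟩
        change Nat.Coprime (∏ p ∈ btPrimes Q z, p) _
        apply Nat.Coprime.prod_left
        intro p hp
        have hp' := mem_btPrimes.1 hp
        rw [Nat.coprime_primes hp'.2.1 hq.2]
        have : q ≤ Q * q := Nat.le_mul_of_pos_left q (Nat.pos_of_ne_zero hQ)
        omega
    have h1 := Finset.card_le_card hsub
    have h2 := Finset.card_union_le (Icc 1 z) ((Icc 1 N).filter (fun n =>
      Nat.Coprime (btSieve Q N z).prodPrimes (Q * n + 1)))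
    rw [Nat.card_Icc] at h2
    have h3 : ((Icc 1 N).filter (fun n => (Q * n + 1).Prime)).card ≤
      z + ((Icc 1 N).filter (fun n => Nat.Coprime (btSieve Q N z).prodPrimes
          (Q * n + 1))).card := by omega
    exact_mod_cast h3
  linarith only [hsel, hmain, herr, hcount]

/-- **Brun-Titchmarsh** for the progression `1 mod Q` (with an unspecified constant). -/
theorem bt_bound {Q N : ℕ} (hQ : Q ≠ 0) (hN : 2 ≤ N) :
    (((Icc 1 N).filter (fun n => (Q * n + 1).Prime)).card : ℝ) ≤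
      100 * ((Q:ℝ) / Q.totient) * (N / Real.log N) := by
  have hN1 : (1:ℝ) < N := by exact_mod_cast (by omega : 1 < N)
  have hN0 : (0:ℝ) < N := by linarith only [hN1]
  have hlogN : 0 < Real.log N := Real.log_pos hN1
  have hQ' : (0:ℝ) < Q := by exact_mod_cast Nat.pos_of_ne_zero hQ
  have ht' : (0:ℝ) < Q.totient := by exact_mod_cast Nat.totient_pos.2 (Nat.pos_of_ne_zero hQ)
  have hr1 : 1 ≤ (Q:ℝ) / Q.totient := by
    rw [one_le_div ht']; exact_mod_cast Nat.totient_le Q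
  have h4 : 0 ≤ (N:ℝ) / Real.log N := by positivity
  by_cases hsmall : N < 2 ^ 6
  · have hcard : (((Icc 1 N).filter (fun n => (Q * n + 1).Prime)).card : ℝ) ≤ N := by
      have := Finset.card_filter_le (Icc 1 N) (fun n => (Q * n + 1).Prime)
      rw [Nat.card_Icc] at this
      exact_mod_cast this
    have hlog2 : Real.log 2 < 1 := by linarith only [Real.log_two_lt_d9]
    have hlog : Real.log N ≤ 6 := by
      have : Real.log N ≤ Real.log (2 ^ 6) := Real.log_le_log hN0 (by exact_mod_cast hsmall.le)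
      rw [Real.log_pow] at this
      push_cast at this; linarith only [hlog2, this]
    have h3 : (N:ℝ) ≤ 6 * (N / Real.log N) := by
      rw [mul_div_assoc', le_div_iff₀ (by positivity)]
      nlinarith only [hlog]
    calc _ ≤ (N:ℝ) := hcard
      _ ≤ 6 * (N / Real.log N) := h3
      _ ≤ 100 * ((Q:ℝ) / Q.totient) * (N / Real.log N) := by
        apply mul_le_mul_of_nonneg_right _ h4
        linarith only [hr1]
  · push Not at hsmall
    set y : ℝ := (N:ℝ) ^ ((1:ℝ)/3) with hy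
    set z : ℕ := ⌊y⌋₊ with hz
    have hy0 : 0 < y := Real.rpow_pos_of_pos hN0 _
    have hlogy : Real.log y = Real.log N / 3 := by
      rw [hy, Real.log_rpow hN0]; ring
    have hlogN6 : 6 * Real.log 2 ≤ Real.log N := by
      have : Real.log (2 ^ 6) ≤ Real.log N := Real.log_le_log (by positivity) (by exact_mod_cast hsmall)
      rw [Real.log_pow] at this
      push_cast at this; exact this
    have hy4 : 4 ≤ y := by
      have h1 : Real.log 4 ≤ Real.log y := by
        have : Real.log 4 = 2 * Real.log 2 := by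
          rw [show (4:ℝ) = 2 ^ 2 by norm_num, Real.log_pow]; norm_num
        rw [this, hlogy]; linarith only [hlogN6]
      exact (Real.log_le_log_iff (by norm_num) hy0).1 h1
    have hz2 : 2 ≤ z := by
      have : (4:ℕ) ≤ z := Nat.le_floor (by exact_mod_cast hy4)
      omega
    have hzy : (z:ℝ) ≤ y := Nat.floor_le hy0.le
    have hzy2 : y / 2 ≤ z := by
      have := Nat.lt_floor_add_one y
      have h4 : y < (z:ℝ) + 1 := this
      linarith only [hy4, this]
    have hz0 : (0:ℝ) < z := by exact_mod_cast (by omega : 0 < z)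
    have hlogz : Real.log N / 6 ≤ Real.log z := by
      have h1 : Real.log (y / 2) ≤ Real.log z := Real.log_le_log (by positivity) hzy2
      rw [Real.log_div hy0.ne' (by norm_num), hlogy] at h1
      linarith only [hlogN6, h1]
    have hraw := bt_bound_raw Q N z hQ hz2
    have hlogz0 : 0 < Real.log z := by linarith only [hlogN, hlogz, div_pos hlogN (by norm_num : (0:ℝ) < 6)]
    have hmain : ((Q:ℝ) / Q.totient) * N / Real.log z ≤
        6 * ((Q:ℝ) / Q.totient) * (N / Real.log N) := by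
      have h2 : ((Q:ℝ) / Q.totient) * N / Real.log z ≤
          ((Q:ℝ) / Q.totient) * N / (Real.log N / 6) := by
        gcongr
      refine h2.trans (le_of_eq ?_)
      field_simp
    have hlogle : Real.log N ≤ 3 * y := by
      have h1 : Real.log N ≤ (N:ℝ) ^ ((1:ℝ)/3) / (1/3) :=
        Real.log_le_rpow_div hN0.le (by norm_num)
      rw [← hy] at h1
      linarith only [h1]
    have hy3 : y ^ 3 = N := by
      rw [hy, ← Real.rpow_natCast, ← Real.rpow_mul hN0.le]; norm_num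
    have herr : y ^ 2 ≤ 3 * (N / Real.log N) := by
      rw [mul_div_assoc', le_div_iff₀ (by positivity)]
      calc y ^ 2 * Real.log N ≤ y ^ 2 * (3 * y) := by (clear * - hlogle hN; gcongr)
        _ = 3 * y ^ 3 := by ring
        _ = 3 * N := by rw [hy3]
    have herr2 : (z:ℝ) + (z:ℝ) ^ 2 ≤ 2 * y ^ 2 := by
      have h1 : (z:ℝ) ^ 2 ≤ y ^ 2 := by (clear * - hz2 hzy; gcongr)
      have h2 : (z:ℝ) ≤ y ^ 2 := by nlinarith only [hy4, hzy2, h1]
      linarith only [h1, h2]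
    have h5 : 6 * ((N:ℝ) / Real.log N) ≤
        6 * ((Q:ℝ) / Q.totient) * (N / Real.log N) := by
      apply mul_le_mul_of_nonneg_right _ h4
      linarith only [hr1]
    calc _ ≤ _ := hraw
      _ ≤ 12 * ((Q:ℝ) / Q.totient) * (N / Real.log N) := by linarith only [hmain, herr, herr2, h5]
      _ ≤ _ := by
        apply mul_le_mul_of_nonneg_right _ h4
        linarith only [hr1]

end Vale.Agent.P016.BT.Selberg
end
end
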