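import Mathlib
import Vale.Agent.P016.Bdl.B1
import Vale.Agent.P016.ConstDef
import Vale.Agent.PNT.Main

set_option linter.all false

section

section

namespace Vale.Agent.P016

open Finset

open Classical in
/-- sifted indicator -/
noncomputable def fT (z p a : ℕ) : ℝ :=
  if ¬ p ∣ a ∧ ∀ l ∈ Lset z (p - 1), ech p a ^ ((p - 1) / l) ≠ 1 then 1 else 0

open Classical in
/-- tail -/
noncomputable def tl (z p a : ℕ) : ℝ :=
  if p ∣ a then 0 else ∑ l ∈ Uset z (p - 1), if ech p a ^ ((p - 1) / l) = 1 then 1 else 0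

noncomputable def gT (z p a : ℕ) : ℝ := fT z p a - cT z (p - 1) 0 * up p a

noncomputable def gL (z p a : ℕ) : ℝ := tl z p a - cL z (p - 1) 0 * up p a

lemma gT_eq {p : ℕ} (hp : p.Prime) (z a : ℕ) :
    ((gT z p a : ℝ) : ℂ) = ∑ t ∈ Ico 1 (p - 1), (cT z (p - 1) t : ℂ) * (ech p a) ^ t := by
  classical
  have hpos : 0 < p - 1 := by have := hp.two_le; omega
  by_cases h : p ∣ a
  · have h0 : ech p a = 0 := (ech_eq_zero hp).2 h
    have h1 : ∑ t ∈ Ico 1 (p - 1), (cT z (p - 1) t : ℂ) * (ech p a) ^ t = 0 := by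
      refine Finset.sum_eq_zero fun t ht => ?_
      rw [mem_Ico] at ht
      rw [h0, zero_pow (by omega), mul_zero]
    rw [h1]
    simp only [gT, fT, h, not_true_eq_false, ne_eq, false_and, ↓reduceIte, up, mul_zero, sub_self, Complex.ofReal_zero]
  · have h1 := cT_sum_pow z (p - 1) hpos (ech p a) (ech_pow hp h)
    rw [Finset.range_eq_Ico, Finset.sum_eq_sum_Ico_succ_bot hpos] at h1
    simp only [pow_zero, mul_one] at h1
    simp only [gT, fT, up, h, not_false_eq_true, true_and, if_false, mul_one]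
    by_cases hh : ∀ l ∈ Lset z (p - 1), ech p a ^ ((p - 1) / l) ≠ 1
    · rw [if_pos hh] at h1 ⊢
      push_cast
      rw [← h1]
      ring
    · rw [if_neg hh] at h1 ⊢
      push_cast
      rw [← h1]
      ring

lemma gL_eq {p : ℕ} (hp : p.Prime) (z a : ℕ) :
    ((gL z p a : ℝ) : ℂ) = ∑ t ∈ Ico 1 (p - 1), (cL z (p - 1) t : ℂ) * (ech p a) ^ t := by
  classical
  have hpos : 0 < p - 1 := by have := hp.two_le; omega
  by_cases h : p ∣ a
  · have h0 : ech p a = 0 := (ech_eq_zero hp).2 h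
    have h1 : ∑ t ∈ Ico 1 (p - 1), (cL z (p - 1) t : ℂ) * (ech p a) ^ t = 0 := by
      refine Finset.sum_eq_zero fun t ht => ?_
      rw [mem_Ico] at ht
      rw [h0, zero_pow (by omega), mul_zero]
    rw [h1]
    simp only [gL, tl, h, ↓reduceIte, up, mul_zero, sub_self, Complex.ofReal_zero]
  · have h1 := cL_sum_pow z (p - 1) hpos (ech p a) (ech_pow hp h)
    rw [Finset.range_eq_Ico, Finset.sum_eq_sum_Ico_succ_bot hpos] at h1
    simp only [pow_zero, mul_one] at h1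
    have h2 : ∑ t ∈ Ico 1 (p - 1), (cL z (p - 1) t : ℂ) * (ech p a) ^ t =
        (∑ l ∈ Uset z (p - 1), if ech p a ^ ((p - 1) / l) = 1 then 1 else 0) -
          (cL z (p - 1) 0 : ℂ) := by
      rw [← h1]
      ring
    rw [h2]
    simp only [gL, tl, up, h, if_false, mul_one]
    push_cast
    congr 1
    refine Finset.sum_congr rfl fun l _ => ?_
    split_ifs <;> simp

lemma fp_le_fT {p : ℕ} (hp : p.Prime) (z a : ℕ) : fp p a ≤ fT z p a := by
  classical
  unfold fp fT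
  by_cases h : ¬ p ∣ a ∧ orderOf (a : ZMod p) = p - 1
  · rw [if_pos h, if_pos]
    refine ⟨h.1, fun l hl => ?_⟩
    have hpos : 0 < p - 1 := by have := hp.two_le; omega
    have hlp : l.Prime := Nat.prime_of_mem_primeFactors (mem_of_mem_filter _ hl)
    have hld : l ∣ p - 1 := Nat.dvd_of_mem_primeFactors (mem_of_mem_filter _ hl)
    intro h1
    have h2 := orderOf_dvd_of_pow_eq_one h1
    rw [ech_orderOf hp h.1, h.2] at h2
    have h3 : 0 < (p - 1) / l := Nat.div_pos (Nat.le_of_dvd hpos hld) hlp.pos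
    have h4 := Nat.le_of_dvd h3 h2
    have h5 : (p - 1) / l < p - 1 := Nat.div_lt_self hpos hlp.one_lt
    omega
  · rw [if_neg h]
    split_ifs <;> norm_num

lemma tl_nonneg (z p a : ℕ) : 0 ≤ tl z p a := by
  classical
  unfold tl
  split_ifs
  · exact le_rfl
  · exact Finset.sum_nonneg fun _ _ => by split_ifs <;> norm_num

lemma fT_le {p : ℕ} (hp : p.Prime) (z a : ℕ) : fT z p a ≤ fp p a + tl z p a := by
  classical
  have htl := tl_nonneg z p a
  have hpos : 0 < p - 1 := by have := hp.two_le; omega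
  unfold fT
  split_ifs with h
  swap
  · have : 0 ≤ fp p a := by unfold fp; split_ifs <;> norm_num
    linarith only [htl, this]
  by_cases hord : orderOf (a : ZMod p) = p - 1
  · have : fp p a = 1 := by
      unfold fp
      rw [if_pos ⟨h.1, hord⟩]
    linarith only [htl, this]
  · have hfp : 0 ≤ fp p a := by unfold fp; split_ifs <;> norm_num
    have hord' : orderOf (ech p a) ≠ p - 1 := by rwa [ech_orderOf hp h.1]
    have hpow := ech_pow hp h.1
    have hdv : orderOf (ech p a) ∣ p - 1 := orderOf_dvd_of_pow_eq_one hpow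
    have hq : (p - 1) / orderOf (ech p a) ≠ 1 := by
      intro h1
      apply hord'
      have := Nat.div_mul_cancel hdv
      rw [h1, one_mul] at this
      exact this
    obtain ⟨l, hl, hlq⟩ := Nat.exists_prime_and_dvd hq
    have hln : l ∣ p - 1 := hlq.trans (Nat.div_dvd_of_dvd hdv)
    have hl1 : ech p a ^ ((p - 1) / l) = 1 := (pow_eq_one_iff_dvd hln _ hpow).2 hlq
    have hlmem : l ∈ (p - 1).primeFactors := Nat.mem_primeFactors.2 ⟨hl, hln, hpos.ne'⟩
    have hlz : z < l := by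
      by_contra hc
      push Not at hc
      exact h.2 l (mem_filter.2 ⟨hlmem, hc⟩) hl1
    have hlU : l ∈ Uset z (p - 1) := mem_filter.2 ⟨hlmem, hlz⟩
    have : (1 : ℝ) ≤ tl z p a := by
      unfold tl
      rw [if_neg h.1]
      calc (1 : ℝ) = if ech p a ^ ((p - 1) / l) = 1 then 1 else 0 := by rw [if_pos hl1]
        _ ≤ _ := Finset.single_le_sum
          (f := fun l => if ech p a ^ ((p - 1) / l) = 1 then (1 : ℝ) else 0)
          (fun _ _ => by split_ifs <;> norm_num) hlU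
    linarith only [hfp, this]

lemma one_sub_sum_le_prod (S : Finset ℕ) (hS : ∀ q ∈ S, 2 ≤ q) :
    1 - ∑ q ∈ S, 1 / (q : ℝ) ≤ ∏ q ∈ S, (1 - 1 / (q : ℝ)) ∧
    0 ≤ ∏ q ∈ S, (1 - 1 / (q : ℝ)) ∧ ∏ q ∈ S, (1 - 1 / (q : ℝ)) ≤ 1 := by
  induction S using Finset.induction_on with
  | empty => simp only [one_div, sum_empty, sub_zero, prod_empty, Std.le_refl, zero_le_one, and_self]
  | insert m S hm ih =>
    obtain ⟨h1, h2, h3⟩ := ih (fun q hq => hS q (mem_insert_of_mem hq))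
    have hm2 : (2 : ℝ) ≤ m := by exact_mod_cast hS m (mem_insert_self _ _)
    have hm1 : 1 / (m : ℝ) ≤ 1 := by
      rw [div_le_one (by linarith only [hm2])]
      linarith only [hm2]
    have hm0 : 0 ≤ 1 / (m : ℝ) := by positivity
    rw [Finset.prod_insert hm, Finset.sum_insert hm]
    refine ⟨?_, mul_nonneg (by linarith only [hm1]) h2, mul_le_one₀ (by linarith only [hm0]) h2 h3⟩
    nlinarith only [h1, h3, hm0]

lemma wt_eq_prod {p : ℕ} (hp : p.Prime) :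
    wt p = ∏ l ∈ (p - 1).primeFactors, (1 - 1 / (l : ℝ)) := by
  have hpos : 0 < p - 1 := by have := hp.two_le; omega
  unfold wt
  have h2 := Nat.totient_eq_mul_prod_factors (p - 1)
  have h3 : ((Nat.totient (p - 1) : ℚ) : ℝ) =
      (((p - 1 : ℕ) * ∏ l ∈ (p - 1).primeFactors, (1 - (l : ℚ)⁻¹) : ℚ) : ℝ) := by
    rw [h2]
  push_cast at h3
  rw [h3]
  have : ((p - 1 : ℕ) : ℝ) ≠ 0 := by positivity
  field_simp

lemma prod_split (z n : ℕ) : (∏ l ∈ n.primeFactors, (1 - 1 / (l : ℝ))) =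
    (∏ l ∈ Lset z n, (1 - 1 / (l : ℝ))) * ∏ l ∈ Uset z n, (1 - 1 / (l : ℝ)) := by
  have h : Uset z n = n.primeFactors.filter (fun l => ¬ l ≤ z) := by
    unfold Uset
    refine Finset.filter_congr fun l _ => ?_
    exact not_le.symm
  rw [h, Lset, Finset.prod_filter_mul_prod_filter_not]

lemma Lset_two_le {z n : ℕ} : ∀ q ∈ Lset z n, 2 ≤ q := fun _ hq =>
  (Nat.prime_of_mem_primeFactors (mem_of_mem_filter _ hq)).two_le

lemma Uset_two_le {z n : ℕ} : ∀ q ∈ Uset z n, 2 ≤ q := fun _ hq =>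
  (Nat.prime_of_mem_primeFactors (mem_of_mem_filter _ hq)).two_le

lemma cT_zero_bounds {p : ℕ} (hp : p.Prime) (z : ℕ) :
    wt p ≤ cT z (p - 1) 0 ∧ cT z (p - 1) 0 ≤ 1 ∧
    cT z (p - 1) 0 ≤ wt p + cL z (p - 1) 0 ∧ 0 ≤ cL z (p - 1) 0 := by
  obtain ⟨h1, h2, h3⟩ := one_sub_sum_le_prod (Lset z (p - 1)) Lset_two_le
  obtain ⟨h4, h5, h6⟩ := one_sub_sum_le_prod (Uset z (p - 1)) Uset_two_le
  rw [cT_zero, cL_zero, wt_eq_prod hp, prod_split z]
  have h7 : 0 ≤ ∑ q ∈ Uset z (p - 1), 1 / (q : ℝ) := Finset.sum_nonneg fun _ _ => by (clear * -; positivity)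
  refine ⟨?_, h3, ?_, h7⟩
  · nlinarith only [h2, h6]
  · nlinarith only [h4, h3, h6]

noncomputable def bigT (z : ℕ) (P : Finset ℕ) (a : ℕ) : ℝ := ∑ p ∈ P, gT z p a

noncomputable def bigL (z : ℕ) (P : Finset ℕ) (a : ℕ) : ℝ := ∑ p ∈ P, gL z p a

lemma fp_le_one (p a : ℕ) : fp p a ≤ 1 := by unfold fp; split_ifs <;> norm_num

lemma fp_nonneg (p a : ℕ) : 0 ≤ fp p a := by unfold fp; split_ifs <;> norm_num

lemma up_le_one (p a : ℕ) : up p a ≤ 1 := by unfold up; split_ifs <;> norm_num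

lemma up_nonneg (p a : ℕ) : 0 ≤ up p a := by unfold up; split_ifs <;> norm_num

/-- Upper bound half of the sandwich. -/
lemma sandwich_upper (z x a : ℕ) (P : Finset ℕ) (hP : P ⊆ Px x) :
    ∑ p ∈ Px x, fp p a - artinMain x ≤
      bigT z P a + ∑ p ∈ P, cL z (p - 1) 0 + ((Px x \ P).card : ℝ) := by
  rw [artinMain_eq, ← Finset.sum_sub_distrib, ← Finset.sum_sdiff hP]
  have h1 : ∑ p ∈ Px x \ P, (fp p a - wt p) ≤ ((Px x \ P).card : ℝ) := by
    calc ∑ p ∈ Px x \ P, (fp p a - wt p) ≤ ∑ p ∈ Px x \ P, (1 : ℝ) := by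
          refine Finset.sum_le_sum fun p _ => ?_
          have := fp_le_one p a
          have := wt_nonneg p
          linarith
      _ = _ := by simp
  have h2 : ∑ p ∈ P, (fp p a - wt p) ≤ bigT z P a + ∑ p ∈ P, cL z (p - 1) 0 := by
    rw [bigT, ← Finset.sum_add_distrib]
    refine Finset.sum_le_sum fun p hp => ?_
    have hpp := (mem_Px.1 (hP hp)).1
    obtain ⟨b1, b2, b3, b4⟩ := cT_zero_bounds hpp z
    have h3 := fp_le_fT hpp z a
    have h4 := up_le_one p a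
    have h5 := up_nonneg p a
    have h6 := wt_nonneg p
    unfold gT
    nlinarith only [b3, h3, b1, h4, h6]
  linarith

/-- Lower bound half of the sandwich. -/
lemma sandwich_lower (z x a b : ℕ) (P : Finset ℕ) (hP : P ⊆ Px x)
    (hab : ∀ p ∈ Px x, p ∣ a → p ∣ b) :
    bigT z P a - bigL z P a - ∑ p ∈ P, cL z (p - 1) 0 - ((Px x \ P).card : ℝ) - om x b ≤
      ∑ p ∈ Px x, fp p a - artinMain x := by
  classical
  rw [artinMain_eq, ← Finset.sum_sub_distrib, ← Finset.sum_sdiff hP]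
  have h1 : -((Px x \ P).card : ℝ) ≤ ∑ p ∈ Px x \ P, (fp p a - wt p) := by
    calc -((Px x \ P).card : ℝ) = ∑ p ∈ Px x \ P, (-1 : ℝ) := by simp only [sum_neg_distrib, sum_const, nsmul_eq_mul, mul_one]
      _ ≤ _ := by
          refine Finset.sum_le_sum fun p _ => ?_
          have := fp_nonneg p a
          have := wt_le_one p
          linarith
  have h2 : bigT z P a - bigL z P a - ∑ p ∈ P, cL z (p - 1) 0 - ∑ p ∈ P, (1 - up p a) ≤
      ∑ p ∈ P, (fp p a - wt p) := by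
    rw [bigT, bigL, ← Finset.sum_sub_distrib, ← Finset.sum_sub_distrib, ← Finset.sum_sub_distrib]
    refine Finset.sum_le_sum fun p hp => ?_
    have hpp := (mem_Px.1 (hP hp)).1
    obtain ⟨b1, b2, b3, b4⟩ := cT_zero_bounds hpp z
    have h3 := fT_le hpp z a
    have h4 := up_le_one p a
    have h5 := up_nonneg p a
    have h6 := wt_nonneg p
    unfold gT gL
    have h7 : cL z (p - 1) 0 * up p a ≤ cL z (p - 1) 0 := mul_le_of_le_one_right b4 h4
    have h8 : cT z (p - 1) 0 * (1 - up p a) ≤ 1 - up p a :=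
      mul_le_of_le_one_left (by linarith only [h4]) b2
    linarith only [b1, h3, h7, h8]
  have h3 : ∑ p ∈ P, (1 - up p a) ≤ om x b := by
    calc ∑ p ∈ P, (1 - up p a) ≤ ∑ p ∈ P, (if p ∣ b then (1 : ℝ) else 0) := by
          refine Finset.sum_le_sum fun p hp => ?_
          unfold up
          by_cases hpa : p ∣ a
          · rw [if_pos hpa, if_pos (hab p (hP hp) hpa)]
            norm_num
          · rw [if_neg hpa]
            split_ifs <;> norm_num
      _ ≤ ∑ p ∈ Px x, (if p ∣ b then (1 : ℝ) else 0) :=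
          Finset.sum_le_sum_of_subset_of_nonneg hP fun _ _ _ => by split_ifs <;> norm_num
      _ = om x b := by
          rw [om, ← Finset.sum_filter, Finset.sum_const, nsmul_eq_mul, mul_one]
  linarith only [h1, h2, h3]

end Vale.Agent.P016
end
end

section

section

namespace Vale.Agent.P016

open Finset

lemma two_pow_card_le {n : ℕ} (hn : n ≠ 0) {S : Finset ℕ} (hS : S ⊆ n.primeFactors) :
    2 ^ S.card ≤ n.divisors.card := by
  rw [← Finset.card_powerset]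
  refine Finset.card_le_card_of_injOn (fun T => ∏ l ∈ T, l) ?_ ?_
  · intro T hT
    simp only [coe_powerset, Set.mem_preimage, Set.mem_powerset_iff, coe_subset] at hT
    simp only [mem_coe, Nat.mem_divisors]
    exact ⟨prod_dvd_of_subset (hT.trans hS), hn⟩
  · intro T hT T' hT' h
    simp only [coe_powerset, Set.mem_preimage, Set.mem_powerset_iff, coe_subset] at hT hT'
    have h1 := congrArg Nat.primeFactors h
    simp only at h1
    rwa [Nat.primeFactors_prod (fun p hp => Nat.prime_of_mem_primeFactors (hS (hT hp))),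
      Nat.primeFactors_prod (fun p hp => Nat.prime_of_mem_primeFactors (hS (hT' hp)))] at h1

lemma sum_two_pow_Uset (x z : ℕ) :
    ∑ n ∈ Icc 1 x, (2 : ℝ) ^ (Uset z n).card ≤ x * (1 + Real.log x) := by
  refine le_trans ?_ (sum_tau_le x)
  refine Finset.sum_le_sum fun n hn => ?_
  rw [mem_Icc] at hn
  exact_mod_cast two_pow_card_le (by omega : n ≠ 0) (Finset.filter_subset _ _)

lemma sum_pow_card_Lset (B : ℝ) (hB : 1 ≤ B) (x z : ℕ) :
    ∑ n ∈ Icc 1 x, B ^ (Lset z n).card ≤ x * ∏ l ∈ Px z, (1 + (B - 1) / (l : ℝ)) := by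
  have h1 : ∀ n ∈ Icc 1 x, B ^ (Lset z n).card ≤
      ∑ S ∈ (Px z).powerset, (B - 1) ^ S.card * (if (∏ l ∈ S, l) ∣ n then 1 else 0) := by
    intro n hn
    have e1 : B ^ (Lset z n).card = ∑ S ∈ (Lset z n).powerset, (B - 1) ^ S.card := by
      have : B ^ (Lset z n).card = ∏ l ∈ Lset z n, (1 + (B - 1)) := by
        rw [Finset.prod_const]; ring_nf
      rw [this, Finset.prod_one_add]
      refine Finset.sum_congr rfl fun S _ => by rw [Finset.prod_const]
    rw [e1]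
    have hsub : (Lset z n).powerset ⊆ (Px z).powerset := by
      rw [Finset.powerset_mono]
      intro l hl
      rw [Lset, mem_filter] at hl
      rw [mem_Px]
      exact ⟨Nat.prime_of_mem_primeFactors hl.1, hl.2⟩
    calc ∑ S ∈ (Lset z n).powerset, (B - 1) ^ S.card =
        ∑ S ∈ (Lset z n).powerset, (B - 1) ^ S.card * (if (∏ l ∈ S, l) ∣ n then 1 else 0) := by
          refine Finset.sum_congr rfl fun S hS => ?_
          rw [if_pos (hdT S hS), mul_one]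
      _ ≤ _ := by
          refine Finset.sum_le_sum_of_subset_of_nonneg hsub fun S _ _ => ?_
          have : 0 ≤ B - 1 := by linarith
          split_ifs <;> (clear * - hB; positivity)
  refine (Finset.sum_le_sum h1).trans ?_
  rw [Finset.sum_comm, Finset.prod_one_add, Finset.mul_sum]
  refine Finset.sum_le_sum fun S hS => ?_
  rw [← Finset.mul_sum]
  have h2 : ∑ n ∈ Icc 1 x, (if (∏ l ∈ S, l) ∣ n then (1 : ℝ) else 0) ≤
      (x : ℝ) / ((∏ l ∈ S, l : ℕ) : ℝ) := by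
    rw [← Finset.sum_filter, Finset.sum_const, nsmul_eq_mul, mul_one]
    have h3 : ((Icc 1 x).filter (fun a => (∏ l ∈ S, l) ∣ a)).card = x / (∏ l ∈ S, l) := by
      have := Nat.Ioc_filter_dvd_card_eq_div x (∏ l ∈ S, l)
      rw [← this]
      rfl
    rw [h3]
    exact Nat.cast_div_le
  have hB0 : 0 ≤ B - 1 := by linarith only [hB]
  calc (B - 1) ^ S.card * ∑ n ∈ Icc 1 x, (if (∏ l ∈ S, l) ∣ n then (1 : ℝ) else 0)
      ≤ (B - 1) ^ S.card * ((x : ℝ) / ((∏ l ∈ S, l : ℕ) : ℝ)) :=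
        mul_le_mul_of_nonneg_left h2 (by positivity)
    _ = x * ∏ l ∈ S, ((B - 1) / (l : ℝ)) := by
        rw [Finset.prod_div_distrib, Finset.prod_const, Nat.cast_prod]
        ring

lemma Px_eq_primesUpto (z : ℕ) : Px z = primesUpto z := by
  ext p
  rw [mem_Px, mem_primesUpto]

lemma sum_inv_prime_le (j : ℕ) : ∑ p ∈ Px (2 ^ (2 ^ j)), 1 / (p : ℝ) ≤ 4 * j + 1 := by
  induction j with
  | zero =>
    have : Px (2 ^ (2 ^ 0)) = {2} := by decide
    rw [this]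
    (clear * -; norm_num)
  | succ j ih =>
    set z := 2 ^ (2 ^ j) with hz
    set w := 2 ^ (2 ^ (j + 1)) with hw
    have hzw : z ≤ w := by
      rw [hz, hw]
      exact Nat.pow_le_pow_right (by norm_num) (Nat.pow_le_pow_right (by norm_num) (by omega))
    have hsub : Px z ⊆ Px w := by
      intro p hp
      rw [mem_Px] at hp ⊢
      exact ⟨hp.1, hp.2.trans hzw⟩
    rw [← Finset.sum_sdiff hsub]
    have hlz : Real.log z = 2 ^ j * Real.log 2 := by
      rw [hz]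
      push_cast
      rw [Real.log_pow]
      push_cast
      ring
    have hlw : Real.log w = 2 * 2 ^ j * Real.log 2 := by
      rw [hw]
      push_cast
      rw [Real.log_pow]
      push_cast
      ring
    have hl2 : 0 < Real.log 2 := Real.log_pos (by norm_num)
    have hj1 : (1 : ℝ) ≤ 2 ^ j := one_le_pow₀ (by norm_num)
    have h1 : ∑ p ∈ Px w \ Px z, 1 / (p : ℝ) ≤ 4 := by
      have h2 : (2 ^ j * Real.log 2) * ∑ p ∈ Px w \ Px z, 1 / (p : ℝ) ≤
          2 * 2 ^ j * Real.log 2 + Real.log 4 := by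
        calc (2 ^ j * Real.log 2) * ∑ p ∈ Px w \ Px z, 1 / (p : ℝ)
            ≤ ∑ p ∈ Px w \ Px z, Real.log p / p := by
              rw [Finset.mul_sum]
              refine Finset.sum_le_sum fun p hp => ?_
              rw [mem_sdiff, mem_Px, mem_Px] at hp
              have hpz : z ≤ p := by
                by_contra hc
                push Not at hc
                exact hp.2 ⟨hp.1.1, hc.le⟩
              have hp0 : (0 : ℝ) < p := by exact_mod_cast hp.1.1.pos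
              have hz0 : (0 : ℝ) < z := by rw [hz]; positivity
              have h3 : Real.log z ≤ Real.log p := Real.log_le_log hz0 (by exact_mod_cast hpz)
              rw [hlz] at h3
              rw [mul_one_div]
              exact div_le_div_of_nonneg_right h3 hp0.le
          _ ≤ ∑ p ∈ Px w, Real.log p / p := by
              refine Finset.sum_le_sum_of_subset_of_nonneg Finset.sdiff_subset fun p _ _ => ?_
              exact div_nonneg (Real.log_natCast_nonneg p) (Nat.cast_nonneg p)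
          _ ≤ Real.log w + Real.log 4 := by
              rw [Px_eq_primesUpto]
              exact sum_log_div_le w (by rw [hw]; exact Nat.one_le_two_pow)
          _ = _ := by rw [hlw]
      have h4 : Real.log 4 = 2 * Real.log 2 := by
        rw [show (4 : ℝ) = 2 ^ 2 by norm_num, Real.log_pow]
        push_cast
        ring
      rw [h4] at h2
      by_contra hc
      push Not at hc
      have h5 : 0 < 2 ^ j * Real.log 2 := by positivity
      nlinarith only [h2, hl2, hj1, mul_lt_mul_of_pos_left hc h5]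
    push_cast
    linarith only [ih, h1]

lemma prod_le_exp (B : ℝ) (hB : 1 ≤ B) (j : ℕ) :
    ∏ l ∈ Px (2 ^ (2 ^ j)), (1 + (B - 1) / (l : ℝ)) ≤ Real.exp (B * (4 * j + 1)) := by
  calc ∏ l ∈ Px (2 ^ (2 ^ j)), (1 + (B - 1) / (l : ℝ))
      ≤ ∏ l ∈ Px (2 ^ (2 ^ j)), Real.exp (B * (1 / (l : ℝ))) := by
        refine Finset.prod_le_prod (fun l _ => ?_) (fun l _ => ?_)
        · have : 0 ≤ (B - 1) / (l : ℝ) := div_nonneg (by linarith) (Nat.cast_nonneg l)
          linarith only [this]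
        · have h1 : (B - 1) / (l : ℝ) ≤ B * (1 / (l : ℝ)) := by
            rw [mul_one_div]
            exact div_le_div_of_nonneg_right (by linarith) (Nat.cast_nonneg l)
          have h2 := Real.add_one_le_exp (B * (1 / (l : ℝ)))
          linarith
    _ = Real.exp (B * ∑ l ∈ Px (2 ^ (2 ^ j)), 1 / (l : ℝ)) := by
        rw [← Real.exp_sum, Finset.mul_sum]
    _ ≤ _ := by
        refine Real.exp_le_exp.2 (mul_le_mul_of_nonneg_left (sum_inv_prime_le j) (by linarith))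

/-- choice of the truncation parameter -/
lemma exists_trunc_param (B A : ℕ) (hB : 1 ≤ B) : ∃ x₀ : ℕ, ∀ x : ℕ, x₀ ≤ x →
    ∃ j : ℕ, Real.exp ((B : ℝ) * (4 * j + 1)) ≤ Real.log x ∧
      (Real.log x) ^ A ≤ ((2 ^ (2 ^ j) : ℕ) : ℝ) := by
  have hev : ∃ m : ℕ, ∀ j : ℕ, m ≤ j → j ^ 2 ≤ 2 ^ j := by
    have h := (isLittleO_pow_const_const_pow_of_one_lt (R := ℝ) 2
      (r := 2) (by norm_num)).bound (c := 1) (by norm_num)
    obtain ⟨m, hm⟩ := Filter.eventually_atTop.1 h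
    refine ⟨m, fun i hi => ?_⟩
    have h1 := hm i hi
    simp only [norm_pow, RCLike.norm_natCast, one_mul, Real.norm_ofNat] at h1
    exact_mod_cast h1
  obtain ⟨m, hm⟩ := hev
  set m' := max m (32 * A * B + 1) with hm'
  obtain ⟨x₁, hx₁⟩ := ev_log_ge (Real.exp (8 * B * (m' + 1)))
  refine ⟨x₁, fun x hx => ?_⟩
  have hl := hx₁ x hx
  set l := Real.log x with hldef
  have hBr : (1 : ℝ) ≤ B := by exact_mod_cast hB
  have hl0 : 0 < l := lt_of_lt_of_le (Real.exp_pos _) hl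
  have hL : 8 * B * ((m' : ℝ) + 1) ≤ Real.log l := by
    have := Real.log_le_log (Real.exp_pos _) hl
    rwa [Real.log_exp] at this
  set L := Real.log l with hLdef
  have hm'1 : (1 : ℝ) ≤ m' := by
    have : 1 ≤ m' := le_trans (by omega) (le_max_right _ _)
    exact_mod_cast this
  have hL0 : 0 < L := by nlinarith only [hBr, hL]
  set j := ⌊L / (8 * B)⌋₊ with hj
  have hj1 : (j : ℝ) ≤ L / (8 * B) := Nat.floor_le (by (clear * - hL0 hB; positivity))
  have hj2 : L / (8 * B) < j + 1 := Nat.lt_floor_add_one _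
  have hB0 : (0 : ℝ) < 8 * B := by linarith only [hBr]
  rw [le_div_iff₀ hB0] at hj1
  rw [div_lt_iff₀ hB0] at hj2
  refine ⟨j, ?_, ?_⟩
  · rw [← Real.exp_log hl0, Real.exp_le_exp]
    nlinarith only [hL, hj1]
  · have hmj : m' ≤ j := by
      have h1 : (m' : ℝ) + 1 < j + 1 := by
        by_contra hc
        push Not at hc
        nlinarith only [hL, hj2, hc]
      have h2 : (m' : ℝ) < j := by linarith only [h1]
      exact_mod_cast h2.le
    have hj3 : j ^ 2 ≤ 2 ^ j := hm j ((le_max_left _ _).trans hmj)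
    have hj4 : 32 * A * B + 1 ≤ j := (le_max_right _ _).trans hmj
    have h1 : l ^ A = Real.exp (A * L) := by
      rw [mul_comm, Real.exp_mul, hLdef, Real.exp_log hl0, Real.rpow_natCast]
    have h2 : ((2 ^ (2 ^ j) : ℕ) : ℝ) = Real.exp (((2 ^ j : ℕ) : ℝ) * Real.log 2) := by
      rw [mul_comm, Real.exp_mul, Real.exp_log (by norm_num), Real.rpow_natCast]
      push_cast
      rfl
    rw [h1, h2, Real.exp_le_exp]
    have h3 : ((j : ℝ)) ^ 2 ≤ ((2 ^ j : ℕ) : ℝ) := by exact_mod_cast hj3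
    have h4 : (32 : ℝ) * A * B + 1 ≤ j := by exact_mod_cast hj4
    have h5 := Real.log_two_gt_d9
    have h6 : (A : ℝ) * L ≤ A * ((j + 1) * (8 * B)) :=
      mul_le_mul_of_nonneg_left hj2.le (Nat.cast_nonneg A)
    have hj5 : (1 : ℝ) ≤ j := by
      have : (0 : ℝ) ≤ 32 * A * B := by (clear * - hB; positivity)
      linarith only [h4, this]
    have h7 : (A : ℝ) * ((j + 1) * (8 * B)) ≤ (j : ℝ) ^ 2 / 2 := by
      have hAB : (0 : ℝ) ≤ A * B := by (clear * - hB; positivity)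
      nlinarith only [h4]
    have h8 : (0 : ℝ) ≤ (j : ℝ) ^ 2 := by (clear * - hj5; positivity)
    nlinarith only [h3, h4, h6, h5]

lemma sum_shift_le (x : ℕ) (f : ℕ → ℝ) (hf : ∀ n, 0 ≤ f n) :
    ∑ p ∈ Px x, f (p - 1) ≤ ∑ n ∈ Icc 1 x, f n := by
  have h1 : ∑ p ∈ Px x, f (p - 1) = ∑ n ∈ (Px x).image (fun p => p - 1), f n := by
    rw [Finset.sum_image]
    intro a ha b hb hab
    have h1 := (mem_Px.1 ha).1.two_le
    have h2 := (mem_Px.1 hb).1.two_le
    simp only at hab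
    omega
  rw [h1]
  refine Finset.sum_le_sum_of_subset_of_nonneg ?_ fun _ _ _ => hf _
  intro n hn
  rw [mem_image] at hn
  obtain ⟨p, hp, rfl⟩ := hn
  have h1 := mem_Px.1 hp
  have h2 := h1.1.two_le
  rw [mem_Icc]
  omega

lemma sum_cL_zero_le (x z : ℕ) (hz : z ≠ 0) :
    ∑ p ∈ Px x, cL z (p - 1) 0 ≤ (x : ℝ) / z := by
  have h0 : ∀ n, 0 ≤ cL z n 0 := by
    intro n
    rw [cL_zero]
    exact Finset.sum_nonneg fun _ _ => by positivity
  refine (sum_shift_le x (fun n => cL z n 0) h0).trans ?_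
  have h1 : ∀ n ∈ Icc 1 x, cL z n 0 ≤ ∑ l ∈ Ioc z x, (1 / (l : ℝ)) * (if l ∣ n then 1 else 0) := by
    intro n hn
    rw [mem_Icc] at hn
    rw [cL_zero]
    calc ∑ l ∈ Uset z n, 1 / (l : ℝ) = ∑ l ∈ Uset z n, (1 / (l : ℝ)) * (if l ∣ n then 1 else 0) := by
          refine Finset.sum_congr rfl fun l hl => ?_
          rw [if_pos (hdL l hl), mul_one]
      _ ≤ _ := by
          refine Finset.sum_le_sum_of_subset_of_nonneg ?_ fun l _ _ => ?_
          · intro l hl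
            rw [Uset, mem_filter] at hl
            rw [mem_Ioc]
            exact ⟨hl.2, (Nat.le_of_dvd (by omega) (Nat.dvd_of_mem_primeFactors hl.1)).trans hn.2⟩
          · split_ifs <;> (clear * -; positivity)
  refine (Finset.sum_le_sum h1).trans ?_
  rw [Finset.sum_comm]
  have h2 : ∀ l ∈ Ioc z x, ∑ n ∈ Icc 1 x, (1 / (l : ℝ)) * (if l ∣ n then 1 else 0) ≤
      x * ((l : ℝ) ^ 2)⁻¹ := by
    intro l hl
    rw [mem_Ioc] at hl
    rw [← Finset.mul_sum, ← Finset.sum_filter, Finset.sum_const, nsmul_eq_mul, mul_one]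
    have h3 : ((Icc 1 x).filter (fun a => l ∣ a)).card = x / l := by
      have := Nat.Ioc_filter_dvd_card_eq_div x l
      rw [← this]
      rfl
    rw [h3]
    have hl0 : (0 : ℝ) < l := by exact_mod_cast (by omega : 0 < l)
    calc (1 / (l : ℝ)) * ((x / l : ℕ) : ℝ) ≤ (1 / (l : ℝ)) * ((x : ℝ) / l) :=
          mul_le_mul_of_nonneg_left Nat.cast_div_le (by (clear * - hl0; positivity))
      _ = _ := by (clear * - hl0; field_simp)
  refine (Finset.sum_le_sum h2).trans ?_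
  rw [← Finset.mul_sum]
  rcases Nat.lt_or_ge x z with hxz | hxz
  · rw [Finset.Ioc_eq_empty (by omega)]
    simp only [sum_empty, mul_zero]
    (clear * - hz; positivity)
  · have h4 := sum_Ioc_inv_sq_le_sub (α := ℝ) hz hxz
    have h5 : (0 : ℝ) ≤ (x : ℝ)⁻¹ := by positivity
    rw [div_eq_mul_inv]
    refine mul_le_mul_of_nonneg_left ?_ (Nat.cast_nonneg x)
    linarith only [h4, h5]

/-- The truncation interface. -/
theorem trunc_final (h A : ℕ) (hA : 2 ≤ A) : ∃ x₀ : ℕ, ∀ x : ℕ, x₀ ≤ x →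
    ∀ v : ℝ, 0 < v → v ^ h = Real.log x → ∃ z : ℕ, ∃ P : Finset ℕ, P ⊆ Px x ∧
      (∀ p ∈ P, (2 : ℝ) ^ (Lset z (p - 1)).card + ((Uset z (p - 1)).card : ℝ) ≤ v) ∧
      ((Px x \ P).card : ℝ) ≤ (x : ℝ) / (Real.log x) ^ A ∧
      ∑ p ∈ Px x, cL z (p - 1) 0 ≤ (x : ℝ) / (Real.log x) ^ A ∧
      ((Px x).card : ℝ) ≤ 2 * (v + 1) * artinMain x := by
  classical
  obtain ⟨m, hm⟩ : ∃ m, m = h * (A + 3) := ⟨_, rfl⟩
  obtain ⟨x₁, hx₁⟩ := exists_trunc_param (2 ^ m) A Nat.one_le_two_pow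
  have hev : ∃ u₀ : ℕ, ∀ u : ℕ, u₀ ≤ u → u ^ m ≤ 2 ^ u := by
    have h := (isLittleO_pow_const_const_pow_of_one_lt (R := ℝ) m
      (r := 2) (by norm_num)).bound (c := 1) (by norm_num)
    obtain ⟨u₀, hu₀⟩ := Filter.eventually_atTop.1 h
    refine ⟨u₀, fun i hi => ?_⟩
    have h1 := hu₀ i hi
    simp only [norm_pow, RCLike.norm_natCast, one_mul, Real.norm_ofNat] at h1
    exact_mod_cast h1
  obtain ⟨u₀, hu₀⟩ := hev
  obtain ⟨y₀, hy₀⟩ := pi_lower
  obtain ⟨x₂, hx₂⟩ := ev_log_ge (max (max (3 * 2 ^ m) 4) ((2 * u₀ : ℝ) ^ h + 1))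
  refine ⟨max (max x₁ x₂) (max y₀ 1), fun x hx v hv hvl => ?_⟩
  obtain ⟨j, hj1, hj2⟩ := hx₁ x ((le_max_left _ _).trans ((le_max_left _ _).trans hx))
  have hl := hx₂ x ((le_max_right _ _).trans ((le_max_left _ _).trans hx))
  have hpi := hy₀ x ((le_max_left _ _).trans ((le_max_right _ _).trans hx))
  have hx1 : 1 ≤ x := (le_max_right _ _).trans ((le_max_right _ _).trans hx)
  set l := Real.log x with hldef
  have hl3 : 3 * 2 ^ m ≤ l := (le_max_left _ _).trans ((le_max_left _ _).trans hl)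
  have hl4 : 4 ≤ l := (le_max_right _ _).trans ((le_max_left _ _).trans hl)
  have hlu : (2 * u₀ : ℝ) ^ h + 1 ≤ l := (le_max_right _ _).trans hl
  have hl0 : 0 < l := by linarith only [hl4]
  have hxr : (1 : ℝ) ≤ x := by exact_mod_cast hx1
  have hvu : (2 * u₀ : ℝ) ≤ v := by
    by_contra hc
    push Not at hc
    have := pow_le_pow_left₀ hv.le hc.le h
    linarith only [hvl, hlu, this]
  set z := 2 ^ (2 ^ j) with hz
  have hzpos : (0 : ℝ) < z := by rw [hz]; positivity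
  set P := (Px x).filter (fun p =>
    (2 : ℝ) ^ (Lset z (p - 1)).card + ((Uset z (p - 1)).card : ℝ) ≤ v) with hP
  have hsumL : ∑ p ∈ Px x, ((2 : ℝ) ^ m) ^ (Lset z (p - 1)).card ≤ x * l := by
    refine (sum_shift_le x (fun n => ((2 : ℝ) ^ m) ^ (Lset z n).card) (fun n => by positivity)).trans ?_
    refine (sum_pow_card_Lset _ (one_le_pow₀ (by norm_num)) x z).trans ?_
    refine mul_le_mul_of_nonneg_left ?_ (by linarith only [hxr])
    refine (prod_le_exp _ (one_le_pow₀ (by norm_num)) j).trans ?_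
    refine le_trans (le_of_eq ?_) hj1
    push_cast
    rfl
  have hsumU : ∑ p ∈ Px x, (2 : ℝ) ^ (Uset z (p - 1)).card ≤ x * (1 + l) := by
    refine (sum_shift_le x (fun n => (2 : ℝ) ^ (Uset z n).card) (fun n => by positivity)).trans ?_
    exact sum_two_pow_Uset x z
  have hbad : ((Px x \ P).card : ℝ) * (v / 2) ^ m ≤ x * (1 + 2 * l) := by
    have e1 : ∀ p ∈ Px x \ P, (v / 2) ^ m ≤
        ((2 : ℝ) ^ m) ^ (Lset z (p - 1)).card + (2 : ℝ) ^ (Uset z (p - 1)).card := by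
      intro p hp
      rw [mem_sdiff, hP, mem_filter, not_and, not_le] at hp
      have h1 := hp.2 hp.1
      by_cases h2 : v / 2 ≤ (2 : ℝ) ^ (Lset z (p - 1)).card
      · have h3 : (v / 2) ^ m ≤ ((2 : ℝ) ^ m) ^ (Lset z (p - 1)).card := by
          have h2' : ((2 : ℝ) ^ m) ^ (Lset z (p - 1)).card =
              ((2 : ℝ) ^ (Lset z (p - 1)).card) ^ m := by
            rw [← pow_mul, ← pow_mul, mul_comm]
          rw [h2']
          exact pow_le_pow_left₀ (by positivity) h2 m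
        have h4 : (0 : ℝ) ≤ (2 : ℝ) ^ (Uset z (p - 1)).card := by positivity
        linarith only [h3, h4]
      · push Not at h2
        have h3 : v / 2 < ((Uset z (p - 1)).card : ℝ) := by linarith only [h1, h2]
        have h4 : u₀ ≤ (Uset z (p - 1)).card := by
          have : (u₀ : ℝ) < ((Uset z (p - 1)).card : ℝ) := by linarith only [hvu, h1, h2]
          exact_mod_cast this.le
        have h5 := hu₀ _ h4
        have h6 : (v / 2) ^ m ≤ (2 : ℝ) ^ (Uset z (p - 1)).card := by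
          calc (v / 2) ^ m ≤ ((Uset z (p - 1)).card : ℝ) ^ m :=
                pow_le_pow_left₀ (by positivity) h3.le m
            _ ≤ _ := by exact_mod_cast h5
        have h7 : (0 : ℝ) ≤ ((2 : ℝ) ^ m) ^ (Lset z (p - 1)).card := by positivity
        linarith only [h6, h7]
    calc ((Px x \ P).card : ℝ) * (v / 2) ^ m = ∑ p ∈ Px x \ P, (v / 2) ^ m := by simp
      _ ≤ ∑ p ∈ Px x \ P, (((2 : ℝ) ^ m) ^ (Lset z (p - 1)).card +
            (2 : ℝ) ^ (Uset z (p - 1)).card) := Finset.sum_le_sum e1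
      _ ≤ ∑ p ∈ Px x, (((2 : ℝ) ^ m) ^ (Lset z (p - 1)).card +
            (2 : ℝ) ^ (Uset z (p - 1)).card) :=
          Finset.sum_le_sum_of_subset_of_nonneg Finset.sdiff_subset fun _ _ _ => by positivity
      _ ≤ _ := by
          rw [Finset.sum_add_distrib]
          linarith only [hsumL, hsumU]
  have hbad2 : ((Px x \ P).card : ℝ) ≤ (x : ℝ) / l ^ A := by
    have hvm : v ^ m = l ^ (A + 3) := by rw [hm, pow_mul, hvl]
    rw [div_pow, hvm] at hbad
    rw [le_div_iff₀ (by positivity)]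
    have e2 : ((Px x \ P).card : ℝ) * (l ^ (A + 3) / 2 ^ m) =
        (((Px x \ P).card : ℝ) * l ^ A) * (l ^ 3 / 2 ^ m) := by ring
    rw [e2] at hbad
    have e3 : (x : ℝ) * (1 + 2 * l) ≤ x * (l ^ 3 / 2 ^ m) := by
      refine mul_le_mul_of_nonneg_left ?_ (by linarith only [hxr])
      rw [le_div_iff₀ (by positivity)]
      have : (1 + 2 * l) * 2 ^ m ≤ (3 * 2 ^ m) * l := by
        have h2m : (0 : ℝ) < 2 ^ m := by positivity
        nlinarith only [h2m, hl4]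
      refine this.trans ((mul_le_mul_of_nonneg_right hl3 hl0.le).trans ?_)
      calc l * l = l ^ 2 := by ring
        _ ≤ l ^ 3 := pow_le_pow_right₀ (by linarith only [hl4]) (by norm_num)
    exact le_of_mul_le_mul_right (hbad.trans e3) (by positivity)
  have hM : ((Px x).card : ℝ) ≤ 2 * (v + 1) * artinMain x := by
    have hPcard : ((Px x).card : ℝ) ≤ 2 * P.card := by
      have e1 : (Px x).card = (Px x \ P).card + P.card := by
        rw [Finset.card_sdiff_add_card_eq_card (Finset.filter_subset _ _)]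
      have e2 : ((Px x).card : ℝ) = ((Px x \ P).card : ℝ) + P.card := by exact_mod_cast e1
      have e3 : (x : ℝ) / l ^ A ≤ (1 / 2) * ((x : ℝ) / (2 * l)) := by
        have : (1 / 2 : ℝ) * ((x : ℝ) / (2 * l)) = x / (4 * l) := by
          field_simp; norm_num
        rw [this]
        refine div_le_div_of_nonneg_left (by linarith only [hxr]) (by positivity) ?_
        calc 4 * l ≤ l * l := by nlinarith only [hl4]
          _ = l ^ 2 := by ring
          _ ≤ l ^ A := pow_le_pow_right₀ (by linarith only [hl4]) hA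
      linarith only [hpi, hbad2, e2, e3]
    have hsum : (P.card : ℝ) * (1 / (v + 1)) ≤ artinMain x := by
      rw [artinMain_eq]
      calc (P.card : ℝ) * (1 / (v + 1)) = ∑ p ∈ P, 1 / (v + 1) := by simp only [one_div, sum_const, nsmul_eq_mul]
        _ ≤ ∑ p ∈ P, wt p := by
            refine Finset.sum_le_sum fun p hp => ?_
            rw [hP, mem_filter] at hp
            have hpp := (mem_Px.1 hp.1).1
            rw [wt_eq_prod hpp]
            have h1 := prod_one_sub_inv_ge (p - 1).primeFactors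
              (fun q hq => (Nat.prime_of_mem_primeFactors hq).two_le)
            simp only [← one_div] at h1
            refine le_trans ?_ h1
            have h2 : ((p - 1).primeFactors.card : ℝ) ≤ v := by
              refine le_trans ?_ hp.2
              have h3 : (p - 1).primeFactors.card =
                  (Lset z (p - 1)).card + (Uset z (p - 1)).card := by
                have hU : Uset z (p - 1) = (p - 1).primeFactors.filter (fun l => ¬ l ≤ z) := by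
                  unfold Uset
                  exact Finset.filter_congr fun l _ => not_le.symm
                rw [hU, Lset, Finset.card_filter_add_card_filter_not]
              rw [h3]
              push_cast
              have h4 : ((Lset z (p - 1)).card : ℝ) ≤ 2 ^ (Lset z (p - 1)).card := by
                exact_mod_cast (Nat.lt_two_pow_self).le
              linarith only [h4]
            exact one_div_le_one_div_of_le (by (clear * -; positivity)) (by linarith only [h2])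
        _ ≤ ∑ p ∈ Px x, wt p :=
            Finset.sum_le_sum_of_subset_of_nonneg (Finset.filter_subset _ _)
              fun p _ _ => wt_nonneg p
    have hv1 : 0 < v + 1 := by linarith only [hv]
    rw [mul_one_div, div_le_iff₀ hv1] at hsum
    linarith only [hPcard, hsum]
  refine ⟨z, P, Finset.filter_subset _ _, fun p hp => (mem_filter.1 hp).2, hbad2, ?_, hM⟩
  refine (sum_cL_zero_le x z (by rw [hz]; positivity)).trans ?_
  exact div_le_div_of_nonneg_left (by linarith only [hxr]) (by positivity) hj2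

end Vale.Agent.P016
end
end

section

section

namespace Vale.Agent.P016

open Finset Filter

lemma bigT_eq {x z : ℕ} {P : Finset ℕ} (hP : P ⊆ Px x) (a : ℕ) :
    bigT z P a = (∑ p ∈ P, ∑ t ∈ Ico 1 (p - 1), (cT z (p - 1) t : ℂ) * (ech p a) ^ t).re := by
  rw [bigT, Complex.re_sum]
  refine Finset.sum_congr rfl fun p hp => ?_
  rw [← gT_eq (mem_Px.1 (hP hp)).1, Complex.ofReal_re]

lemma bigL_eq {x z : ℕ} {P : Finset ℕ} (hP : P ⊆ Px x) (a : ℕ) :
    bigL z P a = (∑ p ∈ P, ∑ t ∈ Ico 1 (p - 1), (cL z (p - 1) t : ℂ) * (ech p a) ^ t).re := by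
  rw [bigL, Complex.re_sum]
  refine Finset.sum_congr rfl fun p hp => ?_
  rw [← gL_eq (mem_Px.1 (hP hp)).1, Complex.ofReal_re]

lemma bigTL_eq {x z : ℕ} {P : Finset ℕ} (hP : P ⊆ Px x) (a : ℕ) :
    -(bigT z P a - bigL z P a) = (∑ p ∈ P, ∑ t ∈ Ico 1 (p - 1),
      ((-(cT z (p - 1) t - cL z (p - 1) t) : ℝ) : ℂ) * (ech p a) ^ t).re := by
  rw [bigT_eq hP, bigL_eq hP, ← Complex.sub_re, ← Complex.neg_re, ← Finset.sum_sub_distrib,
    ← Finset.sum_neg_distrib]
  congr 1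
  refine Finset.sum_congr rfl fun p _ => ?_
  rw [← Finset.sum_sub_distrib, ← Finset.sum_neg_distrib]
  refine Finset.sum_congr rfl fun t _ => ?_
  push_cast
  ring

lemma coef_bound {x z : ℕ} {P : Finset ℕ} (hP : P ⊆ Px x) {v : ℝ}
    (hv : ∀ p ∈ P, (2 : ℝ) ^ (Lset z (p - 1)).card + ((Uset z (p - 1)).card : ℝ) ≤ v)
    (c : ℕ → ℕ → ℝ) (hc : ∀ p t, |c p t| ≤ |cT z (p - 1) t| + |cL z (p - 1) t|) :
    ∀ p ∈ P, ∑ t ∈ Ico 1 (p - 1), |c p t| ≤ v := by
  intro p hp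
  have hpp := (mem_Px.1 (hP hp)).1
  have hpos : 0 < p - 1 := by have := hpp.two_le; omega
  refine le_trans ?_ (hv p hp)
  calc ∑ t ∈ Ico 1 (p - 1), |c p t|
      ≤ ∑ t ∈ Ico 1 (p - 1), (|cT z (p - 1) t| + |cL z (p - 1) t|) :=
        Finset.sum_le_sum fun t _ => hc p t
    _ ≤ ∑ t ∈ range (p - 1), (|cT z (p - 1) t| + |cL z (p - 1) t|) := by
        refine Finset.sum_le_sum_of_subset_of_nonneg ?_ fun _ _ _ => by (clear * -; positivity)
        intro t ht
        rw [mem_Ico] at ht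
        exact mem_range.2 ht.2
    _ = ∑ t ∈ range (p - 1), |cT z (p - 1) t| + ∑ t ∈ range (p - 1), |cL z (p - 1) t| :=
        Finset.sum_add_distrib
    _ ≤ _ := add_le_add (sum_abs_cT_le z (p - 1) hpos) (sum_abs_cL_le z (p - 1) hpos)

/-- Count for one sign. -/
lemma side_count (x Y m : ℕ) (hx : 3 ≤ x) (hY : 2 ≤ Y) (hL : 1 ≤ Real.log x)
    (P : Finset ℕ) (hP : P ⊆ Px x) (v : ℝ) (hv1 : 1 ≤ v) (c : ℕ → ℕ → ℝ)
    (hc : ∀ p ∈ P, ∑ t ∈ Ico 1 (p - 1), |c p t| ≤ v)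
    (hpi : (x : ℝ) / (2 * Real.log x) ≤ #(Px x)) (Δ W : ℝ) (hΔ : 0 < Δ)
    (hW : v * #(Px x) / Δ ≤ W) (Q : Finset ℕ) (hQ : ∀ q ∈ Q, q.Prime) (hQY : ∀ q ∈ Q, q ≤ Y)
    (hlow : ∀ q ∈ Q, Δ ≤ (∑ p ∈ P, ∑ t ∈ Ico 1 (p - 1), (c p t : ℂ) * (ech p (m * q)) ^ t).re) :
    (#Q : ℝ) ≤ W ^ 2 * ((Nat.clog Y (x ^ 2) : ℕ) : ℝ) * Y *
      (7 * Real.log x / x) ^ (1 / ((Nat.clog Y (x ^ 2) : ℕ) : ℝ)) := by
  have hxr : (0 : ℝ) < x := by positivity
  have hpi0 : (0 : ℝ) < #(Px x) := lt_of_lt_of_le (by positivity) hpi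
  have hVpos : 0 < v * #(Px x) := by (clear * - hv1 hpi0; positivity)
  have hW0 : 0 ≤ W := le_trans (by (clear * - hv1 hpi0 hΔ; positivity)) hW
  have hk : 1 ≤ Nat.clog Y (x ^ 2) := Nat.clog_pos (by omega) (by nlinarith only [hx])
  have hPc : (#P : ℝ) ≤ #(Px x) := by exact_mod_cast Finset.card_le_card hP
  have h := one_side' x P hP c v hc m Q hQ Y (Nat.clog Y (x ^ 2)) (Y ^ (Nat.clog Y (x ^ 2)) + 1) hk
    hQY (Nat.lt_succ_self _) Δ hΔ hlow (v * #(Px x))
    (mul_le_mul_of_nonneg_left hPc (by linarith only [hv1])) (by linarith only [hv1]) (by omega) hVpos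
  refine root_bound x Y hx hY hL (#Q : ℝ) W hW0 (h.trans ?_)
  have h1 : v / (v * #(Px x)) ≤ 2 * Real.log x / x := by
    rw [div_mul_eq_div_div, div_self (by linarith only [hv1] : v ≠ 0)]
    rw [div_le_div_iff₀ hpi0 hxr]
    rw [div_le_iff₀ (by positivity)] at hpi
    linarith only [hpi]
  refine mul_le_mul (pow_le_pow_left₀ (by (clear * - hv1 hpi0 hΔ; positivity)) hW _) ?_ (by (clear * - hY hv1 hpi0 hx hL; positivity)) (by (clear * - hW0; positivity))
  refine mul_le_mul_of_nonneg_left ?_ (by positivity)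
  refine add_le_add ?_ le_rfl
  exact mul_le_mul_of_nonneg_left h1 (Nat.cast_nonneg _)

lemma om_le (x m q : ℕ) (hm : m ≠ 0) (hq : q.Prime) :
    (om x (m * q) : ℝ) ≤ (m.primeFactors.card : ℝ) + 1 := by
  have h1 : (Px x).filter (fun p => p ∣ m * q) ⊆ insert q m.primeFactors := by
    intro p hp
    rw [mem_filter, mem_Px] at hp
    rw [mem_insert, Nat.mem_primeFactors]
    rcases (Nat.Prime.dvd_mul hp.1.1).1 hp.2 with h | h
    · exact Or.inr ⟨hp.1.1, h, hm⟩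
    · exact Or.inl ((Nat.prime_dvd_prime_iff_eq hp.1.1 hq).1 h)
  have h2 := (Finset.card_le_card h1).trans (Finset.card_insert_le _ _)
  rw [om]
  exact_mod_cast h2

/-- Lower bound for the main term and the error terms. -/
lemma err_small (δ D : ℝ) (hδ : 0 < δ) (A : ℕ) (hAD : D + 3 ≤ A) (x : ℕ) (hx3 : 3 ≤ x)
    (L v M pi : ℝ) (hL : 1 ≤ L) (_hv1 : 1 ≤ v) (hvL : v ≤ L) (hM0' : 0 ≤ M)
    (hpi : (x : ℝ) / (2 * L) ≤ pi) (hpiM : pi ≤ 2 * (v + 1) * M)
    (e5 : 128 / δ ≤ L) (e6 : 64 / δ * L ^ (2 + D) ≤ Real.sqrt x) :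
    0 < M ∧ 2 * ((x : ℝ) / L ^ A) ≤ δ * M / (2 * L ^ D) / 2 ∧
      Real.sqrt x + 1 ≤ δ * M / (2 * L ^ D) / 2 := by
  have hL0 : 0 < L := by linarith only [hL]
  have hxr : (0 : ℝ) < x := by positivity
  have hMlow : (x : ℝ) / (8 * L ^ (2 : ℝ)) ≤ M := by
    have h1 : (x : ℝ) / (2 * L) ≤ 2 * (v + 1) * M := hpi.trans hpiM
    have h2 : 2 * (v + 1) * M ≤ 4 * L * M := by nlinarith only [hL, hM0', hvL]
    rw [div_le_iff₀ (by positivity)]
    have h3 : (x : ℝ) / (2 * L) ≤ 4 * L * M := h1.trans h2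
    rw [div_le_iff₀ (by positivity)] at h3
    rw [Real.rpow_two]
    linarith only [h3]
  have hM0 : 0 < M := lt_of_lt_of_le (by positivity) hMlow
  have hLx0 : 0 < L ^ D := Real.rpow_pos_of_pos hL0 D
  have hΔlow : δ * x / (16 * L ^ (2 + D)) ≤ δ * M / (2 * L ^ D) := by
    rw [Real.rpow_add hL0]
    have h1 : δ * ((x : ℝ) / (8 * L ^ (2 : ℝ))) ≤ δ * M := mul_le_mul_of_nonneg_left hMlow hδ.le
    rw [div_le_div_iff₀ (by positivity) (by positivity)]
    have h2 : δ * (x : ℝ) ≤ δ * M * (8 * L ^ (2 : ℝ)) := by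
      rw [mul_div_assoc', div_le_iff₀ (by positivity)] at h1
      linarith only [h1]
    calc δ * x * (2 * L ^ D) ≤ δ * M * (8 * L ^ (2 : ℝ)) * (2 * L ^ D) :=
          mul_le_mul_of_nonneg_right h2 (by positivity)
      _ = _ := by ring
  have hLA : L ^ (2 + D) * (128 / δ) ≤ L ^ A := by
    have h1 : L ^ (2 + D) * (128 / δ) ≤ L ^ (2 + D) * L :=
      mul_le_mul_of_nonneg_left e5 (by positivity)
    have h2 : L ^ (2 + D) * L = L ^ (3 + D) := by
      rw [← Real.rpow_add_one hL0.ne']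
      congr 1
      ring
    have h3 : L ^ (3 + D) ≤ L ^ (A : ℝ) := Real.rpow_le_rpow_of_exponent_le hL (by linarith only [hAD])
    rw [Real.rpow_natCast] at h3
    linarith only [h1, h2, h3]
  refine ⟨hM0, ?_, ?_⟩
  · have h1 : 2 * ((x : ℝ) / L ^ A) ≤ (δ * x / (16 * L ^ (2 + D))) / 2 := by
      rw [← mul_div_assoc, div_div, div_le_div_iff₀ (by positivity) (by positivity)]
      have h2 : L ^ (2 + D) * 128 ≤ δ * L ^ A := by
        rw [mul_div_assoc', div_le_iff₀ hδ] at hLA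
        linarith only [hLA]
      have h3 := mul_le_mul_of_nonneg_left h2 hxr.le
      have h4 : 0 ≤ (x : ℝ) * L ^ (2 + D) := by positivity
      linarith only [h3, h4]
    linarith only [hΔlow, h1]
  · have hs1 : 1 ≤ Real.sqrt x := by
      rw [Real.one_le_sqrt]
      exact_mod_cast (by omega : 1 ≤ x)
    have h2 : 2 * Real.sqrt x ≤ (δ * x / (16 * L ^ (2 + D))) / 2 := by
      rw [div_div, le_div_iff₀ (by positivity)]
      have h3 : 64 * L ^ (2 + D) ≤ δ * Real.sqrt x := by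
        rw [div_mul_eq_mul_div, div_le_iff₀ hδ] at e6
        linarith only [e6]
      have h4 : Real.sqrt x * Real.sqrt x = x := Real.mul_self_sqrt hxr.le
      nlinarith only [h3, hδ, h4, hs1]
    linarith only [hΔlow, hs1, h2]

lemma VW_bound (δ Lx M v pi : ℝ) (hδ : 0 < δ) (hLx : 0 < Lx) (hM : 0 < M) (hv1 : 1 ≤ v)
    (hpiM : pi ≤ 2 * (v + 1) * M) :
    v * pi / (δ * M / (2 * Lx)) ≤ 8 * v ^ 2 * Lx / δ := by
  have hv0 : 0 < v := by linarith
  rw [div_le_iff₀ (by positivity)]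
  have h1 : v * pi ≤ v * (2 * (v + 1) * M) := mul_le_mul_of_nonneg_left hpiM hv0.le
  have h2 : v * (2 * (v + 1) * M) ≤ 4 * v ^ 2 * M := by nlinarith only [hv1, mul_pos hv0 hM]
  have h3 : 8 * v ^ 2 * Lx / δ * (δ * M / (2 * Lx)) = 4 * v ^ 2 * M := by field_simp; ring
  rw [h3]
  exact h1.trans h2

lemma residue_exists (x : ℕ) (m : ℤ) : ∃ n₀ : ℕ, ∀ p ∈ Px x, ((m : ℤ) : ZMod p) = (n₀ : ZMod p) := by
  refine ⟨(m % (PP x : ℤ)).toNat, fun p hp => ?_⟩
  have hpos : (0 : ℤ) < PP x := by exact_mod_cast PP_pos x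
  have h1 : ((m % (PP x : ℤ)).toNat : ℤ) = m % (PP x : ℤ) :=
    Int.toNat_of_nonneg (Int.emod_nonneg _ hpos.ne')
  have h2 : (((m % (PP x : ℤ)).toNat : ℤ) : ZMod p) = ((m % (PP x : ℤ) : ℤ) : ZMod p) := by
    rw [h1]
  rw [Int.cast_natCast] at h2
  rw [h2]
  have hdvd : (p : ℤ) ∣ (PP x : ℤ) := by
    exact_mod_cast Finset.dvd_prod_of_mem (fun p => p) hp
  rw [ZMod.intCast_eq_intCast_iff_dvd_sub]
  have h3 : (m % (PP x : ℤ)) - m = -((PP x : ℤ) * (m / (PP x : ℤ))) := by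
    have := Int.emod_add_mul_ediv m (PP x : ℤ)
    linarith only [this]
  rw [h3]
  exact (hdvd.mul_right _).neg_right

/-- The last numerical step. -/
lemma final_num (κ δ D : ℝ) (hκ : 0 < κ) (hδ : 0 < δ) (h : ℕ) (hhpos : 0 < h)
    (hh : 8 / κ ≤ h) (x Y : ℕ) (hx3 : 3 ≤ x) (hY2 : 2 ≤ Y) (L R : ℝ) (hL : 1 ≤ L) (hR0 : 0 ≤ R)
    (hnum : R ≤ 4 * L * ((Y : ℝ) ^ (-(1 / 2) + κ / 2) + (x : ℝ) ^ (-(κ / 4))))
    (e7 : 512 / δ ^ 2 ≤ L ^ (κ / 2)) (e8 : 512 / δ ^ 2 * L ^ (1 + 2 * D + κ / 2) ≤ (x : ℝ) ^ (κ / 8)) :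
    2 * ((8 * (L ^ (1 / (h : ℝ))) ^ 2 * L ^ D / δ) ^ 2 * Y * R) ≤
      (Y : ℝ) ^ (1 / 2 + κ) * L ^ (1 + 2 * D + κ) + Y * (x : ℝ) ^ (-(κ / 8)) := by
  have hL0 : 0 < L := by linarith only [hL]
  have hxr : (0 : ℝ) < x := by positivity
  have hYr : (0 : ℝ) < Y := by positivity
  have hhr : (0 : ℝ) < h := by exact_mod_cast hhpos
  have hW2 : (8 * (L ^ (1 / (h : ℝ))) ^ 2 * L ^ D / δ) ^ 2 ≤
      64 / δ ^ 2 * (L ^ (2 * D) * L ^ (κ / 2)) := by
    have h1 : (8 * (L ^ (1 / (h : ℝ))) ^ 2 * L ^ D / δ) ^ 2 =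
        64 / δ ^ 2 * ((L ^ D) ^ 2 * (L ^ (1 / (h : ℝ))) ^ 4) := by field_simp; ring
    have h2 : (L ^ D) ^ 2 = L ^ (2 * D) := by
      rw [← Real.rpow_natCast, ← Real.rpow_mul hL0.le]
      congr 1
      push_cast
      ring
    have h3 : (L ^ (1 / (h : ℝ))) ^ 4 ≤ L ^ (κ / 2) := by
      rw [← Real.rpow_natCast, ← Real.rpow_mul hL0.le]
      apply Real.rpow_le_rpow_of_exponent_le hL
      push_cast
      rw [div_mul_eq_mul_div, one_mul, div_le_div_iff₀ hhr (by norm_num)]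
      rw [div_le_iff₀ hκ] at hh
      linarith only [hh]
    rw [h1, h2]
    refine mul_le_mul_of_nonneg_left ?_ (by positivity)
    exact mul_le_mul_of_nonneg_left h3 (by positivity)
  have hx14 : 0 ≤ (x : ℝ) ^ (-(κ / 4)) := by positivity
  have h2 : (8 * (L ^ (1 / (h : ℝ))) ^ 2 * L ^ D / δ) ^ 2 * Y * R ≤
      (64 / δ ^ 2 * (L ^ (2 * D) * L ^ (κ / 2))) * Y *
      (4 * L * ((Y : ℝ) ^ (-(1 / 2) + κ / 2) + (x : ℝ) ^ (-(κ / 4)))) := by
    refine mul_le_mul ?_ hnum hR0 (by positivity)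
    exact mul_le_mul_of_nonneg_right hW2 hYr.le
  refine (mul_le_mul_of_nonneg_left h2 (by norm_num : (0 : ℝ) ≤ 2)).trans ?_
  have hLcomb : L ^ (2 * D) * L ^ (κ / 2) * L = L ^ (1 + 2 * D + κ / 2) := by
    rw [← Real.rpow_add hL0, ← Real.rpow_add_one hL0.ne']
    congr 1
    ring
  have hYcomb : (Y : ℝ) * (Y : ℝ) ^ (-(1 / 2) + κ / 2) ≤ (Y : ℝ) ^ (1 / 2 + κ) := by
    have : (Y : ℝ) * (Y : ℝ) ^ (-(1 / 2) + κ / 2) = (Y : ℝ) ^ (1 / 2 + κ / 2) := by
      rw [mul_comm, ← Real.rpow_add_one hYr.ne']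
      congr 1
      ring
    rw [this]
    exact Real.rpow_le_rpow_of_exponent_le (by exact_mod_cast (by omega : 1 ≤ Y)) (by linarith only [hκ])
  have e9 : 2 * ((64 / δ ^ 2 * (L ^ (2 * D) * L ^ (κ / 2))) * Y *
      (4 * L * ((Y : ℝ) ^ (-(1 / 2) + κ / 2) + (x : ℝ) ^ (-(κ / 4))))) =
      (512 / δ ^ 2 * L ^ (1 + 2 * D + κ / 2)) * ((Y : ℝ) * (Y : ℝ) ^ (-(1 / 2) + κ / 2)) +
      Y * ((512 / δ ^ 2 * L ^ (1 + 2 * D + κ / 2)) * (x : ℝ) ^ (-(κ / 4))) := by
    rw [← hLcomb]; ring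
  rw [e9]
  refine add_le_add ?_ ?_
  · have h3 : 512 / δ ^ 2 * L ^ (1 + 2 * D + κ / 2) ≤ L ^ (1 + 2 * D + κ) := by
      have : L ^ (1 + 2 * D + κ) = L ^ (κ / 2) * L ^ (1 + 2 * D + κ / 2) := by
        rw [← Real.rpow_add hL0]
        congr 1
        ring
      rw [this]
      exact mul_le_mul_of_nonneg_right e7 (by positivity)
    calc _ ≤ L ^ (1 + 2 * D + κ) * (Y : ℝ) ^ (1 / 2 + κ) :=
          mul_le_mul h3 hYcomb (by positivity) (by positivity)
      _ = _ := by ring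
  · refine mul_le_mul_of_nonneg_left ?_ hYr.le
    calc (512 / δ ^ 2 * L ^ (1 + 2 * D + κ / 2)) * (x : ℝ) ^ (-(κ / 4))
        ≤ (x : ℝ) ^ (κ / 8) * (x : ℝ) ^ (-(κ / 4)) := mul_le_mul_of_nonneg_right e8 hx14
      _ = (x : ℝ) ^ (-(κ / 8)) := by
          rw [← Real.rpow_add hxr]
          congr 1
          ring

open Classical in
/-- The bad primes lie in one of two sets. -/
lemma bad_subset (x Y z : ℕ) (P : Finset ℕ) (hP : P ⊆ Px x) (m : ℤ) (hm : m ≠ 0)
    (hmω : (m.natAbs.primeFactors.card : ℝ) ≤ Real.sqrt x) (n₀ : ℕ)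
    (hn₀ : ∀ p ∈ Px x, ((m : ℤ) : ZMod p) = (n₀ : ZMod p)) (Δ E : ℝ)
    (hPc : ((Px x \ P).card : ℝ) ≤ E) (hPs : ∑ p ∈ Px x, cL z (p - 1) 0 ≤ E)
    (hE1 : 2 * E ≤ Δ / 2) (hE2 : Real.sqrt x + 1 ≤ Δ / 2) :
    (Finset.range (Y + 1)).filter (fun q : ℕ => q.Prime ∧
        2 * Δ < |(artinCount (m * q) x : ℝ) - artinMain x|) ⊆
      (Finset.range (Y + 1)).filter (fun q : ℕ => q.Prime ∧ Δ ≤ bigT z P (n₀ * q)) ∪
      (Finset.range (Y + 1)).filter (fun q : ℕ => q.Prime ∧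
        Δ ≤ -(bigT z P (n₀ * q) - bigL z P (n₀ * q))) := by
  have hcount : ∀ q : ℕ, (artinCount (m * q) x : ℝ) = ∑ p ∈ Px x, fp p (n₀ * q) := by
    intro q
    refine artinCount_eq _ _ x fun p hp => ?_
    push_cast
    rw [hn₀ p hp]
  have hdv : ∀ q : ℕ, ∀ p ∈ Px x, p ∣ n₀ * q → p ∣ m.natAbs * q := by
    intro q p hp hd
    have hpp := (mem_Px.1 hp).1
    rcases (Nat.Prime.dvd_mul hpp).1 hd with h | h
    · refine Dvd.dvd.mul_right ?_ q
      rw [← Int.natCast_dvd]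
      rw [← ZMod.intCast_zmod_eq_zero_iff_dvd, hn₀ p hp]
      exact (ZMod.natCast_eq_zero_iff n₀ p).2 h
    · exact Dvd.dvd.mul_left h _
  have hsumcL : ∑ p ∈ P, cL z (p - 1) 0 ≤ E := by
    refine le_trans ?_ hPs
    exact Finset.sum_le_sum_of_subset_of_nonneg hP
      fun p hp _ => (cT_zero_bounds (mem_Px.1 hp).1 z).2.2.2
  intro q hq
  rw [mem_filter] at hq
  obtain ⟨hq1, hq2, hq3⟩ := hq
  rw [hcount q] at hq3
  rcases lt_abs.1 hq3 with h1 | h1
  · refine mem_union_left _ ?_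
    rw [mem_filter]
    refine ⟨hq1, hq2, ?_⟩
    have h2 := sandwich_upper z x (n₀ * q) P hP
    linarith only [hPc, hE1, hsumcL, h1, h2]
  · refine mem_union_right _ ?_
    rw [mem_filter]
    refine ⟨hq1, hq2, ?_⟩
    have h2 := sandwich_lower z x (n₀ * q) (m.natAbs * q) P hP (hdv q)
    have h3 := om_le x m.natAbs q (Int.natAbs_ne_zero.2 hm) hq2
    linarith

open Classical in
/-- Count of the bad primes in terms of parameters. -/
lemma bad_card (x Y z : ℕ) (hx : 3 ≤ x) (hY : 2 ≤ Y) (hL : 1 ≤ Real.log x)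
    (P : Finset ℕ) (hP : P ⊆ Px x) (v : ℝ) (hv1 : 1 ≤ v)
    (hPv : ∀ p ∈ P, (2 : ℝ) ^ (Lset z (p - 1)).card + ((Uset z (p - 1)).card : ℝ) ≤ v)
    (hpi : (x : ℝ) / (2 * Real.log x) ≤ #(Px x)) (Δ W : ℝ) (hΔ : 0 < Δ)
    (hW : v * #(Px x) / Δ ≤ W) (m : ℤ) (hm : m ≠ 0)
    (hmω : (m.natAbs.primeFactors.card : ℝ) ≤ Real.sqrt x) (E : ℝ)
    (hPc : ((Px x \ P).card : ℝ) ≤ E) (hPs : ∑ p ∈ Px x, cL z (p - 1) 0 ≤ E)
    (hE1 : 2 * E ≤ Δ / 2) (hE2 : Real.sqrt x + 1 ≤ Δ / 2) :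
    (((Finset.range (Y + 1)).filter (fun q : ℕ => q.Prime ∧
        2 * Δ < |(artinCount (m * q) x : ℝ) - artinMain x|)).card : ℝ) ≤
      2 * (W ^ 2 * Y * (((Nat.clog Y (x ^ 2) : ℕ) : ℝ) *
      (7 * Real.log x / x) ^ (1 / ((Nat.clog Y (x ^ 2) : ℕ) : ℝ)))) := by
  obtain ⟨n₀, hn₀⟩ := residue_exists x m
  have hsub := bad_subset x Y z P hP m hm hmω n₀ hn₀ Δ E hPc hPs hE1 hE2
  have hQple := side_count x Y n₀ hx hY hL P hP v hv1 (fun p t => cT z (p - 1) t)
    (coef_bound hP hPv _ fun p t => by linarith only [abs_nonneg (cL z (p - 1) t)])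
    hpi Δ W hΔ hW
    ((Finset.range (Y + 1)).filter (fun q : ℕ => q.Prime ∧ Δ ≤ bigT z P (n₀ * q)))
    (fun q hq => (mem_filter.1 hq).2.1)
    (fun q hq => Nat.lt_succ_iff.1 (mem_range.1 (mem_filter.1 hq).1))
    (fun q hq => by rw [← bigT_eq hP]; exact (mem_filter.1 hq).2.2)
  have hQmle := side_count x Y n₀ hx hY hL P hP v hv1
    (fun p t => -(cT z (p - 1) t - cL z (p - 1) t))
    (coef_bound hP hPv _ fun p t => by rw [abs_neg]; exact abs_sub _ _)
    hpi Δ W hΔ hW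
    ((Finset.range (Y + 1)).filter (fun q : ℕ => q.Prime ∧
        Δ ≤ -(bigT z P (n₀ * q) - bigL z P (n₀ * q))))
    (fun q hq => (mem_filter.1 hq).2.1)
    (fun q hq => Nat.lt_succ_iff.1 (mem_range.1 (mem_filter.1 hq).1))
    (fun q hq => by rw [← bigTL_eq hP]; exact (mem_filter.1 hq).2.2)
  have hcard : (((Finset.range (Y + 1)).filter (fun q : ℕ => q.Prime ∧
        2 * Δ < |(artinCount (m * q) x : ℝ) - artinMain x|)).card : ℝ) ≤
      (((Finset.range (Y + 1)).filter (fun q : ℕ => q.Prime ∧ Δ ≤ bigT z P (n₀ * q))).card : ℝ) +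
      (((Finset.range (Y + 1)).filter (fun q : ℕ => q.Prime ∧
        Δ ≤ -(bigT z P (n₀ * q) - bigL z P (n₀ * q)))).card : ℝ) := by
    exact_mod_cast (Finset.card_le_card hsub).trans (Finset.card_union_le _ _)
  refine hcard.trans ((add_le_add hQple hQmle).trans (le_of_eq ?_))
  ring

open Classical in
/-- Theorem P for `κ ≤ 1`. -/
lemma primeBases_aux (κ δ D : ℝ) (hκ : 0 < κ) (hκ1 : κ ≤ 1) (hδ : 0 < δ) (_hD : 0 ≤ D) :
    ∃ x₀ : ℕ, ∀ x : ℕ, x₀ ≤ x → ∀ m : ℤ, m ≠ 0 →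
      (m.natAbs.primeFactors.card : ℝ) ≤ Real.sqrt x → ∀ Y : ℕ,
      (((Finset.range (Y + 1)).filter (fun q : ℕ => q.Prime ∧
        δ * artinMain x / (Real.log x) ^ D < |(artinCount (m * q) x : ℝ) - artinMain x|)).card : ℝ) ≤
      (Y : ℝ) ^ (1 / 2 + κ) * (Real.log x) ^ (1 + 2 * D + κ) + Y * (x : ℝ) ^ (-(κ / 8)) := by
  obtain ⟨h, hh⟩ := exists_nat_ge (8 / κ)
  have hhpos : 0 < h := by
    rcases Nat.eq_zero_or_pos h with h0 | h0
    · rw [h0, Nat.cast_zero] at hh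
      have : 0 < 8 / κ := by positivity
      linarith only [hh, this]
    · exact h0
  have hhr : (0 : ℝ) < h := by exact_mod_cast hhpos
  obtain ⟨A, hA⟩ : ∃ A : ℕ, A = ⌈D⌉₊ + 3 := ⟨_, rfl⟩
  have hAD : D + 3 ≤ A := by
    rw [hA]
    push_cast
    have := Nat.le_ceil D
    linarith only [this]
  obtain ⟨x₁, hx₁⟩ := trunc_final h A (by omega)
  obtain ⟨x₂, hx₂⟩ := pi_lower
  have hev := ((((eventually_ge_atTop x₁).and (eventually_ge_atTop (max x₂ 3))).and
    (numeric_bound κ hκ hκ1)).and ((ev_log_rpow 1 1 one_pos).and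
    (ev_log_rpow (128 / δ) 1 one_pos))).and (((ev_rpow (64 / δ) (2 + D) (1 / 2) (by norm_num)).and
    (ev_log_rpow (512 / δ ^ 2) (κ / 2) (by positivity))).and
    (ev_rpow (512 / δ ^ 2) (1 + 2 * D + κ / 2) (κ / 8) (by positivity)))
  obtain ⟨x₀, hx₀⟩ := Filter.eventually_atTop.1 hev
  refine ⟨x₀, fun x hx m hm hmω Y => ?_⟩
  obtain ⟨⟨⟨⟨e1, e2⟩, e3⟩, e4, e5⟩, ⟨e6, e7⟩, e8⟩ := hx₀ x hx
  rw [Real.rpow_one] at e4 e5
  have hx3 : 3 ≤ x := le_trans (le_max_right _ _) e2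
  have hxx2 : x₂ ≤ x := le_trans (le_max_left _ _) e2
  have hxr : (0 : ℝ) < x := by positivity
  have hL0 : 0 < Real.log x := by linarith only [e4]
  -- trivial case
  rcases lt_or_ge Y 2 with hY2 | hY2
  · have : (Finset.range (Y + 1)).filter (fun q : ℕ => q.Prime ∧
        δ * artinMain x / (Real.log x) ^ D < |(artinCount (m * q) x : ℝ) - artinMain x|) = ∅ := by
      refine Finset.filter_eq_empty_iff.2 fun q hq => ?_
      rw [mem_range] at hq
      rintro ⟨h1, _⟩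
      have := h1.two_le
      omega
    rw [this, Finset.card_empty, Nat.cast_zero]
    (clear * - e4 hx3; positivity)
  -- parameters
  have hv1 : 1 ≤ (Real.log x) ^ (1 / (h : ℝ)) := Real.one_le_rpow e4 (by positivity)
  have hvh : ((Real.log x) ^ (1 / (h : ℝ))) ^ h = Real.log x := by
    rw [one_div]
    exact Real.rpow_inv_natCast_pow hL0.le hhpos.ne'
  have hvL : (Real.log x) ^ (1 / (h : ℝ)) ≤ Real.log x := by
    calc (Real.log x) ^ (1 / (h : ℝ)) ≤ ((Real.log x) ^ (1 / (h : ℝ))) ^ h :=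
          le_self_pow₀ hv1 hhpos.ne'
      _ = Real.log x := hvh
  obtain ⟨z, P, hP, hPv, hPc, hPs, hpiM⟩ := hx₁ x e1 _ (by linarith only [hv1]) hvh
  have hpi := hx₂ x hxx2
  rw [← Real.sqrt_eq_rpow] at e6
  obtain ⟨hM0, hE1, hE2⟩ := err_small δ D hδ A hAD x hx3 (Real.log x) _ (artinMain x) _ e4 hv1 hvL
    (artinMain_nonneg x) hpi hpiM e5 e6
  have hLx0 : 0 < (Real.log x) ^ D := Real.rpow_pos_of_pos hL0 D
  have hVW := VW_bound δ ((Real.log x) ^ D) (artinMain x) _ _ hδ hLx0 hM0 hv1 hpiM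
  have hb := bad_card x Y z hx3 hY2 e4 P hP _ hv1 hPv hpi _ _ (by (clear * - hδ hM0 e4; positivity)) hVW m hm hmω _ hPc hPs
    hE1 hE2
  have e9 : 2 * (δ * artinMain x / (2 * (Real.log x) ^ D)) = δ * artinMain x / (Real.log x) ^ D := by
    (clear * - e4 hM0 hδ; field_simp)
  rw [e9] at hb
  exact hb.trans (final_num κ δ D hκ hδ h hhpos hh x Y hx3 hY2 _ _ e4 (by (clear * - e4 hx3; positivity)) (e3 Y hY2) e7 e8)

open Classical in
/-- **Theorem P.** -/
theorem primeBases (κ δ D : ℝ) (hκ : 0 < κ) (hδ : 0 < δ) (hD : 0 ≤ D) :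
    ∃ c : ℝ, 0 < c ∧ ∃ x₀ : ℕ, ∀ x : ℕ, x₀ ≤ x → ∀ m : ℤ, m ≠ 0 →
      (m.natAbs.primeFactors.card : ℝ) ≤ Real.sqrt x → ∀ Y : ℕ,
      (((Finset.range (Y + 1)).filter (fun q : ℕ => q.Prime ∧
        δ * artinMain x / (Real.log x) ^ D < |(artinCount (m * q) x : ℝ) - artinMain x|)).card : ℝ) ≤
      (Y : ℝ) ^ (1 / 2 + κ) * (Real.log x) ^ (1 + 2 * D + κ) + Y * (x : ℝ) ^ (-c) := by
  have hmin : 0 < min κ 1 := lt_min hκ one_pos
  obtain ⟨x₁, hx₁⟩ := primeBases_aux (min κ 1) δ D hmin (min_le_right _ _) hδ hD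
  obtain ⟨x₂, hx₂⟩ := Filter.eventually_atTop.1 (ev_log_rpow 1 1 one_pos)
  refine ⟨min κ 1 / 8, by positivity, max x₁ (max x₂ 1), fun x hx m hm hmω Y => ?_⟩
  have h1 := hx₁ x ((le_max_left _ _).trans hx) m hm hmω Y
  have hL := hx₂ x (((le_max_left _ _).trans (le_max_right _ _)).trans hx)
  rw [Real.rpow_one] at hL
  refine h1.trans ?_
  refine add_le_add ?_ le_rfl
  rcases Nat.eq_zero_or_pos Y with h0 | h0
  · rw [h0, Nat.cast_zero, Real.zero_rpow (by linarith only [hmin]), zero_mul]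
    have := Real.rpow_nonneg (le_refl (0 : ℝ)) (1 / 2 + κ)
    (clear * - hL; positivity)
  · have hYr : (1 : ℝ) ≤ Y := by exact_mod_cast h0
    refine mul_le_mul (Real.rpow_le_rpow_of_exponent_le hYr ?_)
      (Real.rpow_le_rpow_of_exponent_le hL ?_) (by positivity) (by positivity)
    · linarith only [min_le_left κ 1]
    · linarith only [min_le_left κ 1]

end Vale.Agent.P016
end
end

section

section

namespace Vale.Agent.P016

open Finset Filter

lemma sum_rpow_neg_le (s : ℝ) (hs0 : 0 ≤ s) (hs : s < 1) (K : ℕ) :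
    ∑ n ∈ Icc 1 K, (n : ℝ) ^ (-s) ≤ (K : ℝ) ^ (1 - s) / (1 - s) := by
  have h1s : 0 < 1 - s := by linarith
  induction K with
  | zero =>
    simp only [Nat.cast_zero, Real.zero_rpow h1s.ne']
    simp only [Order.lt_one_iff, Icc_eq_empty_of_lt, sum_empty, zero_div, Std.le_refl]
  | succ K ih =>
    rw [Finset.sum_Icc_succ_top (by omega)]
    have hK : (0 : ℝ) < (K : ℝ) + 1 := by positivity
    push_cast
    have h2 := rpow_one_add_le_one_add_mul_self (s := -(1 / ((K : ℝ) + 1)))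
      (by
        have : 1 / ((K : ℝ) + 1) ≤ 1 := by
          rw [div_le_one hK]
          have : (0 : ℝ) ≤ K := Nat.cast_nonneg K
          linarith only []
        linarith only [this]) h1s.le (by linarith only [hs0] : 1 - s ≤ 1)
    have h3 : (K : ℝ) ^ (1 - s) = ((K : ℝ) + 1) ^ (1 - s) * (1 + -(1 / ((K : ℝ) + 1))) ^ (1 - s) := by
      rw [← Real.mul_rpow hK.le]
      · congr 1
        field_simp
        ring
      · have : 1 / ((K : ℝ) + 1) ≤ 1 := by
          rw [div_le_one hK]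
          have : (0 : ℝ) ≤ K := Nat.cast_nonneg K
          linarith only []
        linarith only [this]
    have h4 : ((K : ℝ) + 1) ^ (1 - s) = ((K : ℝ) + 1) ^ (-s) * ((K : ℝ) + 1) := by
      rw [← Real.rpow_add_one hK.ne']
      congr 1
      ring
    have h5 : (K : ℝ) ^ (1 - s) ≤ ((K : ℝ) + 1) ^ (1 - s) - (1 - s) * ((K : ℝ) + 1) ^ (-s) := by
      have h6 : 0 ≤ ((K : ℝ) + 1) ^ (1 - s) := by (clear * -; positivity)
      calc (K : ℝ) ^ (1 - s) = ((K : ℝ) + 1) ^ (1 - s) * (1 + -(1 / ((K : ℝ) + 1))) ^ (1 - s) := h3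
        _ ≤ ((K : ℝ) + 1) ^ (1 - s) * (1 + (1 - s) * -(1 / ((K : ℝ) + 1))) :=
            mul_le_mul_of_nonneg_left h2 h6
        _ = _ := by
            rw [h4]
            field_simp
            ring
    calc ∑ n ∈ Icc 1 K, (n : ℝ) ^ (-s) + ((K : ℝ) + 1) ^ (-s)
        ≤ (K : ℝ) ^ (1 - s) / (1 - s) + ((K : ℝ) + 1) ^ (-s) := by linarith only [ih]
      _ = ((K : ℝ) ^ (1 - s) + (1 - s) * ((K : ℝ) + 1) ^ (-s)) / (1 - s) := by (clear * - h1s; field_simp)
      _ ≤ _ := by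
          apply div_le_div_of_nonneg_right _ h1s.le
          linarith only [h5]

open Classical in
/-- bad primes -/
noncomputable def BadQ (δ D : ℝ) (x : ℕ) (m : ℤ) (Y : ℕ) : Finset ℕ :=
  (Finset.range (Y + 1)).filter (fun q : ℕ => q.Prime ∧
    δ * artinMain x / (Real.log x) ^ D < |(artinCount (m * q) x : ℝ) - artinMain x|)

open Classical in
/-- bad integers with a prime factor `> z` -/
noncomputable def BadA (δ D : ℝ) (x : ℕ) (z : ℝ) (y : ℕ) : Finset ℤ :=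
  (Finset.Icc (-(y : ℤ)) (y : ℤ)).filter (fun a : ℤ => a ≠ 0 ∧
    (∃ q : ℕ, q.Prime ∧ (q : ℤ) ∣ a ∧ z < q) ∧
    δ * artinMain x / (Real.log x) ^ D < |(artinCount a x : ℝ) - artinMain x|)

lemma BadA_card_le (δ D : ℝ) (x : ℕ) (z : ℝ) (hz : 1 ≤ z) (y : ℕ) :
    (BadA δ D x z y).card ≤
      ∑ n ∈ Icc 1 ⌊(y : ℝ) / z⌋₊, (BadQ δ D x (n : ℤ) (y / n)).card +
      ∑ n ∈ Icc 1 ⌊(y : ℝ) / z⌋₊, (BadQ δ D x (-(n : ℤ)) (y / n)).card := by
  classical
  have hsub : BadA δ D x z y ⊆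
      (Icc 1 ⌊(y : ℝ) / z⌋₊).biUnion
        (fun n => (BadQ δ D x (n : ℤ) (y / n)).image (fun q : ℕ => (n : ℤ) * q)) ∪
      (Icc 1 ⌊(y : ℝ) / z⌋₊).biUnion
        (fun n => (BadQ δ D x (-(n : ℤ)) (y / n)).image (fun q : ℕ => (-(n : ℤ)) * q)) := by
    intro a ha
    rw [BadA, mem_filter, mem_Icc] at ha
    obtain ⟨⟨ha1, ha2⟩, ha0, ⟨q, hq, ⟨m, hm⟩, hzq⟩, hbad⟩ := ha
    have hq0 : 0 < q := hq.pos
    have hm0 : m ≠ 0 := by
      rintro rfl
      apply ha0
      rw [hm, mul_zero]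
    have habs : a.natAbs = q * m.natAbs := by rw [hm, Int.natAbs_mul, Int.natAbs_natCast]
    have hay : a.natAbs ≤ y := by omega
    have hmpos : 0 < m.natAbs := Int.natAbs_pos.2 hm0
    have hqle : q ≤ y / m.natAbs := by
      rw [Nat.le_div_iff_mul_le hmpos]
      rw [← habs]; exact hay
    have hmK : m.natAbs ∈ Icc 1 ⌊(y : ℝ) / z⌋₊ := by
      rw [mem_Icc]
      refine ⟨hmpos, ?_⟩
      apply Nat.le_floor
      rw [le_div_iff₀ (by linarith only [hz])]
      have h1 : (m.natAbs : ℝ) * z ≤ (m.natAbs : ℝ) * q :=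
        mul_le_mul_of_nonneg_left hzq.le (Nat.cast_nonneg _)
      have h2 : (m.natAbs : ℝ) * q ≤ y := by
        have : m.natAbs * q ≤ y := by rw [mul_comm, ← habs]; exact hay
        exact_mod_cast this
      linarith only [h1, h2]
    have hmem : q ∈ BadQ δ D x m (y / m.natAbs) := by
      rw [BadQ, mem_filter, mem_range]
      refine ⟨by omega, hq, ?_⟩
      rw [show m * (q : ℤ) = a by rw [hm]; ring]
      exact hbad
    rw [mem_union]
    rcases Int.natAbs_eq m with h | h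
    · left
      rw [mem_biUnion]
      refine ⟨m.natAbs, hmK, ?_⟩
      rw [mem_image]
      refine ⟨q, ?_, ?_⟩
      · rw [← h]; exact hmem
      · rw [← h, hm]; ring
    · right
      rw [mem_biUnion]
      refine ⟨m.natAbs, hmK, ?_⟩
      rw [mem_image]
      refine ⟨q, ?_, ?_⟩
      · rw [← h]; exact hmem
      · rw [← h, hm]; ring
  refine (Finset.card_le_card hsub).trans ((Finset.card_union_le _ _).trans ?_)
  refine add_le_add ?_ ?_
  · exact Finset.card_biUnion_le.trans (Finset.sum_le_sum fun n _ => Finset.card_image_le)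
  · exact Finset.card_biUnion_le.trans (Finset.sum_le_sum fun n _ => Finset.card_image_le)

/-- Summation over the cofactor. -/
lemma sum_cofactor (κ c Lp : ℝ) (hκ : 0 < κ) (hκ1 : κ ≤ 1 / 4) (hLp : 0 ≤ Lp) (x y : ℕ)
    (hx : 1 ≤ x) (hy : y ≤ x ^ 3) (z : ℝ) (hz : 1 ≤ z) :
    ∑ n ∈ Icc 1 ⌊(y : ℝ) / z⌋₊, (((y / n : ℕ) : ℝ) ^ (1 / 2 + κ) * Lp +
      ((y / n : ℕ) : ℝ) * (x : ℝ) ^ (-c)) ≤
    4 * y * z ^ (-(1 / 2) + κ) * Lp + y * ((1 + 3 * Real.log x) * (x : ℝ) ^ (-c)) := by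
  set K := ⌊(y : ℝ) / z⌋₊ with hK
  have hyr : (0 : ℝ) ≤ y := Nat.cast_nonneg y
  have hKy : (K : ℝ) ≤ y / z := Nat.floor_le (by positivity)
  have hdiv : ∀ n ∈ Icc 1 K, ((y / n : ℕ) : ℝ) ≤ (y : ℝ) * (n : ℝ)⁻¹ := by
    intro n _
    rw [← div_eq_mul_inv]
    exact Nat.cast_div_le
  rw [Finset.sum_add_distrib]
  refine add_le_add ?_ ?_
  · rw [← Finset.sum_mul]
    refine mul_le_mul_of_nonneg_right ?_ hLp
    calc ∑ n ∈ Icc 1 K, ((y / n : ℕ) : ℝ) ^ (1 / 2 + κ)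
        ≤ ∑ n ∈ Icc 1 K, (y : ℝ) ^ (1 / 2 + κ) * (n : ℝ) ^ (-(1 / 2 + κ)) := by
          refine Finset.sum_le_sum fun n hn => ?_
          calc ((y / n : ℕ) : ℝ) ^ (1 / 2 + κ) ≤ ((y : ℝ) * (n : ℝ)⁻¹) ^ (1 / 2 + κ) :=
                Real.rpow_le_rpow (Nat.cast_nonneg _) (hdiv n hn) (by linarith only [hκ])
            _ = _ := by
                rw [Real.mul_rpow hyr (by (clear * -; positivity)), Real.inv_rpow (Nat.cast_nonneg _),
                  ← Real.rpow_neg (Nat.cast_nonneg _)]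
      _ = (y : ℝ) ^ (1 / 2 + κ) * ∑ n ∈ Icc 1 K, (n : ℝ) ^ (-(1 / 2 + κ)) := by rw [Finset.mul_sum]
      _ ≤ (y : ℝ) ^ (1 / 2 + κ) * (4 * (y / z) ^ (1 / 2 - κ)) := by
          refine mul_le_mul_of_nonneg_left ?_ (by (clear * -; positivity))
          refine (sum_rpow_neg_le (1 / 2 + κ) (by linarith only [hκ]) (by linarith only [hκ, hκ1]) K).trans ?_
          rw [div_le_iff₀ (by linarith only [hκ, hκ1])]
          have h1 : (K : ℝ) ^ (1 - (1 / 2 + κ)) ≤ (y / z) ^ (1 / 2 - κ) := by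
            rw [show 1 - (1 / 2 + κ) = 1 / 2 - κ by ring]
            exact Real.rpow_le_rpow (Nat.cast_nonneg _) hKy (by linarith only [hκ, hκ1])
          have h2 : 0 ≤ (y / z) ^ (1 / 2 - κ) := by positivity
          nlinarith only [h1, hκ1, h2]
      _ = 4 * y * z ^ (-(1 / 2) + κ) := by
          rw [Real.div_rpow hyr (by linarith only [hz])]
          rcases Nat.eq_zero_or_pos y with h0 | h0
          · rw [h0, Nat.cast_zero, Real.zero_rpow (by linarith only [hκ, hκ1])]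
            ring
          · have hy0 : (0 : ℝ) < y := by exact_mod_cast h0
            have hz0 : 0 < z := by linarith only [hz]
            have e1 : (y : ℝ) ^ (1 / 2 + κ) * (y : ℝ) ^ (1 / 2 - κ) = y := by
              rw [← Real.rpow_add hy0]
              rw [show 1 / 2 + κ + (1 / 2 - κ) = 1 by ring, Real.rpow_one]
            have e2 : z ^ (-(1 / 2) + κ) = (z ^ (1 / 2 - κ))⁻¹ := by
              rw [← Real.rpow_neg hz0.le]
              congr 1
              ring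
            rw [e2]
            calc (y : ℝ) ^ (1 / 2 + κ) * (4 * ((y : ℝ) ^ (1 / 2 - κ) / z ^ (1 / 2 - κ)))
                = 4 * ((y : ℝ) ^ (1 / 2 + κ) * (y : ℝ) ^ (1 / 2 - κ)) * (z ^ (1 / 2 - κ))⁻¹ := by ring
              _ = _ := by rw [e1]
  · rw [← Finset.sum_mul]
    rw [← mul_assoc]
    refine mul_le_mul_of_nonneg_right ?_ (by positivity)
    calc ∑ n ∈ Icc 1 K, ((y / n : ℕ) : ℝ) ≤ ∑ n ∈ Icc 1 K, (y : ℝ) * (n : ℝ)⁻¹ :=
          Finset.sum_le_sum hdiv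
      _ = y * ∑ n ∈ Icc 1 K, (n : ℝ)⁻¹ := by rw [Finset.mul_sum]
      _ ≤ y * (1 + 3 * Real.log x) := by
          rcases Nat.eq_zero_or_pos y with h0 | h0
          · rw [h0]; simp
          refine mul_le_mul_of_nonneg_left ?_ hyr
          have hKy' : K ≤ y := by
            have : (K : ℝ) ≤ y := hKy.trans (div_le_self hyr hz)
            exact_mod_cast this
          have h1 := harmonic_le_one_add_log y
          rw [harmonic_eq_sum_Icc] at h1
          push_cast at h1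
          have h2 : ∑ n ∈ Icc 1 K, (n : ℝ)⁻¹ ≤ ∑ n ∈ Icc 1 y, (n : ℝ)⁻¹ := by
            refine Finset.sum_le_sum_of_subset_of_nonneg ?_ fun _ _ _ => by (clear * -; positivity)
            exact Finset.Icc_subset_Icc le_rfl hKy'
          have h3 : Real.log y ≤ 3 * Real.log x := by
            have : Real.log y ≤ Real.log ((x : ℝ) ^ 3) := by
              refine Real.log_le_log (by exact_mod_cast h0) ?_
              exact_mod_cast hy
            rw [Real.log_pow] at this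
            push_cast at this
            exact this
          linarith only [h1, h2, h3]

/-- Small range of `y`. -/
lemma int_small (κ δ D : ℝ) (hκ : 0 < κ) (hκ1 : κ ≤ 1 / 4) (hδ : 0 < δ) (hD : 0 ≤ D) :
    ∃ c : ℝ, 0 < c ∧ ∃ x₀ : ℕ, ∀ x : ℕ, x₀ ≤ x → ∀ z : ℝ, 1 ≤ z → ∀ y : ℕ, y ≤ x ^ 3 →
      ((BadA δ D x z y).card : ℝ) ≤
      y * (z ^ (-(1 / 2) + κ) * (Real.log x) ^ (1 + 2 * D + κ) + (x : ℝ) ^ (-c)) := by
  obtain ⟨c, hc, x₁, hx₁⟩ := primeBases (κ / 2) δ D (by positivity) hδ hD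
  have hev := ((eventually_ge_atTop (max x₁ 1)).and (ev_rpow 5 1 (1 / 2) (by norm_num))).and
    (((ev_log_rpow 8 (κ / 2) (by positivity)).and (ev_log_rpow 1 1 one_pos)).and
    (ev_rpow 8 1 (c / 2) (by positivity)))
  obtain ⟨x₀, hx₀⟩ := Filter.eventually_atTop.1 hev
  refine ⟨c / 2, by positivity, x₀, fun x hx z hz y hy => ?_⟩
  obtain ⟨⟨e1, e2⟩, ⟨e3, e4⟩, e5⟩ := hx₀ x hx
  rw [Real.rpow_one] at e2 e4 e5
  have hxx1 : x₁ ≤ x := (le_max_left _ _).trans e1
  have hx1 : 1 ≤ x := (le_max_right _ _).trans e1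
  have hxr : (0 : ℝ) < x := by positivity
  set L := Real.log x with hL
  have hL0 : 0 < L := by linarith only [e4]
  have hω : ∀ n : ℕ, 1 ≤ n → n ≤ y → (n.primeFactors.card : ℝ) ≤ Real.sqrt x := by
    intro n hn1 hn2
    have h1 := card_primeFactors_le_log n (by omega)
    have h2 := natLog_le hn1 (hn2.trans hy)
    rw [Real.sqrt_eq_rpow]
    have h3 : (n.primeFactors.card : ℝ) ≤ (Nat.log 2 n : ℝ) := by exact_mod_cast h1
    linarith only [e2, h2, h3]
  have hKy : ⌊(y : ℝ) / z⌋₊ ≤ y := by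
    have h1 : (y : ℝ) / z ≤ y := div_le_self (Nat.cast_nonneg y) hz
    exact Nat.floor_le_of_le h1
  have hbound : ∀ n ∈ Icc 1 ⌊(y : ℝ) / z⌋₊, ∀ m : ℤ, m.natAbs = n →
      ((BadQ δ D x m (y / n)).card : ℝ) ≤
      ((y / n : ℕ) : ℝ) ^ (1 / 2 + κ / 2) * L ^ (1 + 2 * D + κ / 2) +
        ((y / n : ℕ) : ℝ) * (x : ℝ) ^ (-c) := by
    intro n hn m hmn
    rw [mem_Icc] at hn
    have hm0 : m ≠ 0 := by
      rw [← Int.natAbs_ne_zero, hmn]; omega
    refine hx₁ x hxx1 m hm0 ?_ (y / n)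
    rw [hmn]
    exact hω n hn.1 (hn.2.trans hKy)
  have h1 := BadA_card_le δ D x z hz y
  have h2 : ((BadA δ D x z y).card : ℝ) ≤
      ∑ n ∈ Icc 1 ⌊(y : ℝ) / z⌋₊, ((BadQ δ D x (n : ℤ) (y / n)).card : ℝ) +
      ∑ n ∈ Icc 1 ⌊(y : ℝ) / z⌋₊, ((BadQ δ D x (-(n : ℤ)) (y / n)).card : ℝ) := by
    exact_mod_cast h1
  have h3 := sum_cofactor (κ / 2) c (L ^ (1 + 2 * D + κ / 2)) (by positivity) (by linarith only [hκ1])
    (by positivity) x y hx1 hy z hz
  have h4 : ∑ n ∈ Icc 1 ⌊(y : ℝ) / z⌋₊, ((BadQ δ D x (n : ℤ) (y / n)).card : ℝ) ≤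
      ∑ n ∈ Icc 1 ⌊(y : ℝ) / z⌋₊, (((y / n : ℕ) : ℝ) ^ (1 / 2 + κ / 2) * L ^ (1 + 2 * D + κ / 2) +
        ((y / n : ℕ) : ℝ) * (x : ℝ) ^ (-c)) :=
    Finset.sum_le_sum fun n hn => hbound n hn n (Int.natAbs_natCast n)
  have h5 : ∑ n ∈ Icc 1 ⌊(y : ℝ) / z⌋₊, ((BadQ δ D x (-(n : ℤ)) (y / n)).card : ℝ) ≤
      ∑ n ∈ Icc 1 ⌊(y : ℝ) / z⌋₊, (((y / n : ℕ) : ℝ) ^ (1 / 2 + κ / 2) * L ^ (1 + 2 * D + κ / 2) +
        ((y / n : ℕ) : ℝ) * (x : ℝ) ^ (-c)) :=
    Finset.sum_le_sum fun n hn => hbound n hn (-(n : ℤ)) (by simp)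
  have h6 : ((BadA δ D x z y).card : ℝ) ≤ 2 * (4 * y * z ^ (-(1 / 2) + κ / 2) *
      L ^ (1 + 2 * D + κ / 2) + y * ((1 + 3 * L) * (x : ℝ) ^ (-c))) := by linarith only [h2, h3, h4, h5]
  refine h6.trans ?_
  have hyr : (0 : ℝ) ≤ y := Nat.cast_nonneg y
  have h7 : 8 * (z ^ (-(1 / 2) + κ / 2) * L ^ (1 + 2 * D + κ / 2)) ≤
      z ^ (-(1 / 2) + κ) * L ^ (1 + 2 * D + κ) := by
    have e6 : L ^ (1 + 2 * D + κ) = L ^ (κ / 2) * L ^ (1 + 2 * D + κ / 2) := by
      rw [← Real.rpow_add hL0]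
      congr 1
      ring
    rw [e6]
    have e7 : z ^ (-(1 / 2) + κ / 2) ≤ z ^ (-(1 / 2) + κ) :=
      Real.rpow_le_rpow_of_exponent_le hz (by linarith only [hκ])
    have e8 : 0 ≤ L ^ (1 + 2 * D + κ / 2) := by (clear * - e4; positivity)
    have e9 : 0 ≤ z ^ (-(1 / 2) + κ / 2) := by positivity
    calc 8 * (z ^ (-(1 / 2) + κ / 2) * L ^ (1 + 2 * D + κ / 2))
        = z ^ (-(1 / 2) + κ / 2) * (8 * L ^ (1 + 2 * D + κ / 2)) := by ring
      _ ≤ z ^ (-(1 / 2) + κ) * (L ^ (κ / 2) * L ^ (1 + 2 * D + κ / 2)) :=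
          mul_le_mul e7 (mul_le_mul_of_nonneg_right e3 e8) (by positivity) (by positivity)
  have h8 : 2 * ((1 + 3 * L) * (x : ℝ) ^ (-c)) ≤ (x : ℝ) ^ (-(c / 2)) := by
    have e6 : (x : ℝ) ^ (-(c / 2)) = (x : ℝ) ^ (c / 2) * (x : ℝ) ^ (-c) := by
      rw [← Real.rpow_add hxr]
      congr 1
      ring
    rw [e6, ← mul_assoc]
    refine mul_le_mul_of_nonneg_right ?_ (by positivity)
    linarith only [e5, e4]
  calc 2 * (4 * y * z ^ (-(1 / 2) + κ / 2) * L ^ (1 + 2 * D + κ / 2) +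
        y * ((1 + 3 * L) * (x : ℝ) ^ (-c)))
      = y * (8 * (z ^ (-(1 / 2) + κ / 2) * L ^ (1 + 2 * D + κ / 2)) +
        2 * ((1 + 3 * L) * (x : ℝ) ^ (-c))) := by ring
    _ ≤ _ := mul_le_mul_of_nonneg_left (add_le_add h7 h8) hyr

/-- Large range of `y`. -/
lemma int_large (δ D : ℝ) (hδ : 0 < δ) :
    ∃ x₀ : ℕ, ∀ x : ℕ, x₀ ≤ x → ∀ z : ℝ, ∀ y : ℕ, x ^ 3 ≤ y →
      ((BadA δ D x z y).card : ℝ) ≤ y * (x : ℝ) ^ (-(1 / 4 : ℝ)) := by
  classical
  obtain ⟨x₄, hx₄⟩ := artinMain_ge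
  have hev := ((eventually_ge_atTop (max x₄ 1)).and (ev_rpow (2 / δ) (3 + D) (1 / 8) (by norm_num))).and
    ((ev_rpow 96 2 (1 / 2) (by norm_num)).and ((ev_rpow 16 1 (1 / 2) (by norm_num)).and
    (ev_log_rpow 1 1 one_pos)))
  obtain ⟨x₀, hx₀⟩ := Filter.eventually_atTop.1 hev
  refine ⟨x₀, fun x hx z y hy => ?_⟩
  obtain ⟨⟨e1, e2⟩, e3, e4, e5⟩ := hx₀ x hx
  rw [Real.rpow_one] at e4 e5
  have hxx4 : x₄ ≤ x := (le_max_left _ _).trans e1
  have hx1 : 1 ≤ x := (le_max_right _ _).trans e1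
  have hxr : (0 : ℝ) < x := by positivity
  have hM := hx₄ x hxx4
  set L := Real.log x with hL
  have hL0 : 0 < L := by linarith only [e5]
  set θ := (x : ℝ) ^ (7 / 8 : ℝ) with hθ
  have hθ0 : 0 < θ := by positivity
  have hyr : (0 : ℝ) ≤ y := Nat.cast_nonneg y
  have hθM : 2 * θ ≤ δ * artinMain x / L ^ D := by
    rw [le_div_iff₀ (by positivity)]
    have h1 : δ * ((x : ℝ) / L ^ 3) ≤ δ * artinMain x := mul_le_mul_of_nonneg_left hM hδ.le
    refine le_trans ?_ h1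
    rw [mul_div_assoc', le_div_iff₀ (by positivity)]
    have h2 : 2 * L ^ (3 + D) ≤ δ * (x : ℝ) ^ (1 / 8 : ℝ) := by
      rw [div_mul_eq_mul_div, div_le_iff₀ hδ] at e2
      linarith only [e2]
    have h3 : L ^ (3 + D) = L ^ D * L ^ 3 := by
      rw [Real.rpow_add hL0, mul_comm]
      congr 1
      exact_mod_cast Real.rpow_natCast L 3
    have h4 : θ * (x : ℝ) ^ (1 / 8 : ℝ) = x := by
      rw [hθ, ← Real.rpow_add hxr]
      norm_num
    calc 2 * θ * L ^ D * L ^ 3 = θ * (2 * L ^ (3 + D)) := by rw [h3]; ring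
      _ ≤ θ * (δ * (x : ℝ) ^ (1 / 8 : ℝ)) := mul_le_mul_of_nonneg_left h2 hθ0.le
      _ = δ * (θ * (x : ℝ) ^ (1 / 8 : ℝ)) := by ring
      _ = δ * x := by rw [h4]
  have hθ2 : θ ^ 2 = x * (x : ℝ) ^ (3 / 4 : ℝ) := by
    rw [hθ, ← Real.rpow_natCast, ← Real.rpow_mul hxr.le]
    rw [show ((7 / 8 : ℝ)) * ((2 : ℕ) : ℝ) = 1 + 3 / 4 by norm_num, Real.rpow_add hxr, Real.rpow_one]
  -- counts
  have hG : ∀ c : ℕ, (((Icc 1 y).filter (fun a => θ < |Gx x (c * a)|)).card : ℝ) ≤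
      y * (x : ℝ) ^ (-(1 / 4 : ℝ)) / 8 := by
    intro c
    have hvar := variance_large_A x c y hy
    rw [← hL] at hvar
    set B := (Icc 1 y).filter (fun a => θ < |Gx x (c * a)|) with hB
    have h2 : (B.card : ℝ) * θ ^ 2 ≤ 3 * (1 + L) ^ 2 * x * y := by
      calc (B.card : ℝ) * θ ^ 2 = ∑ a ∈ B, θ ^ 2 := by simp
        _ ≤ ∑ a ∈ B, (Gx x (c * a)) ^ 2 := by
            refine Finset.sum_le_sum fun a ha => ?_
            rw [hB, mem_filter] at ha
            rw [← sq_abs (Gx x (c * a))]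
            exact pow_le_pow_left₀ (by positivity) ha.2.le 2
        _ ≤ ∑ a ∈ Icc 1 y, (Gx x (c * a)) ^ 2 :=
            Finset.sum_le_sum_of_subset_of_nonneg (Finset.filter_subset _ _)
              fun _ _ _ => sq_nonneg _
        _ ≤ _ := hvar
    have h3 : 3 * (1 + L) ^ 2 * x * y ≤ (y * (x : ℝ) ^ (-(1 / 4 : ℝ)) / 8) * θ ^ 2 := by
      rw [hθ2]
      have e6 : (x : ℝ) ^ (-(1 / 4 : ℝ)) * (x : ℝ) ^ (3 / 4 : ℝ) = (x : ℝ) ^ (1 / 2 : ℝ) := by
        rw [← Real.rpow_add hxr]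
        norm_num
      have e7 : (y * (x : ℝ) ^ (-(1 / 4 : ℝ)) / 8) * (x * (x : ℝ) ^ (3 / 4 : ℝ)) =
          x * y * ((x : ℝ) ^ (1 / 2 : ℝ) / 8) := by rw [← e6]; ring
      rw [e7]
      have e8 : 3 * (1 + L) ^ (2 : ℕ) ≤ (x : ℝ) ^ (1 / 2 : ℝ) / 8 := by
        have e9 : 96 * L ^ (2 : ℕ) ≤ (x : ℝ) ^ (1 / 2 : ℝ) := by
          have := e3
          rw [Real.rpow_two] at this
          exact this
        have e10 : (1 + L) ^ (2 : ℕ) ≤ 4 * L ^ (2 : ℕ) := by nlinarith only [e5]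
        generalize (x : ℝ) ^ (1 / 2 : ℝ) = u at e9 ⊢
        generalize (1 + L) ^ (2 : ℕ) = w at e10 ⊢
        generalize L ^ (2 : ℕ) = w2 at e10 e9
        linarith only [e10, e9]
      calc 3 * (1 + L) ^ 2 * x * y = x * y * (3 * (1 + L) ^ 2) := by ring
        _ ≤ _ := mul_le_mul_of_nonneg_left e8 (by (clear * - hx1; positivity))
    exact le_of_mul_le_mul_right (h2.trans h3) (by positivity)
  have hO : (((Icc 1 y).filter (fun a => θ < om x a)).card : ℝ) ≤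
      y * (x : ℝ) ^ (-(1 / 4 : ℝ)) / 8 := by
    set B := (Icc 1 y).filter (fun a => θ < om x a) with hB
    have h2 : (B.card : ℝ) * θ ≤ y * (1 + L) := by
      calc (B.card : ℝ) * θ = ∑ a ∈ B, θ := by simp
        _ ≤ ∑ a ∈ B, (om x a : ℝ) := by
            refine Finset.sum_le_sum fun a ha => ?_
            rw [hB, mem_filter] at ha
            exact ha.2.le
        _ ≤ ∑ a ∈ Icc 1 y, (om x a : ℝ) :=
            Finset.sum_le_sum_of_subset_of_nonneg (Finset.filter_subset _ _)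
              fun _ _ _ => Nat.cast_nonneg _
        _ ≤ _ := sum_om_le x y
    have h3 : (y : ℝ) * (1 + L) ≤ (y * (x : ℝ) ^ (-(1 / 4 : ℝ)) / 8) * θ := by
      have e6 : (x : ℝ) ^ (1 / 2 : ℝ) ≤ (x : ℝ) ^ (-(1 / 4 : ℝ)) * θ := by
        rw [hθ, ← Real.rpow_add hxr]
        apply Real.rpow_le_rpow_of_exponent_le (by exact_mod_cast hx1)
        norm_num
      have e7 : 1 + L ≤ (x : ℝ) ^ (-(1 / 4 : ℝ)) * θ / 8 := by linarith only [e4, e5, e6]
      calc (y : ℝ) * (1 + L) ≤ y * ((x : ℝ) ^ (-(1 / 4 : ℝ)) * θ / 8) :=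
            mul_le_mul_of_nonneg_left e7 hyr
        _ = _ := by ring
    exact le_of_mul_le_mul_right (h2.trans h3) hθ0
  have key : ∀ b : ℤ, ∀ n c : ℕ,
      (∀ p ∈ Px x, ((b : ℤ) : ZMod p) = ((c * n : ℕ) : ZMod p)) →
      (∀ p ∈ Px x, p ∣ c * n → p ∣ n) →
      δ * artinMain x / L ^ D < |(artinCount b x : ℝ) - artinMain x| →
      θ < |Gx x (c * n)| ∨ θ < om x n := by
    intro b n c h1 h2 h3
    by_contra hcon
    push Not at hcon
    have h4 := diff_le' b (c * n) x n h1 h2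
    linarith only [hθM, h3, h4, hcon.1, hcon.2]
  set S1 := (Icc 1 y).filter (fun a => θ < |Gx x (1 * a)|) with hS1
  set S2 := (Icc 1 y).filter (fun a => θ < |Gx x ((PP x - 1) * a)|) with hS2
  set S3 := (Icc 1 y).filter (fun a => θ < om x a) with hS3
  have hsub : BadA δ D x z y ⊆
      (S1 ∪ S3).image (fun n : ℕ => (n : ℤ)) ∪ (S2 ∪ S3).image (fun n : ℕ => -(n : ℤ)) := by
    intro a ha
    rw [BadA, mem_filter, mem_Icc] at ha
    obtain ⟨⟨ha1, ha2⟩, ha0, -, hbad⟩ := ha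
    rcases Int.natAbs_eq a with h | h
    · rw [mem_union]; left
      rw [mem_image]
      refine ⟨a.natAbs, ?_, h.symm⟩
      have := key a a.natAbs 1 (fun p _ => by
        rw [one_mul]
        conv_lhs => rw [h]
        simp only [Nat.cast_natAbs, Int.cast_abs, Int.cast_eq]) (fun p _ hp => by simpa only [one_mul] using hp) hbad
      rw [mem_union, hS1, hS3, mem_filter, mem_filter, mem_Icc]
      have h2 : 1 ≤ a.natAbs ∧ a.natAbs ≤ y := ⟨by omega, by omega⟩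
      exact this.imp (fun h => ⟨h2, h⟩) (fun h => ⟨h2, h⟩)
    · rw [mem_union]; right
      rw [mem_image]
      refine ⟨a.natAbs, ?_, h.symm⟩
      have := key a a.natAbs (PP x - 1) (fun p hp => by
        rw [← neg_cast x a.natAbs p hp]
        conv_lhs => rw [h])
        (fun p hp hd => dvd_of_dvd_neg x _ p hp hd) hbad
      rw [mem_union, hS2, hS3, mem_filter, mem_filter, mem_Icc]
      have h2 : 1 ≤ a.natAbs ∧ a.natAbs ≤ y := ⟨by omega, by omega⟩
      exact this.imp (fun h => ⟨h2, h⟩) (fun h => ⟨h2, h⟩)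
  have h3 : ((BadA δ D x z y).card : ℝ) ≤ ((S1.card : ℝ) + S3.card) + (S2.card + S3.card) := by
    have h4 := (Finset.card_le_card hsub).trans (Finset.card_union_le _ _)
    have h5 : ((S1 ∪ S3).image (fun n : ℕ => (n : ℤ))).card ≤ S1.card + S3.card :=
      Finset.card_image_le.trans (Finset.card_union_le _ _)
    have h6 : ((S2 ∪ S3).image (fun n : ℕ => -(n : ℤ))).card ≤ S2.card + S3.card :=
      Finset.card_image_le.trans (Finset.card_union_le _ _)
    exact_mod_cast h4.trans (add_le_add h5 h6)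
  have hG1 := hG 1
  have hG2 := hG (PP x - 1)
  have h9 : 0 ≤ y * (x : ℝ) ^ (-(1 / 4 : ℝ)) := by (clear * - hx1; positivity)
  linarith only [hO, h3, hG1, hG2]

/-- **Integers with a prime factor larger than `z`**: exceptional-set bound for all `y`. -/
theorem intBases (κ δ D : ℝ) (hκ : 0 < κ) (hδ : 0 < δ) (hD : 0 ≤ D) :
    ∃ c : ℝ, 0 < c ∧ ∃ x₀ : ℕ, ∀ x : ℕ, x₀ ≤ x → ∀ z : ℝ, 1 ≤ z → ∀ y : ℕ,
      ((BadA δ D x z y).card : ℝ) ≤
      y * (z ^ (-(1 / 2) + κ) * (Real.log x) ^ (1 + 2 * D + κ) + (x : ℝ) ^ (-c)) := by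
  have hmin : 0 < min κ (1 / 4) := lt_min hκ (by norm_num)
  obtain ⟨c, hc, x₁, hx₁⟩ := int_small (min κ (1 / 4)) δ D hmin (min_le_right _ _) hδ hD
  obtain ⟨x₂, hx₂⟩ := int_large δ D hδ
  obtain ⟨x₃, hx₃⟩ := Filter.eventually_atTop.1 (ev_log_rpow 1 1 one_pos)
  refine ⟨min c (1 / 4), lt_min hc (by norm_num), max x₁ (max x₂ (max x₃ 1)), fun x hx z hz y => ?_⟩
  have e1 : x₁ ≤ x := (le_max_left _ _).trans hx
  have e2 : x₂ ≤ x := (le_max_left _ _).trans ((le_max_right _ _).trans hx)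
  have e3 : x₃ ≤ x := (le_max_left _ _).trans ((le_max_right _ _).trans ((le_max_right _ _).trans hx))
  have e4 : 1 ≤ x := (le_max_right _ _).trans ((le_max_right _ _).trans ((le_max_right _ _).trans hx))
  have hL := hx₃ x e3
  rw [Real.rpow_one] at hL
  have hx1 : (1 : ℝ) ≤ x := by exact_mod_cast e4
  have hL0 : 0 < Real.log x := by linarith only [hL]
  rcases le_total y (x ^ 3) with hy | hy
  · refine (hx₁ x e1 z hz y hy).trans ?_
    refine mul_le_mul_of_nonneg_left ?_ (Nat.cast_nonneg y)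
    refine add_le_add ?_ ?_
    · refine mul_le_mul (Real.rpow_le_rpow_of_exponent_le hz ?_)
        (Real.rpow_le_rpow_of_exponent_le hL ?_) (by positivity) (by positivity)
      · linarith only [min_le_left κ (1 / 4 : ℝ)]
      · linarith only [min_le_left κ (1 / 4 : ℝ)]
    · exact Real.rpow_le_rpow_of_exponent_le hx1 (neg_le_neg (min_le_left _ _))
  · refine (hx₂ x e2 z y hy).trans ?_
    refine mul_le_mul_of_nonneg_left ?_ (Nat.cast_nonneg y)
    have h1 : (x : ℝ) ^ (-(1 / 4 : ℝ)) ≤ (x : ℝ) ^ (-(min c (1 / 4))) :=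
      Real.rpow_le_rpow_of_exponent_le hx1 (neg_le_neg (min_le_right _ _))
    have h2 : 0 ≤ z ^ (-(1 / 2) + κ) * (Real.log x) ^ (1 + 2 * D + κ) := by positivity
    linarith only [h1, h2]

end Vale.Agent.P016
end
end

section

section

namespace Vale.Agent.P016

open Finset Filter

/-- The final numerical estimate. -/
lemma numeric_bound2 (κ : ℝ) (hκ : 0 < κ) (hκ1 : κ ≤ 1) : ∀ᶠ x : ℕ in atTop, ∀ Y : ℕ, 2 ≤ Y →
    ((Nat.clog Y (x ^ 2) : ℕ) : ℝ) ≤ 4 * Real.log x ∧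
    (7 * Real.log x / x) ^ (1 / ((Nat.clog Y (x ^ 2) : ℕ) : ℝ)) ≤
      (Y : ℝ) ^ (-(1 / 2) + κ / 2) + (x : ℝ) ^ (-(κ / 4)) := by
  filter_upwards [ev_rpow 7 1 (κ / 8) (by positivity), eventually_ge_atTop 3,
    ev_log_rpow 1 1 one_pos] with x h7 hx3 hL1 Y hY
  rw [Real.rpow_one] at h7 hL1
  set k := Nat.clog Y (x ^ 2) with hk
  set L := Real.log x with hLdef
  have hY1 : 1 < Y := by omega
  have hx2 : 1 < x ^ 2 := by nlinarith only [hx3]
  have hkpos : 0 < k := Nat.clog_pos hY1 hx2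
  have hkr : (0 : ℝ) < k := by exact_mod_cast hkpos
  have hxr : (0 : ℝ) < x := by positivity
  have hYr : (0 : ℝ) < Y := by positivity
  set l := Real.log Y with hl
  have hl2 : Real.log 2 ≤ l := Real.log_le_log (by norm_num) (by exact_mod_cast hY)
  have hlog2 : 0.6931471803 < Real.log 2 := Real.log_two_gt_d9
  have hlpos : 0 < l := by linarith only [hl2, hlog2]
  -- bound of k
  have hk1 : ((k : ℝ) - 1) * l ≤ 2 * L := by
    have h1 : Y ^ (k - 1) < x ^ 2 := by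
      have := Nat.pow_pred_clog_lt_self hY1 hx2
      simpa only [hk, gt_iff_lt, Nat.pred_eq_sub_one] using this
    have h2 : ((Y : ℝ)) ^ (k - 1) ≤ (x : ℝ) ^ 2 := by exact_mod_cast h1.le
    have h3 := Real.log_le_log (by positivity) h2
    rw [Real.log_pow, Real.log_pow] at h3
    push_cast [Nat.cast_sub (show 1 ≤ k by omega)] at h3
    exact h3
  have hk4 : (k : ℝ) ≤ 4 * L := by
    have h1 : ((k : ℝ) - 1) * Real.log 2 ≤ 2 * L := by
      rcases le_or_gt 1 (k : ℝ) with h | h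
      · exact (mul_le_mul_of_nonneg_left hl2 (by linarith only [h])).trans hk1
      · nlinarith only [hL1, h, hlog2]
    nlinarith only [hL1, h1, hlog2, hkr]
  -- L / k lower bound
  have hLk : L * l / (l + 2 * L) ≤ L / k := by
    rw [div_le_div_iff₀ (by (clear * - hlpos hL1; positivity)) hkr]
    nlinarith only [hk1, hL1]
  have hρ0 : 0 < 7 * L / x := by positivity
  have hρ : (7 * L / x) ≤ Real.exp (-((1 - κ / 8) * L)) := by
    have e1 : Real.exp (-((1 - κ / 8) * L)) = (x : ℝ) ^ (κ / 8) / x := by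
      rw [show -((1 - κ / 8) * L) = L * (κ / 8) - L by ring, Real.exp_sub, Real.exp_log hxr,
        Real.rpow_def_of_pos hxr]
    rw [e1]
    exact div_le_div_of_nonneg_right h7 hxr.le
  have hroot : (7 * L / x) ^ (1 / (k : ℝ)) ≤ Real.exp (-((1 - κ / 8) * (L / k))) := by
    calc (7 * L / x) ^ (1 / (k : ℝ)) ≤ (Real.exp (-((1 - κ / 8) * L))) ^ (1 / (k : ℝ)) :=
          Real.rpow_le_rpow hρ0.le hρ (by positivity)
      _ = _ := by
          rw [← Real.exp_mul]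
          congr 1
          field_simp
  have hcase : Real.exp (-((1 - κ / 8) * (L / k))) ≤
      (Y : ℝ) ^ (-(1 / 2) + κ / 2) + (x : ℝ) ^ (-(κ / 4)) := by
    have hc8 : 0 < 1 - κ / 8 := by linarith only [hκ1]
    have hy0 : 0 ≤ (Y : ℝ) ^ (-(1 / 2) + κ / 2) := Real.rpow_nonneg hYr.le _
    have hx0 : 0 ≤ (x : ℝ) ^ (-(κ / 4)) := Real.rpow_nonneg hxr.le _
    rcases le_or_gt l (κ * L) with hc | hc
    · have h1 : l / (2 + κ) ≤ L / k := by
        refine le_trans ?_ hLk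
        rw [div_le_div_iff₀ (by positivity) (by positivity)]
        nlinarith only [hc, hl2, hlog2]
      have h2 : (1 / 2 - κ / 2) * l ≤ (1 - κ / 8) * (L / k) := by
        refine le_trans ?_ (mul_le_mul_of_nonneg_left h1 hc8.le)
        rw [mul_div_assoc', le_div_iff₀ (by positivity)]
        nlinarith only [hκ, hlpos, mul_pos hκ hlpos]
      have h3 : Real.exp (-((1 - κ / 8) * (L / k))) ≤ (Y : ℝ) ^ (-(1 / 2) + κ / 2) := by
        rw [Real.rpow_def_of_pos hYr]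
        apply Real.exp_le_exp.2
        rw [← hl]
        linarith only [h2]
      linarith only [hx0, h3]
    · have h1 : L * κ / (κ + 2) ≤ L / k := by
        refine le_trans ?_ hLk
        rw [div_le_div_iff₀ (by positivity) (by positivity)]
        have : 0 < L := by linarith only [hL1]
        nlinarith only [hc, hL1]
      have h2 : (κ / 4) * L ≤ (1 - κ / 8) * (L / k) := by
        refine le_trans ?_ (mul_le_mul_of_nonneg_left h1 hc8.le)
        rw [mul_div_assoc', le_div_iff₀ (by positivity)]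
        have : 0 < L := by linarith only [hL1]
        nlinarith only [hκ, hL1, hκ1, this, mul_pos hκ this]
      have h3 : Real.exp (-((1 - κ / 8) * (L / k))) ≤ (x : ℝ) ^ (-(κ / 4)) := by
        rw [Real.rpow_def_of_pos hxr]
        apply Real.exp_le_exp.2
        linarith only [h2]
      linarith only [hy0, h3]
  exact ⟨hk4, hroot.trans hcase⟩

open Classical in
/-- The bad elements lie in one of two sets. -/
lemma bad_subset_gen (x z : ℕ) (P : Finset ℕ) (hP : P ⊆ Px x) (m : ℤ) (T : Finset ℕ)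
    (hT : ∀ b ∈ T, (om x (m.natAbs * b) : ℝ) ≤ Real.sqrt x + 1) (n₀ : ℕ)
    (hn₀ : ∀ p ∈ Px x, ((m : ℤ) : ZMod p) = (n₀ : ZMod p)) (Δ E : ℝ)
    (hPc : ((Px x \ P).card : ℝ) ≤ E) (hPs : ∑ p ∈ Px x, cL z (p - 1) 0 ≤ E)
    (hE1 : 2 * E ≤ Δ / 2) (hE2 : Real.sqrt x + 1 ≤ Δ / 2) :
    T.filter (fun q : ℕ => 2 * Δ < |(artinCount (m * q) x : ℝ) - artinMain x|) ⊆
      T.filter (fun q : ℕ => Δ ≤ bigT z P (n₀ * q)) ∪
      T.filter (fun q : ℕ => Δ ≤ -(bigT z P (n₀ * q) - bigL z P (n₀ * q))) := by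
  have hcount : ∀ q : ℕ, (artinCount (m * q) x : ℝ) = ∑ p ∈ Px x, fp p (n₀ * q) := by
    intro q
    refine artinCount_eq _ _ x fun p hp => ?_
    push_cast
    rw [hn₀ p hp]
  have hdv : ∀ q : ℕ, ∀ p ∈ Px x, p ∣ n₀ * q → p ∣ m.natAbs * q := by
    intro q p hp hd
    have hpp := (mem_Px.1 hp).1
    rcases (Nat.Prime.dvd_mul hpp).1 hd with h | h
    · refine Dvd.dvd.mul_right ?_ q
      rw [← Int.natCast_dvd]
      rw [← ZMod.intCast_zmod_eq_zero_iff_dvd, hn₀ p hp]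
      exact (ZMod.natCast_eq_zero_iff n₀ p).2 h
    · exact Dvd.dvd.mul_left h _
  have hsumcL : ∑ p ∈ P, cL z (p - 1) 0 ≤ E := by
    refine le_trans ?_ hPs
    exact Finset.sum_le_sum_of_subset_of_nonneg hP
      fun p hp _ => (cT_zero_bounds (mem_Px.1 hp).1 z).2.2.2
  intro q hq
  rw [mem_filter] at hq
  obtain ⟨hq1, hq3⟩ := hq
  rw [hcount q] at hq3
  rcases lt_abs.1 hq3 with h1 | h1
  · refine mem_union_left _ ?_
    rw [mem_filter]
    refine ⟨hq1, ?_⟩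
    have h2 := sandwich_upper z x (n₀ * q) P hP
    linarith only [hPc, hE1, hsumcL, h1, h2]
  · refine mem_union_right _ ?_
    rw [mem_filter]
    refine ⟨hq1, ?_⟩
    have h2 := sandwich_lower z x (n₀ * q) (m.natAbs * q) P hP (hdv q)
    have h3 := hT q hq1
    linarith only [hPc, hE1, hE2, hsumcL, h1, h2, h3]

open Classical in
/-- Count of the bad rough elements in terms of parameters. -/
lemma bad_card_gen (x Y z z₁ : ℕ) (hx : 3 ≤ x) (hY : 2 ≤ Y) (hz₁ : 2 ≤ z₁) (hL : 1 ≤ Real.log x)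
    (P : Finset ℕ) (hP : P ⊆ Px x) (v : ℝ) (hv1 : 1 ≤ v)
    (hPv : ∀ p ∈ P, (2 : ℝ) ^ (Lset z (p - 1)).card + ((Uset z (p - 1)).card : ℝ) ≤ v)
    (hpi : (x : ℝ) / (2 * Real.log x) ≤ #(Px x)) (Δ W : ℝ) (hΔ : 0 < Δ)
    (hW : v * #(Px x) / Δ ≤ W) (m : ℤ) (T : Finset ℕ)
    (hTr : ∀ q ∈ T, 1 ≤ q ∧ q ≤ Y ∧ ∀ p : ℕ, p.Prime → p ∣ q → z₁ ≤ p)
    (hT : ∀ b ∈ T, (om x (m.natAbs * b) : ℝ) ≤ Real.sqrt x + 1) (E : ℝ)
    (hPc : ((Px x \ P).card : ℝ) ≤ E) (hPs : ∑ p ∈ Px x, cL z (p - 1) 0 ≤ E)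
    (hE1 : 2 * E ≤ Δ / 2) (hE2 : Real.sqrt x + 1 ≤ Δ / 2) :
    ((T.filter (fun q : ℕ => 2 * Δ < |(artinCount (m * q) x : ℝ) - artinMain x|)).card : ℝ) ≤
      2 * (W ^ 2 * (((Nat.clog Y (x ^ 2) : ℕ) : ℝ) ^ (Real.log Y / Real.log z₁)) * Y *
      (7 * Real.log x / x) ^ (1 / ((Nat.clog Y (x ^ 2) : ℕ) : ℝ))) := by
  obtain ⟨n₀, hn₀⟩ := residue_exists x m
  have hsub := bad_subset_gen x z P hP m T hT n₀ hn₀ Δ E hPc hPs hE1 hE2
  have hQple := side_count_gen x Y n₀ z₁ hx hY hz₁ hL P hP v hv1 (fun p t => cT z (p - 1) t)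
    (coef_bound hP hPv _ fun p t => by linarith only [abs_nonneg (cL z (p - 1) t)])
    hpi Δ W hΔ hW
    (T.filter (fun q : ℕ => Δ ≤ bigT z P (n₀ * q)))
    (fun q hq => hTr q (mem_filter.1 hq).1)
    (fun q hq => by rw [← bigT_eq hP]; exact (mem_filter.1 hq).2)
  have hQmle := side_count_gen x Y n₀ z₁ hx hY hz₁ hL P hP v hv1
    (fun p t => -(cT z (p - 1) t - cL z (p - 1) t))
    (coef_bound hP hPv _ fun p t => by rw [abs_neg]; exact abs_sub _ _)
    hpi Δ W hΔ hW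
    (T.filter (fun q : ℕ => Δ ≤ -(bigT z P (n₀ * q) - bigL z P (n₀ * q))))
    (fun q hq => hTr q (mem_filter.1 hq).1)
    (fun q hq => by rw [← bigTL_eq hP]; exact (mem_filter.1 hq).2)
  have hcard : ((T.filter (fun q : ℕ =>
        2 * Δ < |(artinCount (m * q) x : ℝ) - artinMain x|)).card : ℝ) ≤
      ((T.filter (fun q : ℕ => Δ ≤ bigT z P (n₀ * q))).card : ℝ) +
      ((T.filter (fun q : ℕ =>
        Δ ≤ -(bigT z P (n₀ * q) - bigL z P (n₀ * q)))).card : ℝ) := by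
    exact_mod_cast (Finset.card_le_card hsub).trans (Finset.card_union_le _ _)
  refine hcard.trans ((add_le_add hQple hQmle).trans (le_of_eq ?_))
  ring

/-- The last numerical step, rough version. -/
lemma final_num_gen (δ D : ℝ) (x Y z₁ : ℕ) (hx3 : 3 ≤ x) (hY2 : 2 ≤ Y)
    (hYx : Y ≤ x ^ 3) (L R : ℝ) (hL4 : 4 ≤ L) (hR0 : 0 ≤ R) (k : ℝ) (hk0 : 0 ≤ k) (hk : k ≤ 4 * L)
    (hz : L ^ (256 : ℝ) ≤ z₁)
    (hnum : R ≤ (Y : ℝ) ^ (-(1 / 2) + (1 / 4 : ℝ) / 2) + (x : ℝ) ^ (-((1 / 4 : ℝ) / 4)))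
    (e7 : 128 / δ ^ 2 ≤ L ^ (1 / 2 : ℝ))
    (e8 : 128 / δ ^ 2 * L ^ (2 * D + 1 / 2) ≤ (x : ℝ) ^ (1 / 64 : ℝ)) (hδ : 0 < δ) :
    2 * ((8 * (L ^ (1 / ((8 : ℕ) : ℝ))) ^ 2 * L ^ D / δ) ^ 2 *
      (k ^ (Real.log Y / Real.log z₁)) * Y * R) ≤
      L ^ (2 * D + 1) * (Y : ℝ) ^ (3 / 4 : ℝ) + Y * (x : ℝ) ^ (-(1 / 64 : ℝ)) := by
  have hL0 : 0 < L := by linarith only [hL4]
  have hxr : (0 : ℝ) < x := by positivity
  have hYr : (0 : ℝ) < Y := by positivity
  have hY1 : (1 : ℝ) ≤ Y := by exact_mod_cast (by omega : 1 ≤ Y)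
  have hlogY : 0 ≤ Real.log Y := Real.log_nonneg hY1
  have hlogL : 1 ≤ Real.log L := by
    rw [Real.le_log_iff_exp_le hL0]
    have := Real.exp_one_lt_d9
    linarith only [hL4, this]
  have hlogz : 256 * Real.log L ≤ Real.log z₁ := by
    have h1 := Real.log_le_log (by positivity) hz
    rw [Real.log_rpow hL0] at h1
    exact h1
  have hlogz0 : 0 < Real.log z₁ := by linarith only [hlogL, hlogz]
  -- multiplicity factor
  have hkJ : k ^ (Real.log Y / Real.log z₁) ≤ (Y : ℝ) ^ (1 / 128 : ℝ) := by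
    have h1 : k ≤ L ^ 2 := by nlinarith only [hL4, hk]
    have hJ : 0 ≤ Real.log Y / Real.log z₁ := by (clear * - hlogz0; positivity)
    calc k ^ (Real.log Y / Real.log z₁) ≤ (L ^ 2) ^ (Real.log Y / Real.log z₁) :=
          Real.rpow_le_rpow hk0 h1 hJ
      _ = Real.exp (2 * Real.log L * (Real.log Y / Real.log z₁)) := by
          rw [Real.rpow_def_of_pos (by positivity), Real.log_pow]
          push_cast
          ring_nf
      _ ≤ Real.exp (Real.log Y * (1 / 128)) := by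
          apply Real.exp_le_exp.2
          rw [← mul_div_assoc, div_le_iff₀ hlogz0]
          nlinarith only [hlogY, hlogz]
      _ = _ := by rw [Real.rpow_def_of_pos hYr]
  have hW2 : (8 * (L ^ (1 / ((8 : ℕ) : ℝ))) ^ 2 * L ^ D / δ) ^ 2 =
      64 / δ ^ 2 * (L ^ (2 * D) * L ^ (1 / 2 : ℝ)) := by
    have h1 : (8 * (L ^ (1 / ((8 : ℕ) : ℝ))) ^ 2 * L ^ D / δ) ^ 2 =
        64 / δ ^ 2 * ((L ^ D) ^ 2 * (L ^ (1 / ((8 : ℕ) : ℝ))) ^ 4) := by field_simp; ring
    have h2 : (L ^ D) ^ 2 = L ^ (2 * D) := by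
      rw [← Real.rpow_natCast, ← Real.rpow_mul hL0.le]
      congr 1
      push_cast
      ring
    have h3 : (L ^ (1 / ((8 : ℕ) : ℝ))) ^ 4 = L ^ (1 / 2 : ℝ) := by
      rw [← Real.rpow_natCast, ← Real.rpow_mul hL0.le]
      congr 1
      norm_num
    rw [h1, h2, h3]
  rw [hW2]
  have hLcomb : L ^ (2 * D) * L ^ (1 / 2 : ℝ) = L ^ (2 * D + 1 / 2) := by
    rw [← Real.rpow_add hL0]
  have hLcomb2 : L ^ (2 * D + 1) = L ^ (1 / 2 : ℝ) * L ^ (2 * D + 1 / 2) := by
    rw [← Real.rpow_add hL0]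
    congr 1
    ring
  have hA0 : 0 ≤ 64 / δ ^ 2 * L ^ (2 * D + 1 / 2) := by positivity
  rw [hLcomb]
  have step1 : 2 * (64 / δ ^ 2 * L ^ (2 * D + 1 / 2) * k ^ (Real.log Y / Real.log z₁) * Y * R) ≤
      2 * (64 / δ ^ 2 * L ^ (2 * D + 1 / 2) * (Y : ℝ) ^ (1 / 128 : ℝ) * Y *
        ((Y : ℝ) ^ (-(1 / 2) + (1 / 4 : ℝ) / 2) + (x : ℝ) ^ (-((1 / 4 : ℝ) / 4)))) := by
    refine mul_le_mul_of_nonneg_left ?_ (by norm_num)
    refine mul_le_mul ?_ hnum hR0 (by positivity)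
    refine mul_le_mul_of_nonneg_right ?_ hYr.le
    exact mul_le_mul_of_nonneg_left hkJ hA0
  refine step1.trans ?_
  have hY34 : (Y : ℝ) ^ (1 / 128 : ℝ) * Y * (Y : ℝ) ^ (-(1 / 2) + (1 / 4 : ℝ) / 2) ≤
      (Y : ℝ) ^ (3 / 4 : ℝ) := by
    have h1 : (Y : ℝ) ^ (1 / 128 : ℝ) * Y * (Y : ℝ) ^ (-(1 / 2) + (1 / 4 : ℝ) / 2) =
        (Y : ℝ) ^ ((1 / 128 : ℝ) + 1 + (-(1 / 2) + (1 / 4 : ℝ) / 2)) := by
      rw [Real.rpow_add hYr ((1 / 128 : ℝ) + 1) (-(1 / 2) + (1 / 4 : ℝ) / 2),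
        Real.rpow_add_one hYr.ne']
    rw [h1]
    apply Real.rpow_le_rpow_of_exponent_le hY1
    norm_num
  have hx32 : (Y : ℝ) ^ (1 / 128 : ℝ) * (x : ℝ) ^ (-((1 / 4 : ℝ) / 4)) ≤
      (x : ℝ) ^ (-(1 / 32 : ℝ)) := by
    have h1 : (Y : ℝ) ^ (1 / 128 : ℝ) ≤ (x : ℝ) ^ (3 / 128 : ℝ) := by
      have h2 : (Y : ℝ) ^ (1 / 128 : ℝ) ≤ ((x : ℝ) ^ (3 : ℝ)) ^ (1 / 128 : ℝ) := by
        refine Real.rpow_le_rpow hYr.le ?_ (by norm_num)
        rw [show ((x : ℝ) ^ (3 : ℝ)) = (x : ℝ) ^ (3 : ℕ) by exact_mod_cast Real.rpow_natCast (x : ℝ) 3]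
        exact_mod_cast hYx
      rw [← Real.rpow_mul hxr.le] at h2
      refine h2.trans (le_of_eq ?_)
      congr 1
      norm_num
    calc (Y : ℝ) ^ (1 / 128 : ℝ) * (x : ℝ) ^ (-((1 / 4 : ℝ) / 4))
        ≤ (x : ℝ) ^ (3 / 128 : ℝ) * (x : ℝ) ^ (-((1 / 4 : ℝ) / 4)) :=
          mul_le_mul_of_nonneg_right h1 (by positivity)
      _ = (x : ℝ) ^ (-(5 / 128 : ℝ)) := by
          rw [← Real.rpow_add hxr]
          congr 1
          norm_num
      _ ≤ _ := by
          apply Real.rpow_le_rpow_of_exponent_le (by exact_mod_cast (by omega : 1 ≤ x))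
          norm_num
  have e9 : 2 * (64 / δ ^ 2 * L ^ (2 * D + 1 / 2) * (Y : ℝ) ^ (1 / 128 : ℝ) * Y *
        ((Y : ℝ) ^ (-(1 / 2) + (1 / 4 : ℝ) / 2) + (x : ℝ) ^ (-((1 / 4 : ℝ) / 4)))) =
      (128 / δ ^ 2 * L ^ (2 * D + 1 / 2)) *
        ((Y : ℝ) ^ (1 / 128 : ℝ) * Y * (Y : ℝ) ^ (-(1 / 2) + (1 / 4 : ℝ) / 2)) +
      Y * ((128 / δ ^ 2 * L ^ (2 * D + 1 / 2)) *
        ((Y : ℝ) ^ (1 / 128 : ℝ) * (x : ℝ) ^ (-((1 / 4 : ℝ) / 4)))) := by
    ring
  rw [e9]
  refine add_le_add ?_ ?_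
  · refine mul_le_mul ?_ hY34 (by positivity) (by positivity)
    rw [hLcomb2]
    exact mul_le_mul_of_nonneg_right e7 (by positivity)
  · refine mul_le_mul_of_nonneg_left ?_ hYr.le
    calc (128 / δ ^ 2 * L ^ (2 * D + 1 / 2)) *
        ((Y : ℝ) ^ (1 / 128 : ℝ) * (x : ℝ) ^ (-((1 / 4 : ℝ) / 4)))
        ≤ (x : ℝ) ^ (1 / 64 : ℝ) * (x : ℝ) ^ (-(1 / 32 : ℝ)) :=
          mul_le_mul e8 hx32 (by positivity) (by positivity)
      _ = _ := by
          rw [← Real.rpow_add hxr]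
          congr 1
          norm_num

lemma om_le_log (x n : ℕ) (hn : n ≠ 0) (hnx : n ≤ x ^ 3) :
    (om x n : ℝ) ≤ 5 * Real.log x := by
  have h1 : (Px x).filter (fun p => p ∣ n) ⊆ n.primeFactors := by
    intro p hp
    rw [mem_filter, mem_Px] at hp
    rw [Nat.mem_primeFactors]
    exact ⟨hp.1.1, hp.2, hn⟩
  have h2 := (Finset.card_le_card h1).trans (card_primeFactors_le_log n (Nat.pos_of_ne_zero hn))
  have h3 := natLog_le (Nat.pos_of_ne_zero hn) hnx
  refine le_trans ?_ h3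
  rw [om]
  exact_mod_cast h2

open Classical in
/-- **Bad rough integers.** -/
theorem roughBad (δ D : ℝ) (hδ : 0 < δ) (hD : 0 ≤ D) :
    ∃ x₀ : ℕ, ∀ x : ℕ, x₀ ≤ x → ∀ z : ℕ, (Real.log x) ^ (256 : ℝ) ≤ z → ∀ m : ℤ, ∀ Y : ℕ,
      m.natAbs * Y ≤ x ^ 3 → m ≠ 0 →
      (((Icc 1 Y).filter (fun b : ℕ => (∀ p : ℕ, p.Prime → p ∣ b → z ≤ p) ∧
        δ * artinMain x / (Real.log x) ^ D <
          |(artinCount (m * b) x : ℝ) - artinMain x|)).card : ℝ) ≤
      (Real.log x) ^ (2 * D + 1) * (Y : ℝ) ^ (3 / 4 : ℝ) + Y * (x : ℝ) ^ (-(1 / 64 : ℝ)) := by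
  obtain ⟨A, hA⟩ : ∃ A : ℕ, A = ⌈D⌉₊ + 3 := ⟨_, rfl⟩
  have hAD : D + 3 ≤ A := by
    rw [hA]
    push_cast
    have := Nat.le_ceil D
    linarith only [this]
  obtain ⟨x₁, hx₁⟩ := trunc_final 8 A (by omega)
  obtain ⟨x₂, hx₂⟩ := pi_lower
  have hev := ((((eventually_ge_atTop x₁).and (eventually_ge_atTop (max x₂ 3))).and
    (numeric_bound2 (1 / 4) (by norm_num) (by norm_num))).and ((ev_log_rpow 4 1 one_pos).and
    (ev_log_rpow (128 / δ) 1 one_pos))).and (((ev_rpow (64 / δ) (2 + D) (1 / 2) (by norm_num)).and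
    (ev_log_rpow (128 / δ ^ 2) (1 / 2) (by norm_num))).and
    ((ev_rpow (128 / δ ^ 2) (2 * D + 1 / 2) (1 / 64) (by norm_num)).and
    (ev_rpow 5 1 (1 / 2) (by norm_num))))
  obtain ⟨x₀, hx₀⟩ := Filter.eventually_atTop.1 hev
  refine ⟨x₀, fun x hx z hz m Y hmY hm => ?_⟩
  have hYx : Y ≤ x ^ 3 := le_trans (Nat.le_mul_of_pos_left Y (Int.natAbs_pos.2 hm)) hmY
  obtain ⟨⟨⟨⟨e1, e2⟩, e3⟩, e4, e5⟩, ⟨e6, e7⟩, e8, e9⟩ := hx₀ x hx
  rw [Real.rpow_one] at e4 e5 e9
  have hx3 : 3 ≤ x := le_trans (le_max_right _ _) e2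
  have hxx2 : x₂ ≤ x := le_trans (le_max_left _ _) e2
  have hxr : (0 : ℝ) < x := by positivity
  have hL1 : 1 ≤ Real.log x := by linarith only [e4]
  have hL0 : 0 < Real.log x := by linarith only [e4]
  have hz2 : 2 ≤ z := by
    have h1 : (4 : ℝ) ≤ z := by
      refine le_trans e4 (le_trans ?_ hz)
      calc Real.log x = (Real.log x) ^ (1 : ℝ) := (Real.rpow_one _).symm
        _ ≤ _ := Real.rpow_le_rpow_of_exponent_le hL1 (by norm_num)
    have : 4 ≤ z := by exact_mod_cast h1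
    omega
  -- trivial case
  rcases lt_or_ge Y 2 with hY2 | hY2
  · have h1 : (((Icc 1 Y).filter (fun b : ℕ => (∀ p : ℕ, p.Prime → p ∣ b → z ≤ p) ∧
        δ * artinMain x / (Real.log x) ^ D <
          |(artinCount (m * b) x : ℝ) - artinMain x|)).card : ℝ) ≤ Y := by
      have := Finset.card_filter_le (Icc 1 Y) (fun b : ℕ => (∀ p : ℕ, p.Prime → p ∣ b → z ≤ p) ∧
        δ * artinMain x / (Real.log x) ^ D < |(artinCount (m * b) x : ℝ) - artinMain x|)
      rw [Nat.card_Icc] at this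
      exact_mod_cast this.trans (by omega)
    rcases Nat.eq_zero_or_pos Y with h0 | h0
    · rw [h0] at h1 ⊢
      rw [Nat.cast_zero] at h1 ⊢
      rw [Real.zero_rpow (by norm_num), mul_zero, zero_mul, zero_add]
      exact h1
    · have hY1 : Y = 1 := by omega
      rw [hY1] at h1 ⊢
      rw [Nat.cast_one] at h1 ⊢
      rw [Real.one_rpow, mul_one]
      have h3 : 1 ≤ (Real.log x) ^ (2 * D + 1) := Real.one_le_rpow hL1 (by linarith only [hD])
      have h4 : 0 ≤ (x : ℝ) ^ (-(1 / 64 : ℝ)) := by positivity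
      linarith only [h1, h3, h4]
  -- parameters
  have hv1 : 1 ≤ (Real.log x) ^ (1 / ((8 : ℕ) : ℝ)) := Real.one_le_rpow hL1 (by positivity)
  have hvh : ((Real.log x) ^ (1 / ((8 : ℕ) : ℝ))) ^ 8 = Real.log x := by
    rw [one_div]
    exact Real.rpow_inv_natCast_pow hL0.le (by norm_num)
  have hvL : (Real.log x) ^ (1 / ((8 : ℕ) : ℝ)) ≤ Real.log x := by
    calc (Real.log x) ^ (1 / ((8 : ℕ) : ℝ)) ≤ ((Real.log x) ^ (1 / ((8 : ℕ) : ℝ))) ^ 8 :=
          le_self_pow₀ hv1 (by norm_num)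
      _ = Real.log x := hvh
  obtain ⟨z', P, hP, hPv, hPc, hPs, hpiM⟩ := hx₁ x e1 _ (by linarith only [hv1]) hvh
  have hpi := hx₂ x hxx2
  rw [← Real.sqrt_eq_rpow] at e6 e9
  obtain ⟨hM0, hE1, hE2⟩ := err_small δ D hδ A hAD x hx3 (Real.log x) _ (artinMain x) _ hL1 hv1 hvL
    (artinMain_nonneg x) hpi hpiM e5 e6
  have hLx0 : 0 < (Real.log x) ^ D := Real.rpow_pos_of_pos hL0 D
  have hVW := VW_bound δ ((Real.log x) ^ D) (artinMain x) _ _ hδ hLx0 hM0 hv1 hpiM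
  have hb := bad_card_gen x Y z' z hx3 hY2 hz2 hL1 P hP _ hv1 hPv hpi _ _ (by (clear * - hδ hM0 e4; positivity)) hVW m
    ((Icc 1 Y).filter (fun b : ℕ => ∀ p : ℕ, p.Prime → p ∣ b → z ≤ p))
    (fun q hq => by
      rw [mem_filter, mem_Icc] at hq
      exact ⟨hq.1.1, hq.1.2, hq.2⟩)
    (fun b hb => by
      rw [mem_filter, mem_Icc] at hb
      have h1 : m.natAbs * b ≠ 0 := by
        have := Int.natAbs_pos.2 hm
        have := hb.1.1
        (clear * - hm this; positivity)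
      have h2 : m.natAbs * b ≤ x ^ 3 := le_trans (Nat.mul_le_mul_left _ hb.1.2) hmY
      have h3 := om_le_log x _ h1 h2
      linarith only [e9, h3]) _ hPc hPs
    hE1 hE2
  have e10 : 2 * (δ * artinMain x / (2 * (Real.log x) ^ D)) = δ * artinMain x / (Real.log x) ^ D := by
    (clear * - e4 hM0 hδ; field_simp)
  rw [e10, Finset.filter_filter] at hb
  refine hb.trans ?_
  obtain ⟨hk4, hnum⟩ := e3 Y hY2
  exact final_num_gen δ D x Y z hx3 hY2 hYx _ _ e4 (by positivity) _ (by (clear * -; positivity)) hk4 hz hnum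
    e7 e8 hδ

end Vale.Agent.P016
end
end

section

section

namespace Vale.Agent.P016

open Finset Filter

lemma exists_split (z n : ℕ) (hn : n ≠ 0) : ∃ m b : ℕ, n = m * b ∧
    (∀ p : ℕ, p.Prime → p ∣ m → p < z) ∧ (∀ p : ℕ, p.Prime → p ∣ b → z ≤ p) := by
  induction n using induction_on_primes with
  | zero => exact absurd rfl hn
  | one =>
    refine ⟨1, 1, by norm_num, fun p hp h => ?_, fun p hp h => ?_⟩
    · exact absurd (Nat.dvd_one.1 h) hp.one_lt.ne'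
    · exact absurd (Nat.dvd_one.1 h) hp.one_lt.ne'
  | prime_mul p a hp ih =>
    have ha : a ≠ 0 := by
      rintro rfl
      exact hn (mul_zero p)
    obtain ⟨m, b, h1, h2, h3⟩ := ih ha
    rcases lt_or_ge p z with hpz | hpz
    · refine ⟨p * m, b, by rw [h1]; ring, fun q hq h => ?_, h3⟩
      rcases (Nat.Prime.dvd_mul hq).1 h with h | h
      · rw [(Nat.prime_dvd_prime_iff_eq hq hp).1 h]; exact hpz
      · exact h2 q hq h
    · refine ⟨m, p * b, by rw [h1]; ring, h2, fun q hq h => ?_⟩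
      rcases (Nat.Prime.dvd_mul hq).1 h with h | h
      · rw [(Nat.prime_dvd_prime_iff_eq hq hp).1 h]; exact hpz
      · exact h3 q hq h

open Classical in
/-- rough bad cofactors -/
noncomputable def RB (δ D : ℝ) (x z : ℕ) (m : ℤ) (Y : ℕ) : Finset ℕ :=
  (Icc 1 Y).filter (fun b : ℕ => (∀ p : ℕ, p.Prime → p ∣ b → z ≤ p) ∧
        δ * artinMain x / (Real.log x) ^ D < |(artinCount (m * b) x : ℝ) - artinMain x|)

open Classical in
/-- bad integers -/
noncomputable def BE (δ D : ℝ) (x y : ℕ) : Finset ℤ :=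
  (Finset.Icc (-(y : ℤ)) (y : ℤ)).filter (fun a : ℤ =>
    δ * artinMain x / (Real.log x) ^ D < |(artinCount a x : ℝ) - artinMain x|)

lemma cover_card (δ D : ℝ) (x z y : ℕ) (hz : 2 ≤ z) :
    (BE δ D x y).card ≤ 1 + (2 * (Sm z y).card +
      ∑ m ∈ (Sm z y).filter (fun m => z ≤ y / m),
        ((RB δ D x z (m : ℤ) (y / m)).card + (RB δ D x z (-(m : ℤ)) (y / m)).card)) := by
  classical
  have hsub : BE δ D x y ⊆ {0} ∪ (((Sm z y).image (fun n : ℕ => (n : ℤ)) ∪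
      (Sm z y).image (fun n : ℕ => -(n : ℤ))) ∪
      ((Sm z y).filter (fun m => z ≤ y / m)).biUnion (fun m =>
        (RB δ D x z (m : ℤ) (y / m)).image (fun b : ℕ => (m : ℤ) * b) ∪
        (RB δ D x z (-(m : ℤ)) (y / m)).image (fun b : ℕ => (-(m : ℤ)) * b))) := by
    intro a ha
    rw [BE, mem_filter, mem_Icc] at ha
    obtain ⟨⟨ha1, ha2⟩, hbad⟩ := ha
    rcases eq_or_ne a 0 with h0 | h0
    · rw [mem_union]; left; rw [mem_singleton]; exact h0
    rw [mem_union]; right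
    obtain ⟨m, b, hmb, hm, hb⟩ := exists_split z a.natAbs (Int.natAbs_ne_zero.2 h0)
    have hay : a.natAbs ≤ y := by omega
    have hm0 : 0 < m := Nat.pos_of_ne_zero fun h => by
      rw [h, zero_mul] at hmb; omega
    have hb0 : 0 < b := Nat.pos_of_ne_zero fun h => by
      rw [h, mul_zero] at hmb; omega
    have hmy : m ≤ y := by
      have : m ≤ m * b := Nat.le_mul_of_pos_right m hb0
      omega
    have hmS : m ∈ Sm z y := mem_Sm.2 ⟨⟨hm0, hmy⟩, hm⟩
    rcases eq_or_ne b 1 with hb1 | hb1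
    · rw [mem_union]; left
      rw [hb1, mul_one] at hmb
      rw [mem_union]
      rcases Int.natAbs_eq a with h | h
      · left; rw [mem_image]; exact ⟨m, hmS, by rw [← hmb]; exact h.symm⟩
      · right; rw [mem_image]; exact ⟨m, hmS, by rw [← hmb]; exact h.symm⟩
    · rw [mem_union]; right
      have hby : b ≤ y / m := by
        rw [Nat.le_div_iff_mul_le hm0, mul_comm]
        omega
      have hzb : z ≤ b := by
        obtain ⟨p, hp, hpb⟩ := Nat.exists_prime_and_dvd hb1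
        exact (hb p hp hpb).trans (Nat.le_of_dvd hb0 hpb)
      rw [mem_biUnion]
      refine ⟨m, mem_filter.2 ⟨hmS, hzb.trans hby⟩, ?_⟩
      rw [mem_union]
      rcases Int.natAbs_eq a with h | h
      · left
        rw [mem_image]
        refine ⟨b, ?_, ?_⟩
        · rw [RB, mem_filter, mem_Icc]
          refine ⟨⟨hb0, hby⟩, hb, ?_⟩
          rw [show (m : ℤ) * (b : ℤ) = a by rw [h, hmb]; push_cast; rfl]
          exact hbad
        · rw [h, hmb]; push_cast; rfl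
      · right
        rw [mem_image]
        refine ⟨b, ?_, ?_⟩
        · rw [RB, mem_filter, mem_Icc]
          refine ⟨⟨hb0, hby⟩, hb, ?_⟩
          rw [show (-(m : ℤ)) * (b : ℤ) = a by rw [h, hmb]; push_cast; ring]
          exact hbad
        · rw [h, hmb]; push_cast; ring
  have _hz := hz
  refine (Finset.card_le_card hsub).trans ((Finset.card_union_le _ _).trans ?_)
  rw [Finset.card_singleton]
  refine Nat.add_le_add_left ?_ 1
  refine (Finset.card_union_le _ _).trans ?_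
  refine Nat.add_le_add ?_ ?_
  · refine (Finset.card_union_le _ _).trans ?_
    have h1 : ((Sm z y).image (fun n : ℕ => (n : ℤ))).card ≤ (Sm z y).card := Finset.card_image_le
    have h2 : ((Sm z y).image (fun n : ℕ => -(n : ℤ))).card ≤ (Sm z y).card := Finset.card_image_le
    omega
  · refine Finset.card_biUnion_le.trans (Finset.sum_le_sum fun m _ => ?_)
    refine (Finset.card_union_le _ _).trans ?_
    exact Nat.add_le_add Finset.card_image_le Finset.card_image_le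

/-- Summation over the smooth part. -/
lemma smooth_sum (z y : ℕ) (hz : 3 ≤ z) (hy : 1 ≤ y) :
    ∑ m ∈ (Sm z y).filter (fun m => z ≤ y / m), ((y / m : ℕ) : ℝ) ^ (3 / 4 : ℝ) ≤
      4 * (y : ℝ) ^ (7 / 8 : ℝ) + y * (z : ℝ) ^ (-(1 / 4 : ℝ)) *
        ∑ m ∈ (Sm z y).filter (fun m : ℕ => Real.sqrt y < m), 1 / (m : ℝ) := by
  classical
  have hyr : (0 : ℝ) < y := by exact_mod_cast hy
  have hzr : (0 : ℝ) < z := by positivity
  rw [← Finset.sum_filter_add_sum_filter_not _ (fun m : ℕ => ¬ Real.sqrt y < m)]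
  refine add_le_add ?_ ?_
  · calc ∑ m ∈ ((Sm z y).filter (fun m => z ≤ y / m)).filter (fun m : ℕ => ¬ Real.sqrt y < m),
          ((y / m : ℕ) : ℝ) ^ (3 / 4 : ℝ)
        ≤ ∑ m ∈ Icc 1 ⌊Real.sqrt y⌋₊, (y : ℝ) ^ (3 / 4 : ℝ) * (m : ℝ) ^ (-(3 / 4 : ℝ)) := by
          refine (Finset.sum_le_sum (g := fun m : ℕ => (y : ℝ) ^ (3 / 4 : ℝ) *
            (m : ℝ) ^ (-(3 / 4 : ℝ))) fun m hm => ?_).trans
            (Finset.sum_le_sum_of_subset_of_nonneg ?_ fun _ _ _ => by (clear * - hy; positivity))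
          · rw [mem_filter, mem_filter, mem_Sm] at hm
            have hm0 : (0 : ℝ) < m := by exact_mod_cast (by omega : 0 < m)
            calc ((y / m : ℕ) : ℝ) ^ (3 / 4 : ℝ) ≤ ((y : ℝ) / m) ^ (3 / 4 : ℝ) :=
                  Real.rpow_le_rpow (Nat.cast_nonneg _) Nat.cast_div_le (by norm_num)
              _ = _ := by
                  rw [Real.div_rpow hyr.le hm0.le, Real.rpow_neg hm0.le]
                  rfl
          · intro m hm
            rw [mem_filter, mem_filter, mem_Sm] at hm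
            rw [mem_Icc]
            exact ⟨hm.1.1.1.1, Nat.le_floor (not_lt.1 hm.2)⟩
      _ = (y : ℝ) ^ (3 / 4 : ℝ) * ∑ m ∈ Icc 1 ⌊Real.sqrt y⌋₊, (m : ℝ) ^ (-(3 / 4 : ℝ)) := by
          rw [Finset.mul_sum]
      _ ≤ (y : ℝ) ^ (3 / 4 : ℝ) * (4 * (y : ℝ) ^ (1 / 8 : ℝ)) := by
          refine mul_le_mul_of_nonneg_left ?_ (by positivity)
          refine (sum_rpow_neg_le (3 / 4) (by norm_num) (by norm_num) _).trans ?_
          have h1 : ((⌊Real.sqrt y⌋₊ : ℕ) : ℝ) ^ (1 - 3 / 4 : ℝ) ≤ (y : ℝ) ^ (1 / 8 : ℝ) := by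
            calc ((⌊Real.sqrt y⌋₊ : ℕ) : ℝ) ^ (1 - 3 / 4 : ℝ) ≤ (Real.sqrt y) ^ (1 - 3 / 4 : ℝ) :=
                  Real.rpow_le_rpow (Nat.cast_nonneg _) (Nat.floor_le (Real.sqrt_nonneg _))
                    (by norm_num)
              _ = _ := by
                  rw [Real.sqrt_eq_rpow, ← Real.rpow_mul hyr.le]
                  congr 1
                  norm_num
          rw [div_le_iff₀ (by norm_num)]
          linarith only [h1]
      _ = _ := by
          have : (y : ℝ) ^ (3 / 4 : ℝ) * (y : ℝ) ^ (1 / 8 : ℝ) = (y : ℝ) ^ (7 / 8 : ℝ) := by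
            rw [← Real.rpow_add hyr]
            norm_num
          rw [← this]
          ring
  · rw [Finset.mul_sum]
    refine (Finset.sum_le_sum (g := fun m : ℕ => y * (z : ℝ) ^ (-(1 / 4 : ℝ)) * (1 / (m : ℝ)))
      fun m hm => ?_).trans
      (Finset.sum_le_sum_of_subset_of_nonneg ?_ fun _ _ _ => by (clear * - hy hz; positivity))
    · rw [mem_filter, mem_filter, mem_Sm] at hm
      have hm0 : (0 : ℝ) < m := by exact_mod_cast (by omega : 0 < m)
      have ht : (z : ℝ) ≤ ((y / m : ℕ) : ℝ) := by exact_mod_cast hm.1.2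
      have ht0 : (0 : ℝ) < ((y / m : ℕ) : ℝ) := hzr.trans_le ht
      have e1 : ((y / m : ℕ) : ℝ) ^ (3 / 4 : ℝ) =
          ((y / m : ℕ) : ℝ) * ((y / m : ℕ) : ℝ) ^ (-(1 / 4 : ℝ)) := by
        rw [mul_comm, ← Real.rpow_add_one ht0.ne']
        norm_num
      rw [e1]
      have e2 : ((y / m : ℕ) : ℝ) ^ (-(1 / 4 : ℝ)) ≤ (z : ℝ) ^ (-(1 / 4 : ℝ)) :=
        Real.rpow_le_rpow_of_nonpos hzr ht (by norm_num)
      have e3 : ((y / m : ℕ) : ℝ) ≤ (y : ℝ) / m := Nat.cast_div_le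
      calc ((y / m : ℕ) : ℝ) * ((y / m : ℕ) : ℝ) ^ (-(1 / 4 : ℝ))
          ≤ ((y : ℝ) / m) * (z : ℝ) ^ (-(1 / 4 : ℝ)) :=
            mul_le_mul e3 e2 (by (clear * - ht0; positivity)) (by positivity)
        _ = _ := by ring
    · intro m hm
      rw [mem_filter, mem_filter, not_not] at hm
      rw [mem_filter]
      exact ⟨hm.1.1, hm.2⟩

/-- Main inequality of Theorem E. -/
lemma BE_bound (δ D : ℝ) (hδ : 0 < δ) (hD : 0 ≤ D) :
    ∃ C : ℝ, 1 ≤ C ∧ ∃ x₀ : ℕ, ∀ x : ℕ, x₀ ≤ x → ∀ z : ℕ, (Real.log x) ^ (256 : ℝ) ≤ z →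
      ∀ y : ℕ, 2 ≤ y → y ≤ x ^ 3 → Real.log y ≤ Real.sqrt z → ∀ η : ℝ, 0 ≤ η → η ≤ 1 / 4 →
      ((BE δ D x y).card : ℝ) ≤ 1 + (2 * (Real.sqrt y + C * y * (Real.log z / Real.log y) *
        (z : ℝ) ^ η * (y : ℝ) ^ (-η) * Real.exp (3 * (z : ℝ) ^ η)) +
        2 * ((Real.log x) ^ (2 * D + 1) * (4 * (y : ℝ) ^ (7 / 8 : ℝ) + y * (z : ℝ) ^ (-(1 / 4 : ℝ)) *
        ((y : ℝ) ^ (-(η / 2)) * (C * Real.log z * Real.exp (3 * (z : ℝ) ^ η)))) +
        y * (1 + Real.log y) * (x : ℝ) ^ (-(1 / 64 : ℝ)))) := by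
  classical
  obtain ⟨x₁, hx₁⟩ := roughBad δ D hδ hD
  obtain ⟨C₁, hC₁, hPsi⟩ := Psi_bound
  obtain ⟨C₂, hC₂, hTail⟩ := tail_bound
  obtain ⟨x₂, hx₂⟩ := ev_log_ge 3
  refine ⟨max C₁ C₂, le_trans hC₁ (le_max_left _ _), max x₁ (max x₂ 1), fun x hx z hz y hy hyx hyz
    η h0 h1 => ?_⟩
  have hxx1 : x₁ ≤ x := (le_max_left _ _).trans hx
  have hxx2 : x₂ ≤ x := (le_max_left _ _).trans ((le_max_right _ _).trans hx)
  have hx1 : 1 ≤ x := (le_max_right _ _).trans ((le_max_right _ _).trans hx)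
  have hL3 := hx₂ x hxx2
  have hL0 : 0 < Real.log x := by linarith only [hL3]
  have hxr : (0 : ℝ) < x := by positivity
  have hyr : (0 : ℝ) < y := by positivity
  have hz3 : 3 ≤ z := by
    have h2 : (3 : ℝ) ≤ z := by
      refine le_trans hL3 (le_trans ?_ hz)
      calc Real.log x = (Real.log x) ^ (1 : ℝ) := (Real.rpow_one _).symm
        _ ≤ _ := Real.rpow_le_rpow_of_exponent_le (by linarith only [hL3]) (by norm_num)
    exact_mod_cast h2
  have hzr : (3 : ℝ) ≤ z := by exact_mod_cast hz3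
  have hlogz : 0 < Real.log z := Real.log_pos (by linarith only [hzr])
  have hlogy : 0 < Real.log y := Real.log_pos (by exact_mod_cast (by omega : 1 < y))
  have hcov := cover_card δ D x z y (by omega)
  have hcov' : ((BE δ D x y).card : ℝ) ≤ 1 + (2 * ((Sm z y).card : ℝ) +
      ∑ m ∈ (Sm z y).filter (fun m => z ≤ y / m),
        (((RB δ D x z (m : ℤ) (y / m)).card : ℝ) + (RB δ D x z (-(m : ℤ)) (y / m)).card)) := by
    exact_mod_cast hcov
  have hRB : ∀ m ∈ (Sm z y).filter (fun m => z ≤ y / m), ∀ m' : ℤ, m'.natAbs = m →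
      ((RB δ D x z m' (y / m)).card : ℝ) ≤ (Real.log x) ^ (2 * D + 1) *
        ((y / m : ℕ) : ℝ) ^ (3 / 4 : ℝ) + ((y / m : ℕ) : ℝ) * (x : ℝ) ^ (-(1 / 64 : ℝ)) := by
    intro m hm m' hm'
    rw [mem_filter, mem_Sm] at hm
    refine hx₁ x hxx1 z hz m' (y / m) ?_ ?_
    · rw [hm']
      exact (Nat.mul_div_le y m).trans hyx
    · rw [← Int.natAbs_ne_zero, hm']
      omega
  have hsum : ∑ m ∈ (Sm z y).filter (fun m => z ≤ y / m),
        (((RB δ D x z (m : ℤ) (y / m)).card : ℝ) + (RB δ D x z (-(m : ℤ)) (y / m)).card) ≤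
      2 * ((Real.log x) ^ (2 * D + 1) *
        (∑ m ∈ (Sm z y).filter (fun m => z ≤ y / m), ((y / m : ℕ) : ℝ) ^ (3 / 4 : ℝ)) +
        (∑ m ∈ (Sm z y).filter (fun m => z ≤ y / m), ((y / m : ℕ) : ℝ)) *
          (x : ℝ) ^ (-(1 / 64 : ℝ))) := by
    calc _ ≤ ∑ m ∈ (Sm z y).filter (fun m => z ≤ y / m), 2 * ((Real.log x) ^ (2 * D + 1) *
        ((y / m : ℕ) : ℝ) ^ (3 / 4 : ℝ) + ((y / m : ℕ) : ℝ) * (x : ℝ) ^ (-(1 / 64 : ℝ))) := by
          refine Finset.sum_le_sum fun m hm => ?_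
          have h2 := hRB m hm m (Int.natAbs_natCast m)
          have h3 := hRB m hm (-(m : ℤ)) (by simp)
          linarith only [h2, h3]
      _ = _ := by
          rw [← Finset.mul_sum, Finset.sum_add_distrib, ← Finset.mul_sum, ← Finset.sum_mul]
  have hsm := smooth_sum z y hz3 (by omega)
  have htail := hTail z y hz3 η h0 h1 (Real.sqrt y) (Real.sqrt_pos.2 hyr)
  have hsq : (Real.sqrt y) ^ (-η) = (y : ℝ) ^ (-(η / 2)) := by
    rw [Real.sqrt_eq_rpow, ← Real.rpow_mul hyr.le]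
    congr 1
    ring
  rw [hsq] at htail
  have hharm : ∑ m ∈ (Sm z y).filter (fun m => z ≤ y / m), ((y / m : ℕ) : ℝ) ≤
      y * (1 + Real.log y) := by
    calc ∑ m ∈ (Sm z y).filter (fun m => z ≤ y / m), ((y / m : ℕ) : ℝ)
        ≤ ∑ m ∈ Icc 1 y, (y : ℝ) * (m : ℝ)⁻¹ := by
          refine (Finset.sum_le_sum (g := fun m : ℕ => (y : ℝ) * (m : ℝ)⁻¹) fun m _ => ?_).trans
            (Finset.sum_le_sum_of_subset_of_nonneg ?_ fun _ _ _ => by (clear * - hy; positivity))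
          · rw [← div_eq_mul_inv]; exact Nat.cast_div_le
          · intro m hm
            rw [mem_filter, mem_Sm] at hm
            rw [mem_Icc]
            exact hm.1.1
      _ = y * ∑ m ∈ Icc 1 y, (m : ℝ)⁻¹ := by rw [Finset.mul_sum]
      _ ≤ _ := by
          refine mul_le_mul_of_nonneg_left ?_ hyr.le
          have h2 := harmonic_le_one_add_log y
          rw [harmonic_eq_sum_Icc] at h2
          push_cast at h2
          exact h2
  have hP := hPsi z y hz3 hy η h0 h1 hyz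
  have hmax1 : C₁ ≤ max C₁ C₂ := le_max_left _ _
  have hmax2 : C₂ ≤ max C₁ C₂ := le_max_right _ _
  have hP' : ((Sm z y).card : ℝ) ≤ Real.sqrt y + max C₁ C₂ * y * (Real.log z / Real.log y) *
        (z : ℝ) ^ η * (y : ℝ) ^ (-η) * Real.exp (3 * (z : ℝ) ^ η) := by
    refine hP.trans (add_le_add le_rfl ?_)
    have : 0 ≤ (y : ℝ) * (Real.log z / Real.log y) * (z : ℝ) ^ η * (y : ℝ) ^ (-η) *
      Real.exp (3 * (z : ℝ) ^ η) := by (clear * - hy hlogz hlogy hz3; positivity)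
    calc C₁ * y * (Real.log z / Real.log y) * (z : ℝ) ^ η * (y : ℝ) ^ (-η) *
          Real.exp (3 * (z : ℝ) ^ η) = C₁ * (y * (Real.log z / Real.log y) *
          (z : ℝ) ^ η * (y : ℝ) ^ (-η) * Real.exp (3 * (z : ℝ) ^ η)) := by ring
      _ ≤ max C₁ C₂ * (y * (Real.log z / Real.log y) *
          (z : ℝ) ^ η * (y : ℝ) ^ (-η) * Real.exp (3 * (z : ℝ) ^ η)) :=
          mul_le_mul_of_nonneg_right hmax1 this
      _ = _ := by ring
  have htail' : ∑ m ∈ (Sm z y).filter (fun m : ℕ => Real.sqrt y < m), 1 / (m : ℝ) ≤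
      (y : ℝ) ^ (-(η / 2)) * (max C₁ C₂ * Real.log z * Real.exp (3 * (z : ℝ) ^ η)) := by
    refine htail.trans ?_
    refine mul_le_mul_of_nonneg_left ?_ (by positivity)
    have : 0 ≤ Real.log z * Real.exp (3 * (z : ℝ) ^ η) := by positivity
    calc C₂ * Real.log z * Real.exp (3 * (z : ℝ) ^ η)
        = C₂ * (Real.log z * Real.exp (3 * (z : ℝ) ^ η)) := by ring
      _ ≤ max C₁ C₂ * (Real.log z * Real.exp (3 * (z : ℝ) ^ η)) :=
          mul_le_mul_of_nonneg_right hmax2 this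
      _ = _ := by ring
  have hsm' : ∑ m ∈ (Sm z y).filter (fun m => z ≤ y / m), ((y / m : ℕ) : ℝ) ^ (3 / 4 : ℝ) ≤
      4 * (y : ℝ) ^ (7 / 8 : ℝ) + y * (z : ℝ) ^ (-(1 / 4 : ℝ)) *
        ((y : ℝ) ^ (-(η / 2)) * (max C₁ C₂ * Real.log z * Real.exp (3 * (z : ℝ) ^ η))) := by
    refine hsm.trans (add_le_add le_rfl ?_)
    exact mul_le_mul_of_nonneg_left htail' (by positivity)
  refine hcov'.trans (add_le_add le_rfl (add_le_add ?_ ?_))
  · exact mul_le_mul_of_nonneg_left hP' (by norm_num)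
  · refine hsum.trans (mul_le_mul_of_nonneg_left (add_le_add ?_ ?_) (by norm_num))
    · exact mul_le_mul_of_nonneg_left hsm' (by positivity)
    · exact mul_le_mul_of_nonneg_right hharm (by positivity)

end Vale.Agent.P016
end
end

section

section

namespace Vale.Agent.P016

open Finset Filter

/-- The terms coming from smooth numbers. -/
lemma num_smooth (z y : ℕ) (U : ℝ) (hz : 3 ≤ z) (hy : 2 ≤ y)
    (hU : U = Real.log y / Real.log z) (hU6 : 7 ≤ Real.log U) (hU0 : 0 < U) :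
    (z : ℝ) ^ (Real.log (U / 12) / Real.log z) = U / 12 ∧
    (Real.log z / Real.log y) * (z : ℝ) ^ (Real.log (U / 12) / Real.log z) *
      (y : ℝ) ^ (-(Real.log (U / 12) / Real.log z)) *
      Real.exp (3 * (z : ℝ) ^ (Real.log (U / 12) / Real.log z)) ≤
      Real.exp (-(U / 4 * Real.log U)) ∧
    (y : ℝ) ^ (-(Real.log (U / 12) / Real.log z / 2)) *
      Real.exp (3 * (z : ℝ) ^ (Real.log (U / 12) / Real.log z)) ≤
      Real.exp (-(U / 4 * Real.log U)) := by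
  have hzr : (3 : ℝ) ≤ z := by exact_mod_cast hz
  have hz0 : (0 : ℝ) < z := by linarith only [hzr]
  have hyr : (2 : ℝ) ≤ y := by exact_mod_cast hy
  have hy0 : (0 : ℝ) < y := by linarith only [hyr]
  have hlogz : 0 < Real.log z := Real.log_pos (by linarith only [hzr])
  have hlogy : 0 < Real.log y := Real.log_pos (by linarith only [hyr])
  have hA : (z : ℝ) ^ (Real.log (U / 12) / Real.log z) = U / 12 := by
    rw [Real.rpow_def_of_pos hz0, mul_div_cancel₀ _ hlogz.ne', Real.exp_log (by positivity)]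
  have hlog12 : Real.log 12 ≤ 3 := by
    rw [Real.log_le_iff_le_exp (by norm_num)]
    have h1 : Real.exp 3 = Real.exp 1 * Real.exp 1 * Real.exp 1 := by
      rw [← Real.exp_add, ← Real.exp_add]; norm_num
    have h2 := Real.exp_one_gt_d9
    rw [h1]
    nlinarith only [h2]
  have hlogU12 : Real.log (U / 12) = Real.log U - Real.log 12 := by
    rw [Real.log_div hU0.ne' (by norm_num)]
  have hkey : 3 * (U / 12) - U * Real.log (U / 12) ≤ -(U / 4 * Real.log U) := by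
    rw [hlogU12]
    nlinarith only [hU0, hU6, hlog12]
  have hkey2 : 3 * (U / 12) - U / 2 * Real.log (U / 12) ≤ -(U / 4 * Real.log U) := by
    rw [hlogU12]
    nlinarith only [hU6, hU0, hlog12]
  have hU1 : Real.log y = U * Real.log z := by rw [hU]; (clear * - hlogz hlogy; field_simp)
  refine ⟨hA, ?_, ?_⟩
  · rw [hA, Real.rpow_def_of_pos hy0]
    have e1 : Real.log y * -(Real.log (U / 12) / Real.log z) = -(U * Real.log (U / 12)) := by
      rw [hU1]; field_simp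
    have e2 : Real.log z / Real.log y = 1 / U := by rw [hU]; field_simp
    rw [e1, e2]
    calc 1 / U * (U / 12) * Real.exp (-(U * Real.log (U / 12))) * Real.exp (3 * (U / 12))
        = 1 / 12 * Real.exp (3 * (U / 12) - U * Real.log (U / 12)) := by
          rw [show 3 * (U / 12) - U * Real.log (U / 12) =
            -(U * Real.log (U / 12)) + 3 * (U / 12) by ring, Real.exp_add]
          field_simp
      _ ≤ 1 * Real.exp (-(U / 4 * Real.log U)) :=
          mul_le_mul (by norm_num) (Real.exp_le_exp.2 hkey) (by positivity) (by norm_num)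
      _ = _ := one_mul _
  · rw [hA, Real.rpow_def_of_pos hy0, ← Real.exp_add]
    apply Real.exp_le_exp.2
    have e1 : Real.log y * -(Real.log (U / 12) / Real.log z / 2) = -(U / 2 * Real.log (U / 12)) := by
      rw [hU1]; (clear * - hlogz hU0; field_simp)
    rw [e1]
    linarith only [hkey2]

/-- comparison of `U` and `u` -/
lemma num_U (y z : ℕ) (L B u U : ℝ) (hB : 1 ≤ B) (hlogz : 0 < Real.log z)
    (hlogy : 0 < Real.log y)
    (hzL : Real.log z ≤ B * Real.log L) (hu : u = Real.log y / Real.log L)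
    (hU : U = Real.log y / Real.log z) (huB : B ^ 2 ≤ u) :
    u / B ≤ U ∧ Real.log u / 2 ≤ Real.log U ∧ u * Real.log u / (8 * B) ≤ U / 4 * Real.log U := by
  have hB0 : 0 < B := by linarith only [hB]
  have hu1 : 1 ≤ u := by nlinarith only [hB, huB]
  have hu0 : 0 < u := by linarith only [hu1]
  have h1 : u / B ≤ U := by
    rw [hu, hU, div_div]
    exact div_le_div_of_nonneg_left hlogy.le hlogz (by linarith only [hzL])
  have h2 : Real.log u / 2 ≤ Real.log U := by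
    have h3 : Real.log (u / B) ≤ Real.log U := Real.log_le_log (by positivity) h1
    rw [Real.log_div hu0.ne' hB0.ne'] at h3
    have h4 : Real.log (B ^ 2) ≤ Real.log u := Real.log_le_log (by positivity) huB
    rw [Real.log_pow] at h4
    push_cast at h4
    linarith only [h3, h4]
  refine ⟨h1, h2, ?_⟩
  have hlu : 0 ≤ Real.log u := Real.log_nonneg hu1
  have h5 : u / B * (Real.log u / 2) ≤ U * Real.log U :=
    mul_le_mul h1 h2 (by (clear * - hlu; positivity)) (le_trans (by positivity) h1)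
  have e : u * Real.log u / (8 * B) = (u / B * (Real.log u / 2)) / 4 := by field_simp; ring
  rw [e]
  linarith only [h5]

/-- facts on the sieve level -/
lemma z_facts (L C1 : ℝ) (hL : 88 ≤ L) (hC1' : 256 ≤ C1) :
    L ^ C1 ≤ (⌈L ^ C1⌉₊ : ℝ) ∧ L ^ (256 : ℝ) ≤ (⌈L ^ C1⌉₊ : ℝ) ∧ (⌈L ^ C1⌉₊ : ℝ) ≤ L ^ (2 * C1) ∧
    L ≤ (⌈L ^ C1⌉₊ : ℝ) ∧ 3 ≤ ⌈L ^ C1⌉₊ ∧ 3 * L ≤ (⌈L ^ C1⌉₊ : ℝ) ^ (1 / 4 : ℝ) := by
  have hL0 : 0 < L := by linarith
  have hL1 : 1 ≤ L := by linarith only [hL]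
  have hzC1 : L ^ C1 ≤ (⌈L ^ C1⌉₊ : ℝ) := Nat.le_ceil _
  have hLC1 : 1 ≤ L ^ C1 := Real.one_le_rpow hL1 (by linarith)
  have hz256 : L ^ (256 : ℝ) ≤ (⌈L ^ C1⌉₊ : ℝ) :=
    (Real.rpow_le_rpow_of_exponent_le hL1 hC1').trans hzC1
  have hzup : (⌈L ^ C1⌉₊ : ℝ) ≤ L ^ (2 * C1) := by
    have h1 : (⌈L ^ C1⌉₊ : ℝ) ≤ L ^ C1 + 1 := (Nat.ceil_lt_add_one (by positivity)).le
    have h2 : L ^ C1 + 1 ≤ L ^ C1 * L ^ C1 := by
      have h3 : 2 ≤ L ^ C1 := by
        calc (2 : ℝ) ≤ L := by linarith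
          _ = L ^ (1 : ℝ) := (Real.rpow_one _).symm
          _ ≤ _ := Real.rpow_le_rpow_of_exponent_le hL1 (by linarith)
      nlinarith only [h3]
    have h4 : L ^ C1 * L ^ C1 = L ^ (2 * C1) := by
      rw [← Real.rpow_add hL0]
      congr 1
      ring
    linarith only [h1, h2, h4]
  have hLz : L ≤ (⌈L ^ C1⌉₊ : ℝ) := by
    calc L = L ^ (1 : ℝ) := (Real.rpow_one _).symm
      _ ≤ L ^ (256 : ℝ) := Real.rpow_le_rpow_of_exponent_le hL1 (by norm_num)
      _ ≤ _ := hz256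
  have hz3 : 3 ≤ ⌈L ^ C1⌉₊ := by
    have : (3 : ℝ) ≤ (⌈L ^ C1⌉₊ : ℝ) := by linarith only [hL, hLz]
    exact_mod_cast this
  have hLz8 : L ^ 8 ≤ (⌈L ^ C1⌉₊ : ℝ) ^ (1 / 4 : ℝ) := by
    have h1 : (L ^ (256 : ℝ)) ^ (1 / 4 : ℝ) ≤ (⌈L ^ C1⌉₊ : ℝ) ^ (1 / 4 : ℝ) :=
      Real.rpow_le_rpow (by positivity) hz256 (by norm_num)
    rw [← Real.rpow_mul hL0.le] at h1
    refine le_trans ?_ h1
    rw [← Real.rpow_natCast]
    exact Real.rpow_le_rpow_of_exponent_le hL1 (by norm_num)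
  have hL8 : 3 * L ≤ L ^ 8 := by
    have h1 : L ^ 2 ≤ L ^ 8 := pow_le_pow_right₀ hL1 (by norm_num)
    nlinarith only [hL, h1]
  exact ⟨hzC1, hz256, hzup, hLz, hz3, hL8.trans hLz8⟩

lemma theta_fact (L C1 D z : ℝ) (hL : 88 ≤ L) (hC1 : C1 = 256 + 8 * (2 * D + 2)) (hz0 : 0 < z)
    (hzC1 : L ^ C1 ≤ z) :
    L ^ (2 * D + 1) * (z ^ (-(1 / 4 : ℝ)) * Real.log z) ≤ 1 := by
  have hL0 : 0 < L := by linarith
  have hL1 : 1 ≤ L := by linarith only [hL]
  have h1 : Real.log z ≤ 8 * z ^ (1 / 8 : ℝ) := by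
    have := Real.log_le_rpow_div hz0.le (ε := 1 / 8) (by norm_num)
    linarith
  have h2 : z ^ (-(1 / 4 : ℝ)) * Real.log z ≤ 8 * z ^ (-(1 / 8 : ℝ)) := by
    calc z ^ (-(1 / 4 : ℝ)) * Real.log z ≤ z ^ (-(1 / 4 : ℝ)) * (8 * z ^ (1 / 8 : ℝ)) :=
          mul_le_mul_of_nonneg_left h1 (by positivity)
      _ = 8 * (z ^ (-(1 / 4 : ℝ)) * z ^ (1 / 8 : ℝ)) := by ring
      _ = _ := by
          rw [← Real.rpow_add hz0]
          norm_num
  have h3 : z ^ (-(1 / 8 : ℝ)) ≤ L ^ (-(2 * D + 2)) := by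
    calc z ^ (-(1 / 8 : ℝ)) ≤ (L ^ C1) ^ (-(1 / 8 : ℝ)) :=
          Real.rpow_le_rpow_of_nonpos (by positivity) hzC1 (by norm_num)
      _ = L ^ (C1 * (-(1 / 8 : ℝ))) := by rw [← Real.rpow_mul hL0.le]
      _ ≤ _ := by
          apply Real.rpow_le_rpow_of_exponent_le hL1
          rw [hC1]
          linarith only []
  calc L ^ (2 * D + 1) * (z ^ (-(1 / 4 : ℝ)) * Real.log z)
      ≤ L ^ (2 * D + 1) * (8 * L ^ (-(2 * D + 2))) := by
        refine mul_le_mul_of_nonneg_left ?_ (by positivity)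
        exact h2.trans (mul_le_mul_of_nonneg_left h3 (by norm_num))
    _ = 8 * (L ^ (2 * D + 1) * L ^ (-(2 * D + 2))) := by ring
    _ = 8 * L ^ (-(1 : ℝ)) := by
        rw [← Real.rpow_add hL0]
        congr 2
        ring
    _ ≤ 1 := by
        rw [Real.rpow_neg_one, ← div_eq_mul_inv, div_le_one hL0]
        linarith only [hL]

/-- The small terms. -/
lemma small_terms (x y L D K E : ℝ) (hx0 : 0 < x) (hL : 88 ≤ L) (hK3 : 16 * (2 * D + 2) ≤ K)
    (hK5 : 32 ≤ K) (hyK : L ^ K ≤ y) (hy88 : 88 ≤ y) (hlogy3 : Real.log y ≤ 3 * L)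
    (e4 : 32 * L ≤ x ^ (1 / 128 : ℝ)) (_hE0 : 0 < E) (hEy : y ^ (-(1 / 32 : ℝ)) ≤ E)
    (hEx : x ^ (-(1 / 128 : ℝ)) ≤ E) :
    (1 + 2 * Real.sqrt y) + 2 * (L ^ (2 * D + 1) * (4 * y ^ (7 / 8 : ℝ))) +
      2 * (y * (1 + Real.log y) * x ^ (-(1 / 64 : ℝ))) ≤ y * (E / 3) + y * (E / 3) := by
  have hL0 : 0 < L := by linarith only [hL]
  have hL1 : 1 ≤ L := by linarith only [hL]
  have hy0 : 0 < y := by linarith only [hy88]
  have hy16 : L ^ (2 * D + 1) ≤ y ^ (1 / 16 : ℝ) := by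
    calc L ^ (2 * D + 1) ≤ L ^ (K * (1 / 16)) := by
          apply Real.rpow_le_rpow_of_exponent_le hL1
          linarith only [hK3]
      _ = (L ^ K) ^ (1 / 16 : ℝ) := by rw [Real.rpow_mul hL0.le]
      _ ≤ _ := Real.rpow_le_rpow (by positivity) hyK (by norm_num)
  have hy32 : 33 ≤ y ^ (1 / 32 : ℝ) := by
    calc (33 : ℝ) ≤ L := by linarith only [hL]
      _ = L ^ (1 : ℝ) := (Real.rpow_one _).symm
      _ ≤ L ^ (K * (1 / 32)) := Real.rpow_le_rpow_of_exponent_le hL1 (by linarith only [hK5])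
      _ = (L ^ K) ^ (1 / 32 : ℝ) := by rw [Real.rpow_mul hL0.le]
      _ ≤ _ := Real.rpow_le_rpow (by positivity) hyK (by norm_num)
  have hyE : 11 * y ^ (15 / 16 : ℝ) ≤ y * (E / 3) := by
    have h1 : y ^ (15 / 16 : ℝ) * y ^ (1 / 32 : ℝ) = y * y ^ (-(1 / 32 : ℝ)) := by
      rw [← Real.rpow_add hy0, mul_comm y, ← Real.rpow_add_one hy0.ne']
      norm_num
    have h2 : y ^ (15 / 16 : ℝ) * 33 ≤ y ^ (15 / 16 : ℝ) * y ^ (1 / 32 : ℝ) :=
      mul_le_mul_of_nonneg_left hy32 (by positivity)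
    have h3 : y * y ^ (-(1 / 32 : ℝ)) ≤ y * E := mul_le_mul_of_nonneg_left hEy hy0.le
    linarith only [h1, h2, h3]
  have hT1 : 1 + 2 * Real.sqrt y ≤ 3 * y ^ (15 / 16 : ℝ) := by
    have h1 : Real.sqrt y ≤ y ^ (15 / 16 : ℝ) := by
      rw [Real.sqrt_eq_rpow]
      exact Real.rpow_le_rpow_of_exponent_le (by linarith only [hy88]) (by norm_num)
    have h2 : 1 ≤ y ^ (15 / 16 : ℝ) := Real.one_le_rpow (by linarith only [hy88]) (by norm_num)
    linarith only [h1, h2]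
  have hT3 : 2 * (L ^ (2 * D + 1) * (4 * y ^ (7 / 8 : ℝ))) ≤ 8 * y ^ (15 / 16 : ℝ) := by
    have h1 : y ^ (1 / 16 : ℝ) * y ^ (7 / 8 : ℝ) = y ^ (15 / 16 : ℝ) := by
      rw [← Real.rpow_add hy0]
      norm_num
    have h2 : L ^ (2 * D + 1) * y ^ (7 / 8 : ℝ) ≤ y ^ (1 / 16 : ℝ) * y ^ (7 / 8 : ℝ) :=
      mul_le_mul_of_nonneg_right hy16 (by positivity)
    linarith only [h1, h2]
  have hT5 : 2 * (y * (1 + Real.log y) * x ^ (-(1 / 64 : ℝ))) ≤ y * (E / 3) := by
    have h1 : x ^ (-(1 / 64 : ℝ)) = x ^ (-(1 / 128 : ℝ)) * x ^ (-(1 / 128 : ℝ)) := by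
      rw [← Real.rpow_add hx0]
      norm_num
    have h2 : 6 * (1 + Real.log y) ≤ x ^ (1 / 128 : ℝ) := by linarith only [hL, hlogy3, e4]
    have h3 : 6 * (1 + Real.log y) * x ^ (-(1 / 128 : ℝ)) ≤ 1 := by
      calc 6 * (1 + Real.log y) * x ^ (-(1 / 128 : ℝ)) ≤
          x ^ (1 / 128 : ℝ) * x ^ (-(1 / 128 : ℝ)) :=
            mul_le_mul_of_nonneg_right h2 (by positivity)
        _ = 1 := by
            rw [← Real.rpow_add hx0]
            norm_num
    have h4 : 6 * (1 + Real.log y) * x ^ (-(1 / 64 : ℝ)) ≤ E := by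
      rw [h1]
      calc 6 * (1 + Real.log y) * (x ^ (-(1 / 128 : ℝ)) * x ^ (-(1 / 128 : ℝ)))
          = (6 * (1 + Real.log y) * x ^ (-(1 / 128 : ℝ))) * x ^ (-(1 / 128 : ℝ)) := by ring
        _ ≤ 1 * E := mul_le_mul h3 hEx (by positivity) (by norm_num)
        _ = E := one_mul _
    have h5 : y * (6 * (1 + Real.log y) * x ^ (-(1 / 64 : ℝ))) ≤ y * E :=
      mul_le_mul_of_nonneg_left h4 hy0.le
    linarith only [h5]
  linarith only [hyE, hT1, hT3, hT5]

/-- The main terms. -/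
lemma main_terms (y C W E θ Sy Ty : ℝ) (hy : 0 < y) (hC : 1 ≤ C)
    (hCE : 12 * C * E ≤ 1) (hE0 : 0 < E) (hWE : W ≤ E * E) (m2 : Sy ≤ W) (m3 : Ty ≤ W)
    (hT0 : 0 ≤ Ty) (_hθ0 : 0 ≤ θ) (hθ : θ ≤ 1) :
    (2 * C * y) * Sy + (2 * C * y) * (θ * Ty) ≤ y * (E / 3) := by
  have h1 : (2 * C * y) * Sy ≤ (2 * C * y) * W := mul_le_mul_of_nonneg_left m2 (by positivity)
  have h2 : (2 * C * y) * (θ * Ty) ≤ (2 * C * y) * W := by
    refine mul_le_mul_of_nonneg_left ?_ (by positivity)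
    calc θ * Ty ≤ 1 * Ty := mul_le_mul_of_nonneg_right hθ hT0
      _ = Ty := one_mul _
      _ ≤ W := m3
  have h3 : 4 * C * W ≤ E / 3 := by
    have h4 : 4 * C * W ≤ 4 * C * (E * E) := mul_le_mul_of_nonneg_left hWE (by linarith)
    have h5 : 4 * C * (E * E) = (12 * C * E) * E / 3 := by ring
    have h6 : (12 * C * E) * E ≤ 1 * E := mul_le_mul_of_nonneg_right hCE hE0.le
    linarith only [h4, h6]
  calc (2 * C * y) * Sy + (2 * C * y) * (θ * Ty) ≤ (2 * C * y) * W + (2 * C * y) * W :=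
        add_le_add h1 h2
    _ = y * (4 * C * W) := by ring
    _ ≤ _ := mul_le_mul_of_nonneg_left h3 hy.le

/-- exponential facts -/
lemma E_facts (x y L c u C : ℝ) (hx0 : 0 < x) (hxL : Real.log x = L) (hy0 : 0 < y)
    (hlogy : 0 < Real.log y) (hlogy3 : Real.log y ≤ 3 * L) (hc0 : 0 < c) (hc' : c ≤ 1 / 8192)
    (hulog : u * Real.log u ≤ Real.log y) (hlogu : 1 ≤ Real.log u) (hu0 : 0 < u)
    (hCu : 12 * C ≤ c * u) (_hC : 1 ≤ C) :
    y ^ (-(1 / 32 : ℝ)) ≤ Real.exp (-(c * (u * Real.log u))) ∧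
    x ^ (-(1 / 128 : ℝ)) ≤ Real.exp (-(c * (u * Real.log u))) ∧
    12 * C * Real.exp (-(c * (u * Real.log u))) ≤ 1 := by
  refine ⟨?_, ?_, ?_⟩
  · rw [Real.rpow_def_of_pos hy0]
    apply Real.exp_le_exp.2
    have h1 : c * (u * Real.log u) ≤ c * Real.log y := mul_le_mul_of_nonneg_left hulog hc0.le
    have h2 : c * Real.log y ≤ 1 / 32 * Real.log y :=
      mul_le_mul_of_nonneg_right (by linarith only [hc0, hc']) hlogy.le
    linarith only [h1, h2]
  · rw [Real.rpow_def_of_pos hx0]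
    apply Real.exp_le_exp.2
    rw [hxL]
    have h1 : c * (u * Real.log u) ≤ c * (3 * L) :=
      mul_le_mul_of_nonneg_left (hulog.trans hlogy3) hc0.le
    have hL : 0 < L := by linarith only [hlogy, hlogy3]
    have h2 : c * (3 * L) ≤ 1 / 8192 * (3 * L) := mul_le_mul_of_nonneg_right hc' (by linarith only [hL])
    linarith only [h1, hL, h2]
  · have h1 : Real.exp (-(c * (u * Real.log u))) ≤ Real.exp (-(c * u)) := by
      apply Real.exp_le_exp.2
      have h3 : c * u ≤ c * (u * Real.log u) := by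
        refine mul_le_mul_of_nonneg_left ?_ hc0.le
        nlinarith only [hlogu, hu0]
      linarith only [h3]
    have h3 : 12 * C ≤ Real.exp (c * u) := by
      have := Real.add_one_le_exp (c * u)
      linarith only [hCu, this]
    calc 12 * C * Real.exp (-(c * (u * Real.log u))) ≤ Real.exp (c * u) * Real.exp (-(c * u)) :=
          mul_le_mul h3 h1 (Real.exp_pos _).le (Real.exp_pos _).le
      _ = 1 := by rw [← Real.exp_add]; simp

/-- facts on `u` -/
lemma u_facts (x y : ℕ) (L K u : ℝ) (hL : L = Real.log x) (e2 : Real.exp 3 ≤ L) (e3 : 88 ≤ L)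
    (hK5 : 32 ≤ K) (hyK : L ^ K ≤ y) (hyx : y ≤ x ^ 3) (hu : u = Real.log y / Real.log L) :
    3 ≤ Real.log L ∧ (88 : ℝ) ≤ y ∧ Real.log y ≤ 3 * L ∧ K ≤ u ∧ u * Real.log u ≤ Real.log y := by
  have hL0 : 0 < L := by linarith only [e3]
  have hL1 : 1 ≤ L := by linarith only [e3]
  have hlL3 : 3 ≤ Real.log L := by
    rw [Real.le_log_iff_exp_le hL0]; exact e2
  have hlL : 0 < Real.log L := by linarith only [hlL3]
  have hLK : L ≤ L ^ K := by
    calc L = L ^ (1 : ℝ) := (Real.rpow_one _).symm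
      _ ≤ L ^ K := Real.rpow_le_rpow_of_exponent_le hL1 (by linarith only [hK5])
  have hyr88 : (88 : ℝ) ≤ y := by linarith only [e3, hyK, hLK]
  have hy0 : (0 : ℝ) < y := by linarith only [e3, hyK, hLK]
  have hlogy3 : Real.log y ≤ 3 * L := by
    have : Real.log y ≤ Real.log ((x : ℝ) ^ 3) := by
      refine Real.log_le_log hy0 ?_
      exact_mod_cast hyx
    rw [Real.log_pow, ← hL] at this
    push_cast at this
    exact this
  have hlogyK : K * Real.log L ≤ Real.log y := by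
    have := Real.log_le_log (by positivity) hyK
    rw [Real.log_rpow hL0] at this
    exact this
  have huK : K ≤ u := by rw [hu, le_div_iff₀ hlL]; exact hlogyK
  have hu0 : 0 < u := by linarith only [hK5, huK]
  have huL : u ≤ L := by
    rw [hu, div_le_iff₀ hlL]
    nlinarith only [hlL3, hlogy3, e3]
  have hloguL : Real.log u ≤ Real.log L := Real.log_le_log hu0 huL
  have hulog : u * Real.log u ≤ Real.log y := by
    calc u * Real.log u ≤ u * Real.log L := mul_le_mul_of_nonneg_left hloguL hu0.le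
      _ = Real.log y := by rw [hu]; (clear * - hlL3; field_simp)
  exact ⟨hlL3, hyr88, hlogy3, huK, hulog⟩

/-- facts on `U` -/
lemma U_facts (y z : ℕ) (L B u U K : ℝ) (hB512 : 512 ≤ B) (hL0 : 0 < L)
    (hlL : 0 < Real.log L) (hz3 : 3 ≤ z) (hzup : (z : ℝ) ≤ L ^ B) (hLz : L ≤ z)
    (hz14 : 3 * L ≤ (z : ℝ) ^ (1 / 4 : ℝ)) (hy88 : (88 : ℝ) ≤ y) (hlogy3 : Real.log y ≤ 3 * L)
    (hu : u = Real.log y / Real.log L) (hU : U = Real.log y / Real.log z) (hK1 : B ^ 2 ≤ K)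
    (hK2 : Real.exp 12 * B ≤ K) (huK : K ≤ u) :
    Real.log y ≤ Real.sqrt z ∧ 0 < U ∧ 12 ≤ Real.log U ∧ 0 ≤ Real.log (U / 12) / Real.log z ∧
    Real.log (U / 12) / Real.log z ≤ 1 / 4 ∧ 1 ≤ Real.log u ∧
    u * Real.log u / (8 * B) ≤ U / 4 * Real.log U := by
  have hzr3 : (3 : ℝ) ≤ z := by exact_mod_cast hz3
  have hz0 : (0 : ℝ) < z := by linarith only [hzr3]
  have hB0 : 0 < B := by linarith only [hB512]
  have hlogz1 : 1 ≤ Real.log z := by
    rw [Real.le_log_iff_exp_le hz0]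
    have := Real.exp_one_lt_d9
    linarith only [hzr3, this]
  have hlogz0 : 0 < Real.log z := by linarith only [hlogz1]
  have hlogy : 0 < Real.log y := Real.log_pos (by linarith only [hy88])
  have hlogzB : Real.log z ≤ B * Real.log L := by
    have := Real.log_le_log hz0 hzup
    rw [Real.log_rpow hL0] at this
    exact this
  have hlogysqrt : Real.log y ≤ Real.sqrt z := by
    have h1 : (z : ℝ) ^ (1 / 4 : ℝ) ≤ Real.sqrt z := by
      rw [Real.sqrt_eq_rpow]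
      exact Real.rpow_le_rpow_of_exponent_le (by linarith only [hzr3]) (by norm_num)
    linarith only [hz14, hlogy3, h1]
  have hU0 : 0 < U := by rw [hU]; exact div_pos hlogy hlogz0
  obtain ⟨n1, n2, n3⟩ := num_U y z L B u U (by linarith only [hB512]) hlogz0 hlogy hlogzB hu hU
    (hK1.trans huK)
  have hU12 : Real.exp 12 ≤ U := by
    refine le_trans ?_ n1
    rw [le_div_iff₀ hB0]
    linarith only [hK2, huK]
  have hlogU : 12 ≤ Real.log U := by rw [Real.le_log_iff_exp_le hU0]; exact hU12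
  have hU13 : 13 ≤ U := by
    have := Real.add_one_le_exp (12 : ℝ)
    linarith only [hU12, this]
  have hη0 : 0 ≤ Real.log (U / 12) / Real.log z :=
    div_nonneg (Real.log_nonneg (by linarith only [hU13])) hlogz0.le
  have hη1 : Real.log (U / 12) / Real.log z ≤ 1 / 4 := by
    rw [div_le_iff₀ hlogz0]
    have h1 : Real.log (U / 12) ≤ Real.log ((z : ℝ) ^ (1 / 4 : ℝ)) := by
      refine Real.log_le_log (div_pos hU0 (by norm_num)) ?_
      have h2 : U ≤ Real.log y := by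
        rw [hU]
        exact div_le_self hlogy.le hlogz1
      have h3 : U / 12 ≤ U := div_le_self hU0.le (by norm_num)
      exact h3.trans (h2.trans (hlogy3.trans hz14))
    rw [Real.log_rpow hz0] at h1
    exact h1
  have hlogu1 : 1 ≤ Real.log u := by
    have h3 : U ≤ u := by
      rw [hU, hu]
      exact div_le_div_of_nonneg_left hlogy.le hlL (Real.log_le_log hL0 hLz)
    have := Real.log_le_log hU0 h3
    linarith only [hlogU, this]
  exact ⟨hlogysqrt, hU0, hlogU, hη0, hη1, hlogu1, n3⟩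

/-- Final assembly for Theorem E in the range `y ≤ x ^ 3`. -/
lemma mid_assemble (x y z : ℕ) (N L C C1 B D K c u U : ℝ) (hxr : (0 : ℝ) < x)
    (hL : L = Real.log x) (e3 : 88 ≤ L) (e4 : 32 * L ≤ (x : ℝ) ^ (1 / 128 : ℝ)) (hC : 1 ≤ C)
    (hC1 : C1 = 256 + 8 * (2 * D + 2)) (hB0 : 0 < B) (hc : c = 1 / (16 * B)) (hc' : c ≤ 1 / 8192)
    (hK3 : 16 * (2 * D + 2) ≤ K) (hK4 : 12 * C / c ≤ K) (hK5 : 32 ≤ K) (hyK : L ^ K ≤ y)
    (hzC1 : L ^ C1 ≤ z) (hz3 : 3 ≤ z) (hyr88 : (88 : ℝ) ≤ y) (hlogy3 : Real.log y ≤ 3 * L)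
    (huK : K ≤ u) (hulog : u * Real.log u ≤ Real.log y)
    (hU : U = Real.log y / Real.log z) (hU0 : 0 < U) (hlogU : 12 ≤ Real.log U)
    (hlogu1 : 1 ≤ Real.log u) (n3 : u * Real.log u / (8 * B) ≤ U / 4 * Real.log U)
    (hmain : N ≤ 1 + (2 * (Real.sqrt y + C * y * (Real.log z / Real.log y) *
        (z : ℝ) ^ (Real.log (U / 12) / Real.log z) * (y : ℝ) ^ (-(Real.log (U / 12) / Real.log z)) *
        Real.exp (3 * (z : ℝ) ^ (Real.log (U / 12) / Real.log z))) +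
        2 * (L ^ (2 * D + 1) * (4 * (y : ℝ) ^ (7 / 8 : ℝ) + y * (z : ℝ) ^ (-(1 / 4 : ℝ)) *
        ((y : ℝ) ^ (-(Real.log (U / 12) / Real.log z / 2)) *
          (C * Real.log z * Real.exp (3 * (z : ℝ) ^ (Real.log (U / 12) / Real.log z))))) +
        y * (1 + Real.log y) * (x : ℝ) ^ (-(1 / 64 : ℝ))))) :
    N ≤ y * Real.exp (-(c * (u * Real.log u))) := by
  have hzr3 : (3 : ℝ) ≤ z := by exact_mod_cast hz3
  have hz0 : (0 : ℝ) < z := by linarith only [hzr3]
  have hy0 : (0 : ℝ) < y := by linarith only [hyr88]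
  have hy2 : 2 ≤ y := by
    have : (2 : ℝ) ≤ y := by linarith only [hyr88]
    exact_mod_cast this
  have hc0 : 0 < c := by rw [hc]; positivity
  have hlogy : 0 < Real.log y := Real.log_pos (by linarith only [hyr88])
  have hlogz0 : 0 < Real.log z := Real.log_pos (by linarith only [hzr3])
  have hu0 : 0 < u := by linarith only [hK5, huK]
  obtain ⟨m1, m2, m3⟩ := num_smooth z y U hz3 hy2 hU (by linarith only [hlogU]) hU0
  have hCu : 12 * C ≤ c * u := by
    have := hK4.trans huK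
    rw [div_le_iff₀ hc0] at this
    linarith only [this]
  obtain ⟨hEy, hEx, hCE⟩ := E_facts x y L c u C hxr hL.symm hy0 hlogy hlogy3 hc0 hc' hulog hlogu1
    hu0 hCu hC
  have hWE : Real.exp (-(U / 4 * Real.log U)) ≤
      Real.exp (-(c * (u * Real.log u))) * Real.exp (-(c * (u * Real.log u))) := by
    rw [← Real.exp_add]
    apply Real.exp_le_exp.2
    have : u * Real.log u / (8 * B) = c * (u * Real.log u) + c * (u * Real.log u) := by
      rw [hc]; field_simp; ring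
    linarith only [n3, this]
  have hsmall := small_terms x y L D K (Real.exp (-(c * (u * Real.log u)))) hxr e3 hK3 hK5 hyK
    hyr88 hlogy3 e4 (Real.exp_pos _) hEy hEx
  have hθ := theta_fact L C1 D z e3 hC1 hz0 hzC1
  have hθ0 : 0 ≤ L ^ (2 * D + 1) * ((z : ℝ) ^ (-(1 / 4 : ℝ)) * Real.log z) := by
    have : 0 ≤ L := by linarith only [e3]
    (clear * - e3 hz3 hlogz0; positivity)
  have hT0 : 0 ≤ (y : ℝ) ^ (-(Real.log (U / 12) / Real.log z / 2)) *
      Real.exp (3 * (z : ℝ) ^ (Real.log (U / 12) / Real.log z)) := by positivity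
  have hmt := main_terms y C _ _ _ _ _ hy0 hC hCE (Real.exp_pos _) hWE m2 m3 hT0 hθ0 hθ
  refine hmain.trans ?_
  refine le_trans (le_of_eq ?_) ((add_le_add hsmall hmt).trans (le_of_eq ?_))
  · ring
  · ring

/-- Theorem E in the range `y ≤ x ^ 3`. -/
lemma thmE_mid (δ D : ℝ) (hδ : 0 < δ) (hD : 0 ≤ D) :
    ∃ K : ℝ, 1 ≤ K ∧ ∃ c : ℝ, 0 < c ∧ c ≤ 1 / 16 ∧ ∃ x₀ : ℕ, ∀ x : ℕ, x₀ ≤ x → ∀ y : ℕ,
      (Real.log x) ^ K ≤ y → y ≤ x ^ 3 →
      ((BE δ D x y).card : ℝ) ≤ y * Real.exp (-(c * ((Real.log y / Real.log (Real.log x)) *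
        Real.log (Real.log y / Real.log (Real.log x))))) := by
  obtain ⟨C, hC, x₁, hx₁⟩ := BE_bound δ D hδ hD
  obtain ⟨C1, hC1⟩ : ∃ C1 : ℝ, C1 = 256 + 8 * (2 * D + 2) := ⟨_, rfl⟩
  have hC1' : 256 ≤ C1 := by rw [hC1]; linarith only [hD]
  obtain ⟨B, hB⟩ : ∃ B : ℝ, B = 2 * C1 := ⟨_, rfl⟩
  have hB512 : 512 ≤ B := by rw [hB]; linarith only [hD, hC1]
  have hB0 : 0 < B := by linarith
  obtain ⟨c, hc⟩ : ∃ c : ℝ, c = 1 / (16 * B) := ⟨_, rfl⟩
  have hc0 : 0 < c := by rw [hc]; positivity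
  have hc' : c ≤ 1 / 8192 := by
    rw [hc]
    apply one_div_le_one_div_of_le (by norm_num)
    linarith only [hD, hC1, hB]
  -- the size of K
  have hKpos : 0 ≤ Real.exp 12 * B := by positivity
  have hKC : 0 ≤ 12 * C / c := by positivity
  obtain ⟨K, hK⟩ : ∃ K : ℝ, K = B ^ 2 + Real.exp 12 * B + 16 * (2 * D + 2) + 12 * C / c + 32 :=
    ⟨_, rfl⟩
  have hB2 : 0 ≤ B ^ 2 := by positivity
  have hK1 : B ^ 2 ≤ K := by linarith only [hD, hKpos, hKC, hK]
  have hK2 : Real.exp 12 * B ≤ K := by linarith only [hD, hKC, hK, hB2]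
  have hK3 : 16 * (2 * D + 2) ≤ K := by linarith only [hKpos, hKC, hK, hB2]
  have hK4 : 12 * C / c ≤ K := by linarith only [hD, hKpos, hK, hB2]
  have hK5 : 32 ≤ K := by linarith only [hD, hKpos, hKC, hK, hB2]
  clear hK hKpos hKC hB2
  have hev := ((eventually_ge_atTop (max x₁ 3)).and (ev_log_rpow (Real.exp 3) 1 one_pos)).and
    ((ev_log_rpow 88 1 one_pos).and (ev_rpow 32 1 (1 / 128) (by norm_num)))
  obtain ⟨x₀, hx₀⟩ := Filter.eventually_atTop.1 hev
  refine ⟨K, by linarith only [hD, hK3], c, hc0, by linarith only [hc'], x₀, fun x hx y hyK hyx => ?_⟩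
  obtain ⟨⟨e1, e2⟩, e3, e4⟩ := hx₀ x hx
  rw [Real.rpow_one] at e2 e3 e4
  have hxx1 : x₁ ≤ x := (le_max_left _ _).trans e1
  have hx3 : 3 ≤ x := (le_max_right _ _).trans e1
  have hxr : (0 : ℝ) < x := by positivity
  clear hx₀ hev e1 hx
  obtain ⟨L, hL⟩ : ∃ L : ℝ, L = Real.log x := ⟨_, rfl⟩
  rw [← hL] at e2 e3 e4 hyK ⊢
  obtain ⟨u, hu⟩ : ∃ u : ℝ, u = Real.log y / Real.log L := ⟨_, rfl⟩
  rw [← hu]
  obtain ⟨hlL3, hyr88, hlogy3, huK, hulog⟩ := u_facts x y L K u hL e2 e3 hK5 hyK hyx hu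
  have hL0 : 0 < L := by linarith only [e3]
  have hlL : 0 < Real.log L := by linarith only [hlL3]
  -- the sieve level
  obtain ⟨hzC1, hz256, hzup, hLz, hz3, hz14⟩ := z_facts L C1 e3 hC1'
  rw [← hB] at hzup
  obtain ⟨z, hz⟩ : ∃ z : ℕ, z = ⌈L ^ C1⌉₊ := ⟨_, rfl⟩
  rw [← hz] at hzC1 hz256 hzup hLz hz3 hz14
  obtain ⟨U, hU⟩ : ∃ U : ℝ, U = Real.log y / Real.log z := ⟨_, rfl⟩
  obtain ⟨hlogysqrt, hU0, hlogU, hη0, hη1, hlogu1, n3⟩ := U_facts y z L B u U K hB512 hL0 hlL hz3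
    hzup hLz hz14 hyr88 hlogy3 hu hU hK1 hK2 huK
  have hy2 : 2 ≤ y := by
    have : (2 : ℝ) ≤ y := by linarith only [hyr88]
    exact_mod_cast this
  have hmain := hx₁ x hxx1 z (by rw [← hL]; exact hz256) y hy2 hyx hlogysqrt _ hη0 hη1
  rw [← hL] at hmain
  exact mid_assemble x y z _ L C C1 B D K c u U hxr hL e3 e4 hC hC1 hB0 hc hc' hK3 hK4 hK5 hyK
    hzC1 hz3 hyr88 hlogy3 huK hulog hU hU0 hlogU hlogu1 n3 hmain

end Vale.Agent.P016
end
end

section

section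

namespace Vale.Agent.P016

open Finset Filter

lemma BE_le_BadA (δ D : ℝ) (x y : ℕ) :
    (BE δ D x y).card ≤ (BadA δ D x 1 y).card + 3 := by
  classical
  have hsub : BE δ D x y ⊆ BadA δ D x 1 y ∪ {0, 1, -1} := by
    intro a ha
    rw [BE, mem_filter] at ha
    rw [mem_union]
    by_cases h : a = 0 ∨ a = 1 ∨ a = -1
    · right
      simp only [mem_insert, mem_singleton]
      exact h
    · left
      push Not at h
      obtain ⟨h0, h1, h2⟩ := h
      have h3 : a.natAbs ≠ 1 := by omega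
      obtain ⟨q, hq, hqa⟩ := Nat.exists_prime_and_dvd h3
      rw [BadA, mem_filter]
      refine ⟨ha.1, h0, ⟨q, hq, Int.natCast_dvd.2 hqa, by exact_mod_cast hq.one_lt⟩, ha.2⟩
  refine (Finset.card_le_card hsub).trans ((Finset.card_union_le _ _).trans ?_)
  refine Nat.add_le_add_left ?_ _
  exact Finset.card_le_three

lemma mul_log_mono (a b : ℝ) (ha : 1 ≤ a) (hab : a ≤ b) : a * Real.log a ≤ b * Real.log b := by
  have h1 : Real.log a ≤ Real.log b := Real.log_le_log (by linarith) hab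
  have h2 : 0 ≤ Real.log a := Real.log_nonneg ha
  exact mul_le_mul hab h1 h2 (by linarith)

/-- Theorem E: the exceptional set for all integers, all ranges. -/
theorem thmE (δ D : ℝ) (hδ : 0 < δ) (hD : 0 ≤ D) :
    ∃ K : ℝ, 1 ≤ K ∧ ∃ c : ℝ, 0 < c ∧ ∃ x₀ : ℕ, ∀ x : ℕ, x₀ ≤ x → ∀ y : ℕ,
      (Real.log x) ^ K ≤ y →
      ((BE δ D x y).card : ℝ) ≤ y * Real.exp (-(c *
        ((Real.log (min (y : ℝ) x) / Real.log (Real.log x)) *
        Real.log (Real.log (min (y : ℝ) x) / Real.log (Real.log x))))) := by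
  obtain ⟨K, hK, c, hc, hc16, x₁, hx₁⟩ := thmE_mid δ D hδ hD
  obtain ⟨x₂, hx₂⟩ := int_large δ D hδ
  have hev := ((eventually_ge_atTop (max x₁ (max x₂ 3))).and
    (ev_log_rpow (Real.exp 3) 1 one_pos)).and
    ((ev_log_rpow 88 1 one_pos).and (ev_rpow 32 1 (1 / 16) (by norm_num)))
  obtain ⟨x₀, hx₀⟩ := Filter.eventually_atTop.1 hev
  refine ⟨K, hK, c, hc, x₀, fun x hx y hyK => ?_⟩
  obtain ⟨⟨e1, e2⟩, e3, e4⟩ := hx₀ x hx
  rw [Real.rpow_one] at e2 e3 e4
  have hxx1 : x₁ ≤ x := (le_max_left _ _).trans e1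
  have hxx2 : x₂ ≤ x := (le_max_left _ _).trans ((le_max_right _ _).trans e1)
  have hx3 : 3 ≤ x := (le_max_right _ _).trans ((le_max_right _ _).trans e1)
  have hxr : (3 : ℝ) ≤ x := by exact_mod_cast hx3
  have hL0 : 0 < Real.log x := by linarith only [e3]
  have hlL3 : 3 ≤ Real.log (Real.log x) := by
    rw [Real.le_log_iff_exp_le hL0]; exact e2
  have hlL : 0 < Real.log (Real.log x) := by linarith only [hlL3]
  have hux1 : 1 ≤ Real.log x / Real.log (Real.log x) := by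
    rw [le_div_iff₀ hlL, one_mul]
    have := Real.log_le_sub_one_of_pos hL0
    linarith only [this]
  rcases le_total y (x ^ 3) with hyx3 | hyx3
  · have h1 := hx₁ x hxx1 y hyK hyx3
    rcases le_total (y : ℝ) x with hyx | hyx
    · rw [min_eq_left hyx]
      exact h1
    · rw [min_eq_right hyx]
      refine h1.trans (mul_le_mul_of_nonneg_left ?_ (Nat.cast_nonneg y))
      apply Real.exp_le_exp.2
      apply neg_le_neg
      refine mul_le_mul_of_nonneg_left ?_ hc.le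
      apply mul_log_mono _ _ hux1
      exact div_le_div_of_nonneg_right (Real.log_le_log (by linarith only [hxr]) hyx) hlL.le
  · have h1 := hx₂ x hxx2 1 y hyx3
    have h2 := BE_le_BadA δ D x y
    have h3 : ((BE δ D x y).card : ℝ) ≤ (BadA δ D x 1 y).card + 3 := by exact_mod_cast h2
    have hy3 : ((x : ℝ)) ^ 3 ≤ y := by exact_mod_cast hyx3
    have hyx : (x : ℝ) ≤ y := by
      refine le_trans ?_ hy3
      (clear * - hc hc16 hxr; nlinarith [sq_nonneg ((x : ℝ) - 1), mul_pos (by linarith : (0:ℝ) < x) (by linarith : (0:ℝ) < x)])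
    rw [min_eq_right hyx]
    have hx0 : (0 : ℝ) < x := by linarith only [hxr]
    have hy0 : (0 : ℝ) < y := by linarith only [hxr, hyx]
    -- the exponential is at least x^{-1/16}
    have hE : (x : ℝ) ^ (-(1 / 16 : ℝ)) ≤ Real.exp (-(c *
        ((Real.log x / Real.log (Real.log x)) * Real.log (Real.log x / Real.log (Real.log x))))) := by
      rw [Real.rpow_def_of_pos hx0]
      apply Real.exp_le_exp.2
      have hu0 : 0 < Real.log x / Real.log (Real.log x) := by positivity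
      have huL : Real.log x / Real.log (Real.log x) ≤ Real.log x := by
        rw [div_le_iff₀ hlL]
        nlinarith only [e3, hlL3]
      have h5 : Real.log (Real.log x / Real.log (Real.log x)) ≤ Real.log (Real.log x) :=
        Real.log_le_log hu0 huL
      have h6 : (Real.log x / Real.log (Real.log x)) *
          Real.log (Real.log x / Real.log (Real.log x)) ≤ Real.log x := by
        calc _ ≤ (Real.log x / Real.log (Real.log x)) * Real.log (Real.log x) :=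
              mul_le_mul_of_nonneg_left h5 hu0.le
          _ = _ := by (clear * - hlL3 e3; field_simp)
      have h7 : c * ((Real.log x / Real.log (Real.log x)) *
          Real.log (Real.log x / Real.log (Real.log x))) ≤ 1 / 16 * Real.log x := by
        have h8 : 0 ≤ (Real.log x / Real.log (Real.log x)) *
          Real.log (Real.log x / Real.log (Real.log x)) :=
            mul_nonneg hu0.le (Real.log_nonneg hux1)
        exact mul_le_mul hc16 h6 h8 (by norm_num)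
      linarith only [h7]
    have hmain : (y : ℝ) * (x : ℝ) ^ (-(1 / 4 : ℝ)) + 3 ≤ y * (x : ℝ) ^ (-(1 / 16 : ℝ)) := by
      have h4 : (2 : ℝ) ≤ (x : ℝ) ^ (1 / 16 : ℝ) := by linarith only [e3, e4]
      have h5 : (x : ℝ) ^ (-(1 / 4 : ℝ)) * 2 ≤ (x : ℝ) ^ (-(1 / 16 : ℝ)) := by
        calc (x : ℝ) ^ (-(1 / 4 : ℝ)) * 2 ≤ (x : ℝ) ^ (-(1 / 4 : ℝ)) * (x : ℝ) ^ (1 / 16 : ℝ) :=
              mul_le_mul_of_nonneg_left h4 (by positivity)
          _ = (x : ℝ) ^ (-(1 / 4 : ℝ) + 1 / 16) := by rw [← Real.rpow_add hx0]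
          _ ≤ _ := Real.rpow_le_rpow_of_exponent_le (by linarith only [hxr]) (by norm_num)
      have h6 : (6 : ℝ) ≤ y * (x : ℝ) ^ (-(1 / 16 : ℝ)) := by
        have h7 : (x : ℝ) ^ (-(1 : ℝ)) ≤ (x : ℝ) ^ (-(1 / 16 : ℝ)) :=
          Real.rpow_le_rpow_of_exponent_le (by linarith only [hxr]) (by norm_num)
        rw [Real.rpow_neg_one] at h7
        calc (6 : ℝ) ≤ (x : ℝ) ^ 3 * (x : ℝ)⁻¹ := by
              rw [show (x : ℝ) ^ 3 * (x : ℝ)⁻¹ = (x : ℝ) ^ 2 by field_simp]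
              nlinarith only [hxr]
          _ ≤ y * (x : ℝ) ^ (-(1 / 16 : ℝ)) := mul_le_mul hy3 h7 (by positivity) hy0.le
      have h8 := mul_le_mul_of_nonneg_left h5 hy0.le
      linarith only [h6, h8]
    refine h3.trans (le_trans ?_ (mul_le_mul_of_nonneg_left hE hy0.le))
    linarith only [h1, hmain]

end Vale.Agent.P016
end
end

section

section

namespace Vale.Agent.P016

open Finset Filter Topology

/-- partial Euler products -/
noncomputable def AT (T : ℕ) : ℝ := ∏ l ∈ Px T, (1 - 1 / ((l : ℝ) * ((l : ℝ) - 1)))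

/-- the factor at `n`, extended by `1` off the primes -/
noncomputable def afac (n : ℕ) : ℝ := if n.Prime then 1 - 1 / ((n : ℝ) * ((n : ℝ) - 1)) else 1

lemma afac_bound (n : ℕ) : |afac n - 1| ≤ 2 * (1 / (n : ℝ) ^ 2) := by
  unfold afac
  split_ifs with h
  · have h2 : (2 : ℝ) ≤ n := by exact_mod_cast h.two_le
    have e : 1 - 1 / ((n : ℝ) * ((n : ℝ) - 1)) - 1 = -(1 / ((n : ℝ) * ((n : ℝ) - 1))) := by ring
    have hpos : 0 < (n : ℝ) * ((n : ℝ) - 1) := by nlinarith only [h2]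
    rw [e, abs_neg, abs_of_pos (by positivity), ← mul_div_assoc, mul_one,
      div_le_div_iff₀ hpos (by positivity)]
    nlinarith only [h2]
  · simp only [sub_self, abs_zero, one_div, Nat.ofNat_pos, mul_nonneg_iff_of_pos_left, inv_nonneg, Nat.cast_nonneg, pow_succ_nonneg]

lemma afac_pos (n : ℕ) : 0 < afac n := by
  unfold afac
  split_ifs with h
  · have h2 : (2 : ℝ) ≤ n := by exact_mod_cast h.two_le
    have hpos : 2 ≤ (n : ℝ) * ((n : ℝ) - 1) := by nlinarith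
    have : 1 / ((n : ℝ) * ((n : ℝ) - 1)) ≤ 1 / 2 :=
      one_div_le_one_div_of_le (by norm_num) hpos
    linarith only [this]
  · norm_num

lemma summable_afac : Summable (fun n => afac n - 1) := by
  refine Summable.of_norm_bounded (g := fun n : ℕ => 2 * (1 / (n : ℝ) ^ 2)) ?_ fun n => ?_
  · exact (Real.summable_one_div_nat_pow.2 (by norm_num)).mul_left 2
  · rw [Real.norm_eq_abs]
    exact afac_bound n

lemma artinConst_eq : artinConst = ∏' n, afac n := by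
  have h := tprod_subtype {p : ℕ | p.Prime} (fun n : ℕ => 1 - 1 / ((n : ℝ) * ((n : ℝ) - 1)))
  unfold artinConst
  refine Eq.trans ?_ (h.trans ?_)
  · rfl
  · congr 1
    funext n
    unfold afac
    by_cases hn : n.Prime
    · rw [Set.mulIndicator_of_mem (by exact hn), if_pos hn]
    · rw [Set.mulIndicator_of_notMem (by exact hn), if_neg hn]

lemma summable_log_afac : Summable (fun n => Real.log (afac n)) := by
  have h := Real.summable_log_one_add_of_summable summable_afac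
  refine h.congr fun n => ?_
  congr 1
  ring

lemma artinConst_pos : 0 < artinConst := by
  rw [artinConst_eq, ← Real.rexp_tsum_eq_tprod afac_pos summable_log_afac]
  exact Real.exp_pos _

lemma AT_eq (T : ℕ) : AT T = ∏ n ∈ range (T + 1), afac n := by
  unfold AT Px afac
  rw [Finset.prod_filter]

lemma tendsto_AT : Tendsto AT atTop (𝓝 artinConst) := by
  have h1 : Multipliable afac := Real.multipliable_of_summable_log afac_pos summable_log_afac
  have h2 := h1.hasProd.tendsto_prod_nat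
  rw [← artinConst_eq] at h2
  have h3 := h2.comp (tendsto_add_atTop_nat 1)
  refine h3.congr fun T => ?_
  rw [AT_eq]
  rfl

lemma totient_prod_primes (S : Finset ℕ) (hS : ∀ l ∈ S, l.Prime) :
    Nat.totient (∏ l ∈ S, l) = ∏ l ∈ S, (l - 1) := by
  induction S using Finset.induction_on with
  | empty => simp only [prod_empty, Nat.totient_one]
  | insert m S hm ih =>
    rw [Finset.prod_insert hm, Finset.prod_insert hm, Nat.totient_mul,
      ih (fun l hl => hS l (mem_insert_of_mem hl)),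
      Nat.totient_prime (hS m (mem_insert_self _ _))]
    refine Nat.Coprime.prod_right fun l hl => ?_
    refine (Nat.coprime_primes (hS m (mem_insert_self _ _)) (hS l (mem_insert_of_mem hl))).2 ?_
    rintro rfl
    exact hm hl

/-- primes `p ≤ x`, `p ≡ 1 mod d` -/
def cnt (x d : ℕ) : ℕ := ((Px x).filter (fun p => d ∣ p - 1)).card

lemma cnt_eq_piAP (x d : ℕ) : cnt x d = Vale.Agent.PNT.piAP (q := d) (1 : ZMod d) (x : ℝ) := by
  unfold cnt Vale.Agent.PNT.piAP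
  rw [Nat.floor_natCast]
  congr 1
  ext p
  simp only [mem_filter, mem_Px, mem_Icc]
  constructor
  · rintro ⟨⟨h1, h2⟩, h3⟩
    refine ⟨⟨h1.one_le, h2⟩, h1, ?_⟩
    have := (Nat.modEq_iff_dvd' h1.one_le).2 h3
    have h4 := (ZMod.natCast_eq_natCast_iff 1 p d).2 this
    rw [← h4]
    simp
  · rintro ⟨⟨h1, h2⟩, h3, h4⟩
    refine ⟨⟨h3, h2⟩, ?_⟩
    have h5 : ((1 : ℕ) : ZMod d) = (p : ZMod d) := by rw [h4]; simp
    exact (Nat.modEq_iff_dvd' h1).1 ((ZMod.natCast_eq_natCast_iff 1 p d).1 h5)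

lemma cnt_tendsto (d : ℕ) (hd : d ≠ 0) :
    Tendsto (fun x : ℕ => (cnt x d : ℝ) * Real.log x / x) atTop (𝓝 ((d.totient : ℝ)⁻¹)) := by
  have : NeZero d := ⟨hd⟩
  have h := (Vale.Agent.PNT.piAP_mul_log_div_tendsto (q := d) (a := 1) isUnit_one).comp
    tendsto_natCast_atTop_atTop
  refine h.congr fun x => ?_
  simp only [Function.comp]
  rw [cnt_eq_piAP]

lemma cT_zero_expand {T p : ℕ} (hp : p.Prime) :
    cT T (p - 1) 0 = ∑ S ∈ (Px T).powerset,
      ((-1 : ℝ) ^ S.card / ((∏ l ∈ S, l : ℕ) : ℝ)) * (if (∏ l ∈ S, l) ∣ p - 1 then 1 else 0) := by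
  have hpos : p - 1 ≠ 0 := by have := hp.two_le; omega
  have h1 : cT T (p - 1) 0 =
      ∏ l ∈ Px T, (1 + (if l ∣ p - 1 then -(1 / (l : ℝ)) else 0)) := by
    rw [cT_zero]
    have e1 : Lset T (p - 1) = (Px T).filter (fun l => l ∣ p - 1) := by
      ext l
      simp only [Lset, mem_filter, mem_Px, Nat.mem_primeFactors]
      tauto
    rw [e1, Finset.prod_filter]
    refine Finset.prod_congr rfl fun l _ => ?_
    split_ifs <;> ring
  rw [h1, Finset.prod_one_add]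
  refine Finset.sum_congr rfl fun S hS => ?_
  have hSs := mem_powerset.1 hS
  by_cases h : ∀ l ∈ S, l ∣ p - 1
  · have h2 : (∏ l ∈ S, l) ∣ p - 1 :=
      Finset.prod_primes_dvd _ (fun l hl => (mem_Px.1 (hSs hl)).1.prime) h
    rw [if_pos h2, mul_one, Finset.prod_congr rfl (fun l hl => if_pos (h l hl)), Finset.prod_neg,
      Finset.prod_div_distrib, Nat.cast_prod]
    simp only [prod_const_one, one_div]
    ring
  · push Not at h
    obtain ⟨l, hl, hln⟩ := h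
    have h2 : ¬ (∏ l ∈ S, l) ∣ p - 1 := fun h3 => hln ((Finset.dvd_prod_of_mem _ hl).trans h3)
    rw [if_neg h2, mul_zero]
    exact Finset.prod_eq_zero hl (if_neg hln)

lemma sum_cT_zero_tendsto (T : ℕ) :
    Tendsto (fun x : ℕ => (∑ p ∈ Px x, cT T (p - 1) 0) * Real.log x / x) atTop (𝓝 (AT T)) := by
  have h1 : ∀ x : ℕ, (∑ p ∈ Px x, cT T (p - 1) 0) * Real.log x / x =
      ∑ S ∈ (Px T).powerset, ((-1 : ℝ) ^ S.card / ((∏ l ∈ S, l : ℕ) : ℝ)) *
        ((cnt x (∏ l ∈ S, l) : ℝ) * Real.log x / x) := by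
    intro x
    rw [Finset.sum_congr rfl (fun p hp => cT_zero_expand (mem_Px.1 hp).1), Finset.sum_comm,
      Finset.sum_mul, Finset.sum_div]
    refine Finset.sum_congr rfl fun S _ => ?_
    rw [← Finset.mul_sum, ← Finset.sum_filter, Finset.sum_const, nsmul_eq_mul, mul_one, cnt]
    ring
  have h2 : AT T = ∑ S ∈ (Px T).powerset, ((-1 : ℝ) ^ S.card / ((∏ l ∈ S, l : ℕ) : ℝ)) *
        (((∏ l ∈ S, l).totient : ℝ)⁻¹) := by
    unfold AT
    have e1 : ∀ l ∈ Px T, 1 - 1 / ((l : ℝ) * ((l : ℝ) - 1)) =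
        1 + (-(1 / ((l : ℝ) * ((l : ℝ) - 1)))) := fun l _ => by ring
    rw [Finset.prod_congr rfl e1, Finset.prod_one_add]
    refine Finset.sum_congr rfl fun S hS => ?_
    have hSs := mem_powerset.1 hS
    have hSp : ∀ l ∈ S, l.Prime := fun l hl => (mem_Px.1 (hSs hl)).1
    rw [totient_prod_primes S hSp, Finset.prod_neg, Nat.cast_prod, Nat.cast_prod]
    have e2 : ∏ l ∈ S, ((l - 1 : ℕ) : ℝ) = ∏ l ∈ S, ((l : ℝ) - 1) := by
      refine Finset.prod_congr rfl fun l hl => ?_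
      rw [Nat.cast_sub (hSp l hl).one_le]
      simp
    rw [e2, Finset.prod_div_distrib, Finset.prod_mul_distrib]
    simp only [prod_const_one, one_div, mul_inv_rev]
    ring
  rw [h2]
  refine (tendsto_finsetSum _ fun S hS => ?_).congr fun x => (h1 x).symm
  refine Tendsto.const_mul _ (cnt_tendsto _ ?_)
  refine Finset.prod_ne_zero_iff.2 fun l hl => ?_
  exact (mem_Px.1 (mem_powerset.1 hS hl)).1.ne_zero

lemma cnt_le_BT {x l : ℕ} (hl : l.Prime) (hN : 2 ≤ x / l) :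
    (cnt x l : ℝ) ≤ 200 * ((x : ℝ) / l) / Real.log ((x / l : ℕ) : ℝ) := by
  have h1 : cnt x l ≤ ((Icc 1 (x / l)).filter (fun n => (l * n + 1).Prime)).card := by
    unfold cnt
    refine Finset.card_le_card_of_injOn (fun p => (p - 1) / l) ?_ ?_
    · intro p hp
      rw [mem_coe, mem_filter, mem_Px] at hp
      obtain ⟨⟨hp1, hp2⟩, c, hc⟩ := hp
      have h2 := hp1.two_le
      have hc2 : (p - 1) / l = c := by rw [hc, Nat.mul_div_cancel_left _ hl.pos]
      rw [mem_coe, mem_filter, mem_Icc]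
      simp only [hc2]
      have hc0 : c ≠ 0 := by
        rintro rfl
        omega
      refine ⟨⟨by omega, ?_⟩, ?_⟩
      · rw [Nat.le_div_iff_mul_le hl.pos, mul_comm]
        omega
      · have : l * c + 1 = p := by omega
        rw [this]
        exact hp1
    · intro p hp q hq hpq
      rw [mem_coe, mem_filter, mem_Px] at hp hq
      have h2 := hp.1.1.two_le
      have h3 := hq.1.1.two_le
      have h4 := Nat.div_mul_cancel hp.2
      have h5 := Nat.div_mul_cancel hq.2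
      simp only at hpq
      rw [hpq, h5] at h4
      omega
  have h2 := Vale.Agent.P016.BT.Selberg.bt_bound hl.ne_zero hN
  have hl2 : (2 : ℝ) ≤ l := by exact_mod_cast hl.two_le
  have hNr : (2 : ℝ) ≤ ((x / l : ℕ) : ℝ) := by exact_mod_cast hN
  have hlog : 0 < Real.log ((x / l : ℕ) : ℝ) := Real.log_pos (by linarith only [hNr])
  have h3 : (l : ℝ) / (l.totient : ℝ) ≤ 2 := by
    rw [Nat.totient_prime hl, Nat.cast_sub hl.one_le, Nat.cast_one, div_le_iff₀ (by linarith only [hl2])]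
    linarith only [hl2]
  have h4 : ((x / l : ℕ) : ℝ) / Real.log ((x / l : ℕ) : ℝ) ≤
      ((x : ℝ) / l) / Real.log ((x / l : ℕ) : ℝ) :=
    div_le_div_of_nonneg_right Nat.cast_div_le hlog.le
  calc (cnt x l : ℝ) ≤ (((Icc 1 (x / l)).filter (fun n => (l * n + 1).Prime)).card : ℝ) := by
        exact_mod_cast h1
    _ ≤ 100 * ((l : ℝ) / l.totient) * (((x / l : ℕ) : ℝ) / Real.log ((x / l : ℕ) : ℝ)) := h2
    _ ≤ 100 * 2 * (((x : ℝ) / l) / Real.log ((x / l : ℕ) : ℝ)) := by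
        refine mul_le_mul ?_ h4 (by positivity) (by norm_num)
        linarith only [h3]
    _ = _ := by ring

/-- The tail, by Brun-Titchmarsh. -/
lemma sum_cL_tail : ∃ x₀ : ℕ, ∀ x : ℕ, x₀ ≤ x → ∀ T : ℕ, T ≠ 0 →
    ∑ p ∈ Px x, cL T (p - 1) 0 ≤ 600 * (x : ℝ) / (T * Real.log x) + 2 * Real.sqrt x := by
  obtain ⟨x₁, hx₁⟩ := ev_log_ge 100
  refine ⟨max x₁ 100, fun x hx T hT => ?_⟩
  have hl := hx₁ x ((le_max_left _ _).trans hx)
  have hx100 : 100 ≤ x := (le_max_right _ _).trans hx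
  have hxr : (100 : ℝ) ≤ x := by exact_mod_cast hx100
  have hlogx : 0 < Real.log x := by linarith only [hl]
  set w := Nat.sqrt x with hw
  have hw10 : 10 ≤ w := by
    rw [hw, Nat.le_sqrt]
    omega
  have hww : w * w ≤ x := Nat.sqrt_le x
  have hww2 : x < (w + 1) * (w + 1) := Nat.lt_succ_sqrt x
  have hwr : (10 : ℝ) ≤ w := by exact_mod_cast hw10
  have hw0 : (0 : ℝ) < w := by linarith only [hwr]
  have hww2r : (x : ℝ) < ((w : ℝ) + 1) * (w + 1) := by exact_mod_cast hww2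
  have hwrr : (w : ℝ) * w ≤ x := by exact_mod_cast hww
  have hT0 : (0 : ℝ) < T := by exact_mod_cast Nat.pos_of_ne_zero hT
  -- lower bound for log w
  have hlogw : Real.log x / 3 ≤ Real.log w := by
    have h1 : Real.log x ≤ Real.log ((w : ℝ) ^ 3) := by
      refine Real.log_le_log (by linarith only [hxr]) ?_
      nlinarith only [hww2r, hwr]
    rw [Real.log_pow] at h1
    push_cast at h1
    linarith only [h1]
  -- square root
  have hsqrt : (x : ℝ) / w ≤ 2 * Real.sqrt x := by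
    have h1 : Real.sqrt x ≤ w + 1 := by
      rw [Real.sqrt_le_left (by linarith only [hwr])]
      linarith only [hww2r]
    have h2 : Real.sqrt x ≤ 2 * w := by linarith only [hwr, h1]
    have h3 : (x : ℝ) = Real.sqrt x * Real.sqrt x := (Real.mul_self_sqrt (by linarith only [hxr])).symm
    rw [div_le_iff₀ hw0]
    have h4 : 0 ≤ Real.sqrt x := Real.sqrt_nonneg _
    nlinarith only [h3, hwr, h4, h1]
  -- split
  have hsplit : ∀ n, cL T n 0 ≤ cL w n 0 +
      ∑ l ∈ (Ioc T w).filter Nat.Prime, (1 / (l : ℝ)) * (if l ∣ n then 1 else 0) := by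
    intro n
    rw [cL_zero, cL_zero]
    have h1 : ∑ l ∈ Uset T n, 1 / (l : ℝ) = ∑ l ∈ (Uset T n).filter (fun l => w < l), 1 / (l : ℝ) +
        ∑ l ∈ (Uset T n).filter (fun l => ¬ w < l), 1 / (l : ℝ) :=
      (Finset.sum_filter_add_sum_filter_not _ _ _).symm
    rw [h1]
    refine add_le_add ?_ ?_
    · refine Finset.sum_le_sum_of_subset_of_nonneg ?_ fun _ _ _ => by (clear * -; positivity)
      intro l hl
      rw [mem_filter, Uset, mem_filter] at hl
      rw [Uset, mem_filter]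
      exact ⟨hl.1.1, hl.2⟩
    · calc ∑ l ∈ (Uset T n).filter (fun l => ¬ w < l), 1 / (l : ℝ)
          = ∑ l ∈ (Uset T n).filter (fun l => ¬ w < l),
              (1 / (l : ℝ)) * (if l ∣ n then 1 else 0) := by
            refine Finset.sum_congr rfl fun l hl => ?_
            rw [if_pos (hdL l (mem_of_mem_filter _ hl)), mul_one]
        _ ≤ _ := by
            refine Finset.sum_le_sum_of_subset_of_nonneg ?_ fun l _ _ => ?_
            · intro l hl
              rw [mem_filter, Uset, mem_filter] at hl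
              rw [mem_filter, mem_Ioc]
              exact ⟨⟨hl.1.2, by omega⟩, Nat.prime_of_mem_primeFactors hl.1.1⟩
            · split_ifs <;> (clear * -; positivity)
  refine (Finset.sum_le_sum fun p _ => hsplit (p - 1)).trans ?_
  rw [Finset.sum_add_distrib]
  have hA : ∑ p ∈ Px x, cL w (p - 1) 0 ≤ 2 * Real.sqrt x :=
    (sum_cL_zero_le x w (by omega)).trans hsqrt
  have hB : ∑ p ∈ Px x, ∑ l ∈ (Ioc T w).filter Nat.Prime,
      (1 / (l : ℝ)) * (if l ∣ p - 1 then 1 else 0) ≤ 600 * (x : ℝ) / (T * Real.log x) := by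
    rw [Finset.sum_comm]
    have h1 : ∀ l ∈ (Ioc T w).filter Nat.Prime, ∑ p ∈ Px x,
        (1 / (l : ℝ)) * (if l ∣ p - 1 then 1 else 0) ≤
        (600 * (x : ℝ) / Real.log x) * ((l : ℝ) ^ 2)⁻¹ := by
      intro l hl
      rw [mem_filter, mem_Ioc] at hl
      obtain ⟨⟨hl1, hl2⟩, hlp⟩ := hl
      rw [← Finset.mul_sum, ← Finset.sum_filter, Finset.sum_const, nsmul_eq_mul, mul_one]
      have hN : w ≤ x / l := by
        rw [Nat.le_div_iff_mul_le hlp.pos]
        exact (Nat.mul_le_mul_left w hl2).trans hww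
      have h2 := cnt_le_BT (x := x) hlp (by omega)
      have h3 : Real.log x / 3 ≤ Real.log ((x / l : ℕ) : ℝ) :=
        hlogw.trans (Real.log_le_log hw0 (by exact_mod_cast hN))
      have hl0 : (0 : ℝ) < l := by exact_mod_cast hlp.pos
      have h4 : (cnt x l : ℝ) ≤ 200 * ((x : ℝ) / l) / (Real.log x / 3) :=
        h2.trans (div_le_div_of_nonneg_left (by (clear * - hx100 hl0; positivity)) (by positivity) h3)
      calc (1 / (l : ℝ)) * (((Px x).filter (fun p => l ∣ p - 1)).card : ℝ)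
          ≤ (1 / (l : ℝ)) * (200 * ((x : ℝ) / l) / (Real.log x / 3)) :=
            mul_le_mul_of_nonneg_left h4 (by positivity)
        _ = _ := by field_simp; ring
    refine (Finset.sum_le_sum h1).trans ?_
    rw [← Finset.mul_sum]
    have h5 : ∑ l ∈ (Ioc T w).filter Nat.Prime, ((l : ℝ) ^ 2)⁻¹ ≤ (T : ℝ)⁻¹ := by
      refine (Finset.sum_le_sum_of_subset_of_nonneg (Finset.filter_subset _ _)
        fun _ _ _ => by (clear * -; positivity)).trans ?_
      rcases Nat.lt_or_ge w T with h | h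
      · rw [Finset.Ioc_eq_empty (by omega)]
        simp only [sum_empty, inv_nonneg, Nat.cast_nonneg]
      · have h6 := sum_Ioc_inv_sq_le_sub (α := ℝ) hT h
        have h7 : (0 : ℝ) ≤ (w : ℝ)⁻¹ := by positivity
        linarith only [h6, h7]
    calc (600 * (x : ℝ) / Real.log x) * ∑ l ∈ (Ioc T w).filter Nat.Prime, ((l : ℝ) ^ 2)⁻¹
        ≤ (600 * (x : ℝ) / Real.log x) * (T : ℝ)⁻¹ :=
          mul_le_mul_of_nonneg_left h5 (by positivity)
      _ = _ := by field_simp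
  linarith only [hA, hB]

/-- `M(x) ~ A x / log x`. -/
theorem artinMain_tendsto :
    Tendsto (fun x : ℕ => artinMain x * Real.log x / x) atTop (𝓝 artinConst) := by
  obtain ⟨x₀, hx₀⟩ := sum_cL_tail
  rw [Metric.tendsto_atTop]
  intro ε hε
  have h1 := Metric.tendsto_atTop.1 tendsto_AT (ε / 4) (by positivity)
  obtain ⟨T₁, hT₁⟩ := h1
  set T := max (max T₁ ⌈2400 / ε⌉₊) 1 with hT
  have hTT₁ : T₁ ≤ T := (le_max_left _ _).trans (le_max_left _ _)
  have hTε : 2400 / ε ≤ T := (Nat.le_ceil _).trans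
    (by exact_mod_cast (le_max_right _ _).trans (le_max_left _ _))
  have hT1 : 1 ≤ T := le_max_right _ _
  have hT0 : (0 : ℝ) < T := by exact_mod_cast hT1
  have hAT := hT₁ T hTT₁
  obtain ⟨x₁, hx₁⟩ := Metric.tendsto_atTop.1 (sum_cT_zero_tendsto T) (ε / 4) (by positivity)
  -- the square root term
  have hsq : Tendsto (fun x : ℕ => 2 * Real.sqrt x * Real.log x / x) atTop (𝓝 0) := by
    have h2 : Tendsto (fun x : ℝ => 2 * (Real.log x / x ^ (1 / 2 : ℝ))) atTop (𝓝 (2 * 0)) :=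
      ((isLittleO_log_rpow_atTop (by norm_num : (0 : ℝ) < 1 / 2)).tendsto_div_nhds_zero).const_mul 2
    rw [mul_zero] at h2
    refine (h2.comp tendsto_natCast_atTop_atTop).congr' ?_
    filter_upwards [eventually_gt_atTop 0] with x hx
    simp only [Function.comp]
    have hxr : (0 : ℝ) < x := by exact_mod_cast hx
    rw [← Real.sqrt_eq_rpow]
    have h3 : (x : ℝ) = Real.sqrt x * Real.sqrt x := (Real.mul_self_sqrt hxr.le).symm
    have h4 : 0 < Real.sqrt x := Real.sqrt_pos.2 hxr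
    have h5 : 2 * Real.sqrt x * Real.log x / x =
        2 * Real.sqrt x * Real.log x / (Real.sqrt x * Real.sqrt x) := by rw [← h3]
    rw [h5]
    (clear * - hx; field_simp)
  obtain ⟨x₂, hx₂⟩ := Metric.tendsto_atTop.1 hsq (ε / 4) (by positivity)
  refine ⟨max (max x₀ x₁) (max x₂ 2), fun x hx => ?_⟩
  have e0 := hx₀ x ((le_max_left _ _).trans ((le_max_left _ _).trans hx)) T (by omega)
  have e1 := hx₁ x ((le_max_right _ _).trans ((le_max_left _ _).trans hx))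
  have e2 := hx₂ x ((le_max_left _ _).trans ((le_max_right _ _).trans hx))
  have hx2 : 2 ≤ x := (le_max_right _ _).trans ((le_max_right _ _).trans hx)
  have hxr : (2 : ℝ) ≤ x := by exact_mod_cast hx2
  have hlog : 0 < Real.log x := Real.log_pos (by linarith only [hxr])
  rw [Real.dist_eq] at hAT e1 e2 ⊢
  rw [sub_zero] at e2
  have e3 := (abs_lt.1 e1)
  have e4 := (abs_lt.1 hAT)
  have e5 := (abs_lt.1 e2).2
  -- M between
  have hupper : artinMain x ≤ ∑ p ∈ Px x, cT T (p - 1) 0 := by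
    rw [artinMain_eq]
    exact Finset.sum_le_sum fun p hp => (cT_zero_bounds (mem_Px.1 hp).1 T).1
  have hlower : ∑ p ∈ Px x, cT T (p - 1) 0 - ∑ p ∈ Px x, cL T (p - 1) 0 ≤ artinMain x := by
    rw [artinMain_eq, ← Finset.sum_sub_distrib]
    refine Finset.sum_le_sum fun p hp => ?_
    have := (cT_zero_bounds (mem_Px.1 hp).1 T).2.2.1
    linarith only [this]
  have hfac : 0 < Real.log x / x := by (clear * - hlog hx2; positivity)
  have u1 : artinMain x * Real.log x / x ≤ (∑ p ∈ Px x, cT T (p - 1) 0) * Real.log x / x := by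
    have := mul_le_mul_of_nonneg_right hupper hfac.le
    calc artinMain x * Real.log x / x = artinMain x * (Real.log x / x) := by ring
      _ ≤ _ := this
      _ = _ := by ring
  have u2 : (∑ p ∈ Px x, cT T (p - 1) 0) * Real.log x / x -
      (600 * (x : ℝ) / (T * Real.log x) + 2 * Real.sqrt x) * (Real.log x / x) ≤
      artinMain x * Real.log x / x := by
    have h9 : ∑ p ∈ Px x, cT T (p - 1) 0 - (600 * (x : ℝ) / (T * Real.log x) + 2 * Real.sqrt x) ≤
        artinMain x := by linarith only [e0, hlower]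
    have := mul_le_mul_of_nonneg_right h9 hfac.le
    calc (∑ p ∈ Px x, cT T (p - 1) 0) * Real.log x / x -
          (600 * (x : ℝ) / (T * Real.log x) + 2 * Real.sqrt x) * (Real.log x / x) =
          (∑ p ∈ Px x, cT T (p - 1) 0 -
            (600 * (x : ℝ) / (T * Real.log x) + 2 * Real.sqrt x)) * (Real.log x / x) := by ring
      _ ≤ _ := this
      _ = _ := by ring
  have u3 : (600 * (x : ℝ) / (T * Real.log x) + 2 * Real.sqrt x) * (Real.log x / x) =
      600 / T + 2 * Real.sqrt x * Real.log x / x := by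
    (clear * - hlog hT1 hx2; field_simp)
  have u4 : 600 / (T : ℝ) ≤ ε / 4 := by
    rw [div_le_iff₀ hε] at hTε
    rw [div_le_iff₀ hT0]
    linarith only [hTε]
  rw [abs_lt]
  constructor
  · linarith only [e5, u2, u3, u4, e3.1, e4.1]
  · linarith only [e4, u1, e3.2]

end Vale.Agent.P016
end
end

section

section

namespace Vale.Agent.P016

open Finset Filter Topology

/-- grid points with constant ratio -/
def gq (g i l : ℕ) : ℕ := 2 ^ i + 2 ^ i * l / g

lemma gq_ge (g i l : ℕ) : 2 ^ i ≤ gq g i l := Nat.le_add_right _ _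

lemma gq_le {g i l : ℕ} (hg : 0 < g) (hl : l ≤ g) : gq g i l ≤ 2 ^ (i + 1) := by
  unfold gq
  have h1 : 2 ^ i * l / g ≤ 2 ^ i := by
    calc 2 ^ i * l / g ≤ 2 ^ i * g / g := Nat.div_le_div_right (Nat.mul_le_mul_left _ hl)
      _ = 2 ^ i := Nat.mul_div_cancel _ hg
  rw [pow_succ]
  omega

lemma exists_gq {g i x : ℕ} (hg : 0 < g) (h1 : 2 ^ i ≤ x) (h2 : x < 2 ^ (i + 1)) :
    ∃ l, l + 1 ≤ g ∧ gq g i l ≤ x ∧ x ≤ gq g i (l + 1) ∧
      ((gq g i (l + 1) : ℕ) : ℝ) - gq g i l ≤ 2 ^ i / (g : ℝ) + 1 := by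
  obtain ⟨y, rfl⟩ := Nat.exists_eq_add_of_le h1
  have hy : y < 2 ^ i := by rw [pow_succ] at h2; omega
  have h2i : 0 < 2 ^ i := by positivity
  set l := y * g / 2 ^ i with hl
  have hl1 : 2 ^ i * l ≤ y * g := Nat.mul_div_le _ _
  have hl2 : y * g < 2 ^ i * (l + 1) := by
    have := Nat.lt_mul_div_succ (y * g) h2i
    rw [hl]
    exact this
  refine ⟨l, ?_, ?_, ?_, ?_⟩
  · have : l < g := by
      rw [hl, Nat.div_lt_iff_lt_mul h2i, mul_comm g]
      exact Nat.mul_lt_mul_of_pos_right hy hg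
    omega
  · unfold gq
    have : 2 ^ i * l / g ≤ y := by
      calc 2 ^ i * l / g ≤ y * g / g := Nat.div_le_div_right hl1
        _ = y := Nat.mul_div_cancel _ hg
    omega
  · unfold gq
    have : y ≤ 2 ^ i * (l + 1) / g := by
      rw [Nat.le_div_iff_mul_le hg]
      exact hl2.le
    omega
  · unfold gq
    have e1 : ((2 ^ i * (l + 1) / g : ℕ) : ℝ) ≤ (2 ^ i * (l + 1)) / (g : ℝ) := by
      have := @Nat.cast_div_le ℝ _ _ _ (2 ^ i * (l + 1)) g
      push_cast at this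
      exact this
    have e2 : ((2 ^ i * l) : ℝ) / (g : ℝ) - 1 ≤ ((2 ^ i * l / g : ℕ) : ℝ) := by
      have h3 : 2 ^ i * l < (2 ^ i * l / g + 1) * g := by
        have := Nat.lt_div_mul_add (a := 2 ^ i * l) hg
        linarith only [this]
      have h4 : ((2 ^ i * l : ℕ) : ℝ) < (((2 ^ i * l / g : ℕ) : ℝ) + 1) * (g : ℝ) := by
        exact_mod_cast h3
      have hgr : (0 : ℝ) < (g : ℝ) := by exact_mod_cast hg
      have h5 : ((2 ^ i * l : ℕ) : ℝ) / (g : ℝ) < ((2 ^ i * l / g : ℕ) : ℝ) + 1 := by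
        rw [div_lt_iff₀ hgr]
        exact h4
      push_cast at h5 ⊢
      linarith only [h5]
    push_cast
    have e3 : ((2 : ℝ) ^ i * (l + 1)) / (g : ℝ) = 2 ^ i * l / (g : ℝ) + 2 ^ i / (g : ℝ) := by
      ring
    rw [e3] at e1
    linarith only [e1, e2]

/-- Interpolation. -/
lemma interp_c {N M : ℕ → ℝ} (hN : Monotone N) (hM : Monotone M) {x y y' : ℕ} {θ : ℝ}
    (hyx : y ≤ x) (hxy : x ≤ y') (hgap : M y' - M y ≤ θ) (h1 : |N y - M y| ≤ θ)
    (h2 : |N y' - M y'| ≤ θ) : |N x - M x| ≤ 2 * θ := by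
  rw [abs_le] at h1 h2 ⊢
  have n1 := hN hyx
  have n2 := hN hxy
  have m1 := hM hyx
  have m2 := hM hxy
  constructor
  · linarith only [hgap, h1, n1, m2]
  · linarith only [hgap, h2, n2, m1]

open Classical in
lemma gridc_subset (g : ℕ) (hg : 0 < g) {α : Type} [DecidableEq α] (S : Finset α) (N : α → ℕ → ℝ)
    (hN : ∀ a, Monotone (N a)) (M : ℕ → ℝ) (hM : Monotone M) (θ : ℕ → ℝ) (i₀ : ℕ)
    (hgap : ∀ i, i₀ ≤ i → ∀ y y' : ℕ, 2 ^ i ≤ y → y ≤ y' → y' ≤ 2 ^ (i + 1) →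
      (y' : ℝ) - y ≤ 2 ^ i / (g : ℝ) + 1 → M y' - M y ≤ θ i)
    (X₀ X : ℕ) (hX₀ : 2 ^ i₀ ≤ X₀) :
    S.filter (fun a => ∃ x : ℕ, X₀ ≤ x ∧ x ≤ X ∧ 2 * θ (Nat.log 2 x) < |N a x - M x|) ⊆
      (Icc (Nat.log 2 X₀) (Nat.log 2 X)).biUnion fun i => (range (g + 1)).biUnion fun l =>
        S.filter (fun a => θ i < |N a (gq g i l) - M (gq g i l)|) := by
  intro a ha
  rw [mem_filter] at ha
  obtain ⟨haS, x, hx1, hx2, hx3⟩ := ha
  by_contra hcon
  simp only [mem_biUnion, mem_Icc, mem_range, not_exists, not_and] at hcon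
  have hX₀0 : 0 < X₀ := lt_of_lt_of_le (by positivity) hX₀
  have hx0 : x ≠ 0 := by omega
  set i := Nat.log 2 x with hi
  have hi1 : Nat.log 2 X₀ ≤ i := Nat.log_mono_right hx1
  have hi2 : i ≤ Nat.log 2 X := Nat.log_mono_right hx2
  have hi0 : i₀ ≤ i := by
    refine le_trans ?_ hi1
    exact Nat.le_log_of_pow_le (by norm_num) hX₀
  have hxi : 2 ^ i ≤ x := Nat.pow_log_le_self 2 hx0
  have hxi' : x < 2 ^ (i + 1) := Nat.lt_pow_succ_log_self (by norm_num) _
  obtain ⟨l, hl1, hl2, hl3, hl4⟩ := exists_gq hg hxi hxi'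
  have c1 := hcon i ⟨hi1, hi2⟩ l (by omega)
  have c2 := hcon i ⟨hi1, hi2⟩ (l + 1) (by omega)
  simp only [mem_filter, haS, true_and, not_lt] at c1 c2
  refine absurd hx3 (not_lt.2 ?_)
  exact interp_c (hN a) hM hl2 hl3
    (hgap i hi0 _ _ (gq_ge _ _ _) (hl2.trans hl3) (gq_le hg hl1) hl4) c1 c2

/-- `M(x)` is within `ε x / log x` of `A x / log x`. -/
lemma artinMain_approx (ε : ℝ) (hε : 0 < ε) : ∃ x₀ : ℕ, ∀ x : ℕ, x₀ ≤ x →
    |artinMain x - artinConst * (x / Real.log x)| ≤ ε * (x / Real.log x) := by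
  obtain ⟨x₁, hx₁⟩ := Metric.tendsto_atTop.1 artinMain_tendsto ε hε
  refine ⟨max x₁ 3, fun x hx => ?_⟩
  have h1 := hx₁ x ((le_max_left _ _).trans hx)
  have hx3 : 3 ≤ x := (le_max_right _ _).trans hx
  have hxr : (3 : ℝ) ≤ x := by exact_mod_cast hx3
  have hlog : 0 < Real.log x := Real.log_pos (by linarith only [hxr])
  have hx0 : (0 : ℝ) < x := by linarith only [hxr]
  rw [Real.dist_eq] at h1
  have h2 : artinMain x - artinConst * (x / Real.log x) =
      (artinMain x * Real.log x / x - artinConst) * (x / Real.log x) := by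
    field_simp
  rw [h2, abs_mul, abs_of_pos (by positivity : 0 < (x : ℝ) / Real.log x)]
  exact mul_le_mul_of_nonneg_right h1.le (by positivity)

/-- The increments of `M` on the grid. -/
lemma artinMain_gap (τ : ℝ) (hτ : 0 < τ) : ∃ g : ℕ, 0 < g ∧ ∃ i₀ : ℕ, ∀ i, i₀ ≤ i →
    ∀ y y' : ℕ, 2 ^ i ≤ y → y ≤ y' → y' ≤ 2 ^ (i + 1) →
      (y' : ℝ) - y ≤ 2 ^ i / (g : ℝ) + 1 → artinMain y' - artinMain y ≤ τ * (2 ^ i / i) := by
  have hA := artinConst_pos
  obtain ⟨x₁, hx₁⟩ := artinMain_approx (τ / 16) (by positivity)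
  set g := ⌈8 * artinConst / τ⌉₊ + 1 with hg
  have hgτ : 8 * artinConst / τ ≤ g := by
    rw [hg]
    push_cast
    linarith only [Nat.le_ceil (8 * artinConst / τ)]
  have hg0 : (0 : ℝ) < g := by rw [hg]; positivity
  refine ⟨g, by omega, max (max x₁ 4) ⌈8 * artinConst / τ⌉₊, fun i hi y y' hy hyy' hy' hgap => ?_⟩
  have hi1 : x₁ ≤ i := ((le_max_left _ _).trans (le_max_left _ _)).trans hi
  have hi4 : 4 ≤ i := ((le_max_right _ _).trans (le_max_left _ _)).trans hi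
  have hiτ : 8 * artinConst / τ ≤ i := (Nat.le_ceil _).trans
    (by exact_mod_cast (le_max_right _ _).trans hi)
  have hi2 : i < 2 ^ i := Nat.lt_two_pow_self
  have a1 := hx₁ y (by omega)
  have a2 := hx₁ y' (by omega)
  have hir : (4 : ℝ) ≤ i := by exact_mod_cast hi4
  have hi0 : (0 : ℝ) < i := by linarith only [hir]
  obtain ⟨b1, b2⟩ := log_bounds (by omega) hy (hyy'.trans hy')
  obtain ⟨b3, b4⟩ := log_bounds (by omega) (hy.trans hyy') hy'
  have hyr : (2 : ℝ) ^ i ≤ y := by exact_mod_cast hy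
  have hy'r : (y' : ℝ) ≤ 2 * 2 ^ i := by
    have : (y' : ℝ) ≤ 2 ^ (i + 1) := by exact_mod_cast hy'
    rw [pow_succ] at this
    linarith only [this]
  have hyy'r : (y : ℝ) ≤ y' := by exact_mod_cast hyy'
  have hpow : (0 : ℝ) < 2 ^ i := by positivity
  have hy0 : (0 : ℝ) < y := lt_of_lt_of_le hpow hyr
  have hy'0 : (0 : ℝ) < y' := lt_of_lt_of_le hy0 hyy'r
  have hly : 0 < Real.log y := by linarith only [hir, b1]
  have hly' : 0 < Real.log y' := by linarith only [hir, b3]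
  have hll : Real.log y ≤ Real.log y' := Real.log_le_log hy0 hyy'r
  -- main increments
  have c1 : (y' : ℝ) / Real.log y' - y / Real.log y ≤ (y' - y) / Real.log y := by
    rw [sub_div]
    have : (y' : ℝ) / Real.log y' ≤ y' / Real.log y :=
      div_le_div_of_nonneg_left hy'0.le hly hll
    linarith only [this]
  have c2 : ((y' : ℝ) - y) / Real.log y ≤ (2 ^ i / (g : ℝ) + 1) / (i / 2) := by
    calc ((y' : ℝ) - y) / Real.log y ≤ (2 ^ i / (g : ℝ) + 1) / Real.log y :=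
          div_le_div_of_nonneg_right hgap hly.le
      _ ≤ _ := div_le_div_of_nonneg_left (by positivity) (by positivity) b1
  have c3 : ∀ w : ℝ, 0 ≤ w → w ≤ 2 * 2 ^ i → ∀ lw : ℝ, (i : ℝ) / 2 ≤ lw →
      w / lw ≤ 4 * (2 ^ i / i) := by
    intro w hw0 hw lw hlw
    have hlw0 : 0 < lw := by linarith only [hir, hlw]
    calc w / lw ≤ (2 * 2 ^ i) / lw := div_le_div_of_nonneg_right hw hlw0.le
      _ ≤ (2 * 2 ^ i) / (i / 2) := div_le_div_of_nonneg_left (by positivity) (by positivity) hlw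
      _ = _ := by field_simp; ring
  have c4 := c3 y hy0.le (hyy'r.trans hy'r) _ b1
  have c5 := c3 y' hy'0.le hy'r _ b3
  rw [abs_le] at a1 a2
  -- artinConst * (2^i/g + 1) / (i/2) ≤ (τ/2) * (2^i / i)
  have c6 : artinConst * ((2 ^ i / (g : ℝ) + 1) / (i / 2)) ≤ (τ / 2) * (2 ^ i / i) := by
    have e1 : artinConst * ((2 ^ i / (g : ℝ) + 1) / (i / 2)) =
        (2 * artinConst / g) * (2 ^ i / i) + (2 * artinConst) / i := by
      (clear * - hg0 hi4 hA; field_simp)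
    have e2 : 2 * artinConst / g ≤ τ / 4 := by
      rw [div_le_iff₀ hτ] at hgτ
      rw [div_le_iff₀ hg0]
      linarith only [hgτ]
    have e3 : (2 * artinConst) / i ≤ (τ / 4) * (2 ^ i / i) := by
      rw [mul_div_assoc']
      refine div_le_div_of_nonneg_right ?_ hi0.le
      rw [div_le_iff₀ hτ] at hiτ
      have : (i : ℝ) ≤ 2 ^ i := by exact_mod_cast hi2.le
      nlinarith only [hiτ, hτ, this]
    have e4 : (2 * artinConst / g) * (2 ^ i / i) ≤ (τ / 4) * (2 ^ i / i) :=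
      mul_le_mul_of_nonneg_right e2 (by positivity)
    rw [e1]
    linarith only [e3, e4]
  have c7 : artinConst * ((y' : ℝ) / Real.log y' - y / Real.log y) ≤ (τ / 2) * (2 ^ i / i) :=
    (mul_le_mul_of_nonneg_left (c1.trans c2) hA.le).trans c6
  have c8 : τ / 16 * ((y' : ℝ) / Real.log y') ≤ τ / 16 * (4 * (2 ^ i / i)) :=
    mul_le_mul_of_nonneg_left c5 (by positivity)
  have c9 : τ / 16 * ((y : ℝ) / Real.log y) ≤ τ / 16 * (4 * (2 ^ i / i)) :=
    mul_le_mul_of_nonneg_left c4 (by positivity)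
  have : artinMain y' - artinMain y ≤
      artinConst * ((y' : ℝ) / Real.log y' - y / Real.log y) +
      τ / 16 * ((y' : ℝ) / Real.log y') + τ / 16 * ((y : ℝ) / Real.log y) := by
    linarith only [a1.1, a2.2]
  linarith only [a1, a2, c7, c8, c9]

end Vale.Agent.P016
end
end

section

section

namespace Vale.Agent.P016

open Finset Filter

open Classical in
/-- The exceptional set, with main term `M(x)`. -/
theorem excM (δ D : ℝ) (hδ : 0 < δ) (hD : 0 ≤ D) :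
    ∃ K c : ℝ, 0 < c ∧ ∃ x₀ : ℕ, ∀ x : ℕ, x₀ ≤ x → ∀ y : ℕ, (Real.log x) ^ K ≤ y →
      (((Finset.Icc (-(y : ℤ)) (y : ℤ)).filter (fun a : ℤ =>
        δ * artinMain x / (Real.log x) ^ D < |(artinCount a x : ℝ) - artinMain x|)).card : ℝ) ≤
      y * Real.exp (-(c * ((Real.log (min (y : ℝ) x) / Real.log (Real.log x)) *
        Real.log (Real.log (min (y : ℝ) x) / Real.log (Real.log x))))) := by
  obtain ⟨K, -, c, hc, x₀, hx₀⟩ := thmE δ D hδ hD
  refine ⟨K, c, hc, x₀, fun x hx y hy => ?_⟩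
  exact hx₀ x hx y hy

open Classical in
/-- The exceptional set, with Artin's constant. -/
theorem excA (δ : ℝ) (hδ : 0 < δ) :
    ∃ K c : ℝ, 0 < c ∧ ∃ x₀ : ℕ, ∀ x : ℕ, x₀ ≤ x → ∀ y : ℕ, (Real.log x) ^ K ≤ y →
      (((Finset.Icc (-(y : ℤ)) (y : ℤ)).filter (fun a : ℤ =>
        δ * (x / Real.log x) <
          |(artinCount a x : ℝ) - artinConst * (x / Real.log x)|)).card : ℝ) ≤
      y * Real.exp (-(c * ((Real.log (min (y : ℝ) x) / Real.log (Real.log x)) *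
        Real.log (Real.log (min (y : ℝ) x) / Real.log (Real.log x))))) := by
  have hA := artinConst_pos
  obtain ⟨ρ, hρ⟩ : ∃ ρ : ℝ, ρ = δ / (4 * (artinConst + 1)) := ⟨_, rfl⟩
  have hρ0 : 0 < ρ := by rw [hρ]; positivity
  obtain ⟨K, c, hc, x₁, hx₁⟩ := excM ρ 0 hρ0 le_rfl
  obtain ⟨x₂, hx₂⟩ := artinMain_approx (min 1 (δ / 4)) (lt_min one_pos (by positivity))
  refine ⟨K, c, hc, max (max x₁ x₂) 3, fun x hx y hy => ?_⟩
  have k1 : x₁ ≤ x := ((le_max_left _ _).trans (le_max_left _ _)).trans hx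
  have k2 : x₂ ≤ x := ((le_max_right _ _).trans (le_max_left _ _)).trans hx
  have k3 : 3 ≤ x := (le_max_right _ _).trans hx
  have h := hx₁ x k1 y hy
  refine le_trans ?_ h
  have h2 := hx₂ x k2
  have hxr : (3 : ℝ) ≤ x := by exact_mod_cast k3
  have hlog : 0 < Real.log x := Real.log_pos (by linarith only [hxr])
  obtain ⟨R, hR⟩ : ∃ R : ℝ, R = (x : ℝ) / Real.log x := ⟨_, rfl⟩
  have hR0 : 0 < R := by rw [hR]; positivity
  rw [← hR] at h2 ⊢
  refine Nat.cast_le.2 (Finset.card_le_card fun a ha => ?_)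
  rw [mem_filter] at ha ⊢
  refine ⟨ha.1, ?_⟩
  have h3 := ha.2
  have h4 : |artinMain x - artinConst * R| ≤ 1 * R :=
    h2.trans (mul_le_mul_of_nonneg_right (min_le_left _ _) hR0.le)
  have h5 : |artinMain x - artinConst * R| ≤ δ / 4 * R :=
    h2.trans (mul_le_mul_of_nonneg_right (min_le_right _ _) hR0.le)
  have h6 : artinMain x ≤ (artinConst + 1) * R := by
    have := (abs_le.1 h4).2
    linarith only [this]
  have h7 : ρ * artinMain x ≤ δ / 4 * R := by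
    calc ρ * artinMain x ≤ ρ * ((artinConst + 1) * R) := mul_le_mul_of_nonneg_left h6 hρ0.le
      _ = _ := by rw [hρ]; field_simp
  rw [Real.rpow_zero, div_one]
  have h8 : |(artinCount a x : ℝ) - artinConst * R| ≤
      |(artinCount a x : ℝ) - artinMain x| + |artinMain x - artinConst * R| := by
    have := abs_add_le ((artinCount a x : ℝ) - artinMain x) (artinMain x - artinConst * R)
    simpa only [ge_iff_le, sub_add_sub_cancel] using this
  have h9 : 0 < δ * R := by positivity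
  linarith only [ha, h5, h7, h8, h9]

end Vale.Agent.P016
end
end

section

section

namespace Vale.Agent.P016

open Finset Filter Topology

/-- eventually a power dominates a constant -/
lemma ev_rpow_ge (c K : ℝ) (hc : 0 < c) : ∃ t₀ : ℝ, 1 ≤ t₀ ∧ ∀ t : ℝ, t₀ ≤ t → K ≤ t ^ c := by
  have h := (tendsto_rpow_atTop hc).eventually (eventually_ge_atTop K)
  obtain ⟨t₀, ht₀⟩ := eventually_atTop.1 h
  exact ⟨max t₀ 1, le_max_right _ _, fun t ht => ht₀ t ((le_max_left _ _).trans ht)⟩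

lemma exists_max_x (a : ℝ) (ha : 1 ≤ a) (X₀ Y : ℕ) (hX₀ : ∀ x : ℕ, X₀ ≤ x → 1 ≤ Real.log x)
    (hne : ∃ x : ℕ, X₀ ≤ x ∧ (Real.log x) ^ a ≤ (Y : ℝ)) :
    ∃ X : ℕ, (X₀ ≤ X ∧ (Real.log X) ^ a ≤ (Y : ℝ)) ∧
      ∀ x : ℕ, X₀ ≤ x → (Real.log x) ^ a ≤ (Y : ℝ) → x ≤ X := by
  classical
  have hbound : ∀ x : ℕ, X₀ ≤ x → (Real.log x) ^ a ≤ (Y : ℝ) → x ≤ ⌈Real.exp Y⌉₊ := by
    intro x hx1 hx2
    have hl1 := hX₀ x hx1
    have h1 : Real.log x ≤ Y := by
      refine le_trans ?_ hx2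
      calc Real.log x = (Real.log x) ^ (1 : ℝ) := (Real.rpow_one _).symm
        _ ≤ _ := Real.rpow_le_rpow_of_exponent_le hl1 ha
    have hx0 : (0 : ℝ) < x := by
      rcases Nat.eq_zero_or_pos x with h | h
      · subst h; simp only [CharP.cast_eq_zero, Real.log_zero] at hl1; linarith only [hl1]
      · exact_mod_cast h
    have h2 : (x : ℝ) ≤ Real.exp Y := by
      rw [← Real.exp_log hx0]
      exact Real.exp_le_exp.2 h1
    exact_mod_cast h2.trans (Nat.le_ceil _)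
  obtain ⟨w, hw1, hw2⟩ := hne
  refine ⟨Nat.findGreatest (fun x => X₀ ≤ x ∧ (Real.log x) ^ a ≤ (Y : ℝ)) ⌈Real.exp Y⌉₊, ?_, ?_⟩
  · exact Nat.findGreatest_spec (P := fun x => X₀ ≤ x ∧ (Real.log x) ^ a ≤ (Y : ℝ))
      (hbound w hw1 hw2) ⟨hw1, hw2⟩
  · intro x hx1 hx2
    exact Nat.le_findGreatest (hbound x hx1 hx2) ⟨hx1, hx2⟩

open Classical in
/-- A union bound over a grid with constant ratio, from power-type exceptional-set bounds. -/
lemma union_count (g : ℕ) {α : Type} [DecidableEq α] (S : Finset α) (F : ℕ → Finset α) (c₁ K₁ K₂ : ℝ)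
    (hc₁ : 0 < c₁) (hK₁ : 0 ≤ K₁) (hK₂ : 0 ≤ K₂) (e : ℝ) (he : 0 ≤ e) (i₀ i₁ : ℕ) (hi₀ : 3 ≤ i₀)
    (hg : 0 < g) (hsub : S ⊆ (Icc i₀ i₁).biUnion fun i => (range (g + 1)).biUnion fun l =>
      F (gq g i l))
    (hF : ∀ i ∈ Icc i₀ i₁, ∀ l ∈ range (g + 1), ((F (gq g i l)).card : ℝ) ≤
      K₁ * (Real.log (gq g i l : ℕ)) ^ e + K₂ * ((gq g i l : ℕ) : ℝ) ^ (-c₁)) :
    (S.card : ℝ) ≤ (g + 1) * (K₁ * ((i₁ : ℝ) + 1) ^ (e + 1) +
      K₂ * ((2 : ℝ) ^ i₀) ^ (-c₁) / (1 - (2 : ℝ) ^ (-c₁))) := by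
  have h1 : (S.card : ℝ) ≤ ∑ i ∈ Icc i₀ i₁, ∑ l ∈ range (g + 1), ((F (gq g i l)).card : ℝ) := by
    have h2 := (Finset.card_le_card hsub).trans Finset.card_biUnion_le
    have h3 : ∑ i ∈ Icc i₀ i₁, ((range (g + 1)).biUnion fun l => F (gq g i l)).card ≤
        ∑ i ∈ Icc i₀ i₁, ∑ l ∈ range (g + 1), (F (gq g i l)).card :=
      Finset.sum_le_sum fun i _ => Finset.card_biUnion_le
    exact_mod_cast h2.trans h3
  refine h1.trans ?_
  set r : ℝ := (2 : ℝ) ^ (-c₁) with hr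
  have hr0 : 0 < r := Real.rpow_pos_of_pos (by norm_num) _
  have hr1 : r < 1 := Real.rpow_lt_one_of_one_lt_of_neg (by norm_num) (by linarith only [hc₁])
  have h4 : ∀ i ∈ Icc i₀ i₁, ∑ l ∈ range (g + 1), ((F (gq g i l)).card : ℝ) ≤
      (g + 1) * (K₁ * ((i₁ : ℝ) + 1) ^ e + K₂ * r ^ i) := by
    intro i hi
    have hi' := mem_Icc.1 hi
    have h5 : ∀ l ∈ range (g + 1), ((F (gq g i l)).card : ℝ) ≤
        K₁ * ((i₁ : ℝ) + 1) ^ e + K₂ * r ^ i := by
      intro l hl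
      refine (hF i hi l hl).trans ?_
      rw [mem_range] at hl
      have g1 := gq_ge g i l
      have g2 : gq g i l ≤ 2 ^ (i + 1) := gq_le hg (by omega)
      obtain ⟨b1, b2⟩ := log_bounds (by omega) g1 g2
      have hi1 : (i : ℝ) ≤ i₁ := by exact_mod_cast hi'.2
      have hi0 : (0 : ℝ) ≤ i := Nat.cast_nonneg i
      have g1r : (2 : ℝ) ^ i ≤ ((gq g i l : ℕ) : ℝ) := by exact_mod_cast g1
      refine add_le_add ?_ ?_
      · refine mul_le_mul_of_nonneg_left ?_ hK₁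
        exact Real.rpow_le_rpow (by linarith) (by linarith only [b2, hi1]) he
      · refine mul_le_mul_of_nonneg_left ?_ hK₂
        have h6 : ((gq g i l : ℕ) : ℝ) ^ (-c₁) ≤ ((2 : ℝ) ^ i) ^ (-c₁) :=
          Real.rpow_le_rpow_of_nonpos (by positivity) g1r (by linarith only [hc₁])
        refine h6.trans (le_of_eq ?_)
        rw [hr, ← Real.rpow_natCast, ← Real.rpow_natCast, ← Real.rpow_mul (by norm_num),
          ← Real.rpow_mul (by norm_num), mul_comm]
    refine (Finset.sum_le_sum h5).trans (le_of_eq ?_)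
    rw [Finset.sum_const, card_range, nsmul_eq_mul]
    push_cast
    ring
  refine (Finset.sum_le_sum h4).trans ?_
  rw [← Finset.mul_sum]
  refine mul_le_mul_of_nonneg_left ?_ (by positivity)
  have h12 : ∑ i ∈ Icc i₀ i₁, (K₁ * ((i₁ : ℝ) + 1) ^ e + K₂ * r ^ i) =
      ((Icc i₀ i₁).card : ℝ) * (K₁ * ((i₁ : ℝ) + 1) ^ e) + K₂ * ∑ i ∈ Icc i₀ i₁, r ^ i := by
    rw [Finset.sum_add_distrib, Finset.sum_const, nsmul_eq_mul, Finset.mul_sum]
  rw [h12]
  refine add_le_add ?_ ?_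
  · have h7 : ((Icc i₀ i₁).card : ℝ) ≤ (i₁ : ℝ) + 1 := by
      have : (Icc i₀ i₁).card ≤ i₁ + 1 := by
        rw [Nat.card_Icc]
        omega
      exact_mod_cast this
    have h8 : ((i₁ : ℝ) + 1) ^ (e + 1) = ((i₁ : ℝ) + 1) ^ e * ((i₁ : ℝ) + 1) := by
      rw [Real.rpow_add (by (clear * -; positivity)), Real.rpow_one]
    rw [h8]
    have h9 : 0 ≤ K₁ * ((i₁ : ℝ) + 1) ^ e := by (clear * - hK₁; positivity)
    calc ((Icc i₀ i₁).card : ℝ) * (K₁ * ((i₁ : ℝ) + 1) ^ e)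
        ≤ ((i₁ : ℝ) + 1) * (K₁ * ((i₁ : ℝ) + 1) ^ e) := mul_le_mul_of_nonneg_right h7 h9
      _ = _ := by ring
  · have h10 : ∑ i ∈ Icc i₀ i₁, r ^ i ≤ r ^ i₀ / (1 - r) := by
      have := geom_sum_Ico_le_of_lt_one (m := i₀) (n := i₁ + 1) hr0.le hr1
      exact this
    have h11 : r ^ i₀ = ((2 : ℝ) ^ i₀) ^ (-c₁) := by
      rw [hr, ← Real.rpow_natCast, ← Real.rpow_natCast, ← Real.rpow_mul (by norm_num),
        ← Real.rpow_mul (by norm_num), mul_comm]
    rw [h11] at h10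
    rw [mul_div_assoc]
    exact mul_le_mul_of_nonneg_left h10 hK₂

/-- From a failure of the asymptotic at `x` to a large deviation from `M`. -/
lemma fail_imp (δ : ℝ) (hδ : 0 < δ) : ∃ x₀ : ℕ, ∀ x : ℕ, x₀ ≤ x → ∀ N : ℝ,
    δ * (x / Real.log x) < |N - artinConst * (x / Real.log x)| →
    2 * (δ / 4 * (2 ^ (Nat.log 2 x) / (Nat.log 2 x : ℕ))) < |N - artinMain x| := by
  obtain ⟨x₁, hx₁⟩ := artinMain_approx (δ / 4) (by positivity)
  refine ⟨max x₁ 8, fun x hx N h => ?_⟩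
  have h1 := hx₁ x ((le_max_left _ _).trans hx)
  have hx8 : 8 ≤ x := (le_max_right _ _).trans hx
  set i := Nat.log 2 x with hi
  have hi3 : 3 ≤ i := Nat.le_log_of_pow_le (by norm_num) (by omega)
  have hxi : 2 ^ i ≤ x := Nat.pow_log_le_self 2 (by omega)
  have hxi' : x < 2 ^ (i + 1) := Nat.lt_pow_succ_log_self (by norm_num) _
  obtain ⟨b1, b2⟩ := log_bounds hi3 hxi hxi'.le
  have hir : (3 : ℝ) ≤ i := by exact_mod_cast hi3
  have hlog : 0 < Real.log x := by linarith only [b1, hir]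
  have hxr : (2 : ℝ) ^ i ≤ x := by exact_mod_cast hxi
  have hx0 : (0 : ℝ) < x := lt_of_lt_of_le (by positivity) hxr
  have hB : (2 : ℝ) ^ i / i ≤ x / Real.log x := by
    calc (2 : ℝ) ^ i / i ≤ x / i := div_le_div_of_nonneg_right hxr (by linarith only [hir])
      _ ≤ _ := div_le_div_of_nonneg_left hx0.le hlog b2
  have hB0 : 0 < (2 : ℝ) ^ i / i := by positivity
  have h2 : |N - artinConst * (x / Real.log x)| ≤ |N - artinMain x| +
      |artinMain x - artinConst * (x / Real.log x)| := abs_sub_le _ _ _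
  have h3 : δ / 4 * ((2 : ℝ) ^ i / i) ≤ δ / 4 * (x / Real.log x) :=
    mul_le_mul_of_nonneg_left hB (by positivity)
  nlinarith only [h, h1, h2, h3, hδ, hB0]

/-- At a grid point a deviation exceeding `τ 2^i / i` exceeds `δ' M`. -/
lemma grid_imp (τ : ℝ) (hτ : 0 < τ) : ∃ i₀ : ℕ, 3 ≤ i₀ ∧ ∀ i : ℕ, i₀ ≤ i → ∀ x : ℕ,
    2 ^ i ≤ x → x ≤ 2 ^ (i + 1) →
    τ / (4 * (artinConst + 1)) * artinMain x ≤ τ * (2 ^ i / (i : ℝ)) := by
  have hA := artinConst_pos
  obtain ⟨x₁, hx₁⟩ := artinMain_approx 1 one_pos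
  refine ⟨max x₁ 3, le_max_right _ _, fun i hi x hx hx' => ?_⟩
  have hi3 : 3 ≤ i := (le_max_right _ _).trans hi
  have hi1 : x₁ ≤ i := (le_max_left _ _).trans hi
  have hi2 : i < 2 ^ i := Nat.lt_two_pow_self
  have h1 := hx₁ x (by omega)
  obtain ⟨b1, b2⟩ := log_bounds hi3 hx hx'
  have hir : (3 : ℝ) ≤ i := by exact_mod_cast hi3
  have hlog : 0 < Real.log x := by linarith only [b1, hir]
  have hxr : (x : ℝ) ≤ 2 ^ (i + 1) := by exact_mod_cast hx'
  have h2 : (x : ℝ) / Real.log x ≤ 4 * (2 ^ i / i) := by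
    calc (x : ℝ) / Real.log x ≤ 2 ^ (i + 1) / Real.log x := div_le_div_of_nonneg_right hxr hlog.le
      _ ≤ 2 ^ (i + 1) / (i / 2) := div_le_div_of_nonneg_left (by positivity) (by positivity) b1
      _ = _ := by rw [pow_succ]; field_simp; ring
  have h3 : artinMain x ≤ (artinConst + 1) * (x / Real.log x) := by
    rw [abs_le] at h1
    linarith only [h1.2]
  have h4 : artinMain x ≤ (artinConst + 1) * (4 * (2 ^ i / i)) :=
    h3.trans (mul_le_mul_of_nonneg_left h2 (by linarith only [hA]))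
  rw [div_mul_eq_mul_div, div_le_iff₀ (by positivity)]
  calc τ * artinMain x ≤ τ * ((artinConst + 1) * (4 * (2 ^ i / i))) :=
        mul_le_mul_of_nonneg_left h4 hτ.le
    _ = _ := by ring

/-- the constant `δ'` used at grid points -/
noncomputable def dl (δ : ℝ) : ℝ := δ / 4 / (4 * (artinConst + 1))

lemma dl_pos {δ : ℝ} (hδ : 0 < δ) : 0 < dl δ := by
  have := artinConst_pos
  unfold dl
  positivity

open Classical in
/-- From per-`x` bounds to bounds uniform in `x ∈ [X₀, X]`. -/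
theorem unif_core (κ δ c₁ : ℝ) (hκ : 0 < κ) (hδ : 0 < δ) (hc₁ : 0 < c₁) : ∃ x₀ : ℕ,
    ∀ {α : Type} [DecidableEq α] (S : Finset α) (N : α → ℕ → ℝ), (∀ a, Monotone (N a)) →
    ∀ K₁ K₂ : ℝ, 0 ≤ K₁ → 0 ≤ K₂ → ∀ X₀ X : ℕ, x₀ ≤ X₀ → X₀ ≤ X →
    (∀ x : ℕ, X₀ ≤ 2 * x → x ≤ 2 * X →
      ((S.filter (fun a => dl δ * artinMain x < |N a x - artinMain x|)).card : ℝ) ≤
        K₁ * (Real.log x) ^ (1 + κ / 2) + K₂ * (x : ℝ) ^ (-c₁)) →
    ((S.filter (fun a => ∃ x : ℕ, X₀ ≤ x ∧ x ≤ X ∧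
        δ * (x / Real.log x) < |N a x - artinConst * (x / Real.log x)|)).card : ℝ) ≤
      K₁ * (Real.log X) ^ (2 + κ) + K₂ * (X₀ : ℝ) ^ (-(c₁ / 2)) := by
  have hA := artinConst_pos
  set τ := δ / 4 with hτdef
  have hτ : 0 < τ := by positivity
  set κ' := κ / 2 with hκ'def
  have hκ' : 0 < κ' := by positivity
  obtain ⟨g, hg, ia, hia⟩ := artinMain_gap τ hτ
  obtain ⟨ib, hib3, hib⟩ := grid_imp τ hτ
  obtain ⟨xf, hxf⟩ := fail_imp δ hδ
  -- constants to absorb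
  set r : ℝ := (2 : ℝ) ^ (-c₁) with hr
  have hr0 : 0 < r := Real.rpow_pos_of_pos (by norm_num) _
  have hr1 : r < 1 := Real.rpow_lt_one_of_one_lt_of_neg (by norm_num) (by linarith only [hc₁])
  obtain ⟨t₁, ht₁1, ht₁⟩ := ev_rpow_ge (c₁ / 2) ((g + 1) * ((2 : ℝ) ^ c₁ / (1 - r))) (by positivity)
  obtain ⟨t₂, ht₂1, ht₂⟩ := ev_rpow_ge κ' ((g + 1) * (3 : ℝ) ^ (2 + κ')) hκ'
  obtain ⟨x₂, hx₂⟩ := ev_log_ge (max t₂ 1)
  refine ⟨max (2 ^ (max (max ia ib) 3)) (max (max xf x₂) ⌈t₁⌉₊),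
    fun {α} _ S N hN K₁ K₂ hK₁ hK₂ X₀ X hX₀ hX hper => ?_⟩
  have k2 : 2 ^ (max (max ia ib) 3) ≤ X₀ := (le_max_left _ _).trans hX₀
  have k3 : xf ≤ X₀ := ((le_max_left _ _).trans ((le_max_left _ _).trans (le_max_right _ _))).trans hX₀
  have k4 : x₂ ≤ X₀ := ((le_max_right _ _).trans ((le_max_left _ _).trans (le_max_right _ _))).trans hX₀
  have k5 : t₁ ≤ X₀ := (Nat.le_ceil _).trans
    (by exact_mod_cast ((le_max_right _ _).trans (le_max_right _ _)).trans hX₀)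
  have hlX := hx₂ X (k4.trans hX)
  have hlX1 : 1 ≤ Real.log X := (le_max_right _ _).trans hlX
  have hlXt : t₂ ≤ Real.log X := (le_max_left _ _).trans hlX
  set i₀ := Nat.log 2 X₀ with hi₀
  set i₁ := Nat.log 2 X with hi₁
  have hX₀pos : 0 < X₀ := lt_of_lt_of_le (by positivity) k2
  have hi₀m : max (max ia ib) 3 ≤ i₀ := Nat.le_log_of_pow_le (by norm_num) k2
  have hi₀3 : 3 ≤ i₀ := (le_max_right _ _).trans hi₀m
  have hX₀lt : X₀ < 2 ^ (i₀ + 1) := Nat.lt_pow_succ_log_self (by norm_num) _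
  have hX₀r : (0 : ℝ) < X₀ := by exact_mod_cast hX₀pos
  have hXr : (0 : ℝ) < X := by exact_mod_cast (lt_of_lt_of_le hX₀pos hX)
  have hXpos : X ≠ 0 := by omega
  -- the failing sets
  set F : ℕ → Finset α := fun x => S.filter (fun a => dl δ * artinMain x < |N a x - artinMain x|)
    with hF
  have hsub1 : S.filter (fun a => ∃ x : ℕ, X₀ ≤ x ∧ x ≤ X ∧
        δ * (x / Real.log x) < |N a x - artinConst * (x / Real.log x)|) ⊆
      (Icc i₀ i₁).biUnion fun i => (range (g + 1)).biUnion fun l => F (gq g i l) := by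
    have h1 := gridc_subset g hg S N hN artinMain
      artinMain_mono (fun i => τ * (2 ^ i / (i : ℝ))) (max (max ia ib) 3)
      (fun i hi y y' hy hyy' hy' hgap => hia i
        (((le_max_left _ _).trans (le_max_left _ _)).trans hi) y y' hy hyy' hy' hgap) X₀ X k2
    intro q hq
    rw [mem_filter] at hq
    obtain ⟨hq1, x, hx1, hx2, hx3⟩ := hq
    have h2 : q ∈ S.filter (fun a => ∃ x : ℕ, X₀ ≤ x ∧ x ≤ X ∧
        2 * (fun i : ℕ => τ * (2 ^ i / (i : ℝ))) (Nat.log 2 x) < |N a x - artinMain x|) := by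
      rw [mem_filter]
      exact ⟨hq1, x, hx1, hx2, hxf x (k3.trans hx1) _ hx3⟩
    have h3 := h1 h2
    rw [mem_biUnion] at h3 ⊢
    obtain ⟨i, hi, h4⟩ := h3
    rw [mem_biUnion] at h4
    obtain ⟨l, hl, h5⟩ := h4
    refine ⟨i, hi, ?_⟩
    rw [mem_biUnion]
    refine ⟨l, hl, ?_⟩
    rw [mem_filter] at h5
    rw [hF, mem_filter]
    refine ⟨h5.1, ?_⟩
    refine lt_of_le_of_lt ?_ h5.2
    rw [mem_range] at hl
    rw [mem_Icc] at hi
    exact hib i (((le_max_right _ _).trans ((le_max_left _ _).trans hi₀m)).trans hi.1) _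
      (gq_ge _ _ _) (gq_le hg (by omega))
  have hFle : ∀ i ∈ Icc i₀ i₁, ∀ l ∈ range (g + 1), ((F (gq g i l)).card : ℝ) ≤
      K₁ * (Real.log (gq g i l : ℕ)) ^ (1 + κ') + K₂ * ((gq g i l : ℕ) : ℝ) ^ (-c₁) := by
    intro i hi l hl
    rw [mem_Icc] at hi
    rw [mem_range] at hl
    have g1 : 2 ^ i ≤ gq g i l := gq_ge _ _ _
    have g2 : gq g i l ≤ 2 ^ (i + 1) := gq_le hg (by omega)
    have g3 : 2 ^ i₀ ≤ 2 ^ i := Nat.pow_le_pow_right (by norm_num) hi.1
    have hXi : 2 ^ i ≤ X := Nat.pow_le_of_le_log hXpos hi.2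
    refine hper (gq g i l) ?_ ?_
    · rw [pow_succ] at hX₀lt
      omega
    · rw [pow_succ] at g2
      omega
  have hcount := union_count g _ F c₁ K₁ K₂ hc₁ hK₁ hK₂
    (1 + κ') (by positivity) i₀ i₁ hi₀3 hg hsub1 hFle
  refine hcount.trans ?_
  -- simplify
  have hi₁l : (i₁ : ℝ) + 1 ≤ 3 * Real.log X := by
    have h1 : 2 ^ i₁ ≤ X := Nat.pow_log_le_self 2 hXpos
    have h2 : Real.log ((2 : ℝ) ^ i₁) ≤ Real.log X :=
      Real.log_le_log (by positivity) (by exact_mod_cast h1)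
    rw [Real.log_pow] at h2
    have h3 := Real.log_two_gt_d9
    have h4 : (0 : ℝ) ≤ i₁ := Nat.cast_nonneg _
    nlinarith only [hlX1, h2, h3]
  have hP1 : (g + 1) * (K₁ * ((i₁ : ℝ) + 1) ^ (1 + κ' + 1)) ≤
      K₁ * (Real.log X) ^ (2 + κ) := by
    have h1 : ((i₁ : ℝ) + 1) ^ (1 + κ' + 1) ≤ (3 : ℝ) ^ (2 + κ') * (Real.log X) ^ (2 + κ') := by
      have e1 : (1 : ℝ) + κ' + 1 = 2 + κ' := by ring
      rw [e1, ← Real.mul_rpow (by norm_num) (by linarith only [hr0, hr1, hlX1])]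
      exact Real.rpow_le_rpow (by (clear * -; positivity)) hi₁l (by positivity)
    have h2 : (g + 1) * (3 : ℝ) ^ (2 + κ') ≤ (Real.log X) ^ κ' := ht₂ _ hlXt
    have h4 : (Real.log X) ^ (2 + κ) = (Real.log X) ^ κ' * (Real.log X) ^ (2 + κ') := by
      rw [← Real.rpow_add (by linarith only [hr0, hr1, hlX1])]
      congr 1
      rw [hκ'def]; ring
    have h5 : 0 ≤ (Real.log X) ^ (2 + κ') := by (clear * - hlX1; positivity)
    calc (g + 1) * (K₁ * ((i₁ : ℝ) + 1) ^ (1 + κ' + 1))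
        ≤ (g + 1) * (K₁ * ((3 : ℝ) ^ (2 + κ') * (Real.log X) ^ (2 + κ'))) := by
          refine mul_le_mul_of_nonneg_left ?_ (by (clear * - hg; positivity))
          exact mul_le_mul_of_nonneg_left h1 hK₁
      _ = K₁ * (((g + 1) * (3 : ℝ) ^ (2 + κ')) * (Real.log X) ^ (2 + κ')) := by
          ring
      _ ≤ K₁ * ((Real.log X) ^ κ' * (Real.log X) ^ (2 + κ')) := by
          refine mul_le_mul_of_nonneg_left ?_ hK₁
          exact mul_le_mul_of_nonneg_right h2 h5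
      _ = _ := by rw [h4]
  have hP2 : (g + 1) * (K₂ * ((2 : ℝ) ^ i₀) ^ (-c₁) / (1 - (2 : ℝ) ^ (-c₁))) ≤
      K₂ * (X₀ : ℝ) ^ (-(c₁ / 2)) := by
    have h1 : ((2 : ℝ) ^ i₀) ^ (-c₁) ≤ (2 : ℝ) ^ c₁ * (X₀ : ℝ) ^ (-c₁) := by
      have h2 : (X₀ : ℝ) / 2 ≤ (2 : ℝ) ^ i₀ := by
        have : (X₀ : ℝ) < 2 ^ (i₀ + 1) := by exact_mod_cast hX₀lt
        rw [pow_succ] at this
        linarith only [this]
      calc ((2 : ℝ) ^ i₀) ^ (-c₁) ≤ ((X₀ : ℝ) / 2) ^ (-c₁) :=
            Real.rpow_le_rpow_of_nonpos (by positivity) h2 (by linarith only [hc₁])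
        _ = _ := by
            rw [Real.div_rpow hX₀r.le (by norm_num), Real.rpow_neg (by norm_num : (0 : ℝ) ≤ 2)]
            field_simp
    have h2 : (g + 1) * ((2 : ℝ) ^ c₁ / (1 - r)) ≤ (X₀ : ℝ) ^ (c₁ / 2) := ht₁ _ k5
    have h3 : (X₀ : ℝ) ^ (-(c₁ / 2)) = (X₀ : ℝ) ^ (c₁ / 2) * (X₀ : ℝ) ^ (-c₁) := by
      rw [← Real.rpow_add hX₀r]
      congr 1
      ring
    have h1r : 0 < 1 - r := by linarith only [hr1]
    rw [← hr]
    calc (g + 1) * (K₂ * ((2 : ℝ) ^ i₀) ^ (-c₁) / (1 - r))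
        ≤ (g + 1) * (K₂ * ((2 : ℝ) ^ c₁ * (X₀ : ℝ) ^ (-c₁)) / (1 - r)) := by
          refine mul_le_mul_of_nonneg_left ?_ (by positivity)
          refine div_le_div_of_nonneg_right ?_ h1r.le
          exact mul_le_mul_of_nonneg_left h1 hK₂
      _ = K₂ * (((g + 1) * ((2 : ℝ) ^ c₁ / (1 - r))) * (X₀ : ℝ) ^ (-c₁)) := by ring
      _ ≤ K₂ * ((X₀ : ℝ) ^ (c₁ / 2) * (X₀ : ℝ) ^ (-c₁)) := by
          refine mul_le_mul_of_nonneg_left ?_ hK₂
          exact mul_le_mul_of_nonneg_right h2 (by (clear * - hX₀pos; positivity))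
      _ = _ := by rw [h3]
  rw [mul_add]
  exact add_le_add hP1 hP2

open Classical in
/-- Exceptional primes, uniformly in `x ∈ [X₀, X]`, with a multiplier. -/
theorem unif_m (κ δ : ℝ) (hκ : 0 < κ) (hδ : 0 < δ) : ∃ c : ℝ, 0 < c ∧ ∃ x₀ : ℕ,
    ∀ X₀ X : ℕ, x₀ ≤ X₀ → X₀ ≤ X → ∀ m : ℤ, m ≠ 0 →
      (m.natAbs.primeFactors.card : ℝ) ≤ Real.sqrt (X₀ / 2) → ∀ Y : ℕ,
      (((Finset.range (Y + 1)).filter (fun q : ℕ => q.Prime ∧ ∃ x : ℕ, X₀ ≤ x ∧ x ≤ X ∧
        δ * (x / Real.log x) <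
          |(artinCount (m * q) x : ℝ) - artinConst * (x / Real.log x)|)).card : ℝ) ≤
      (Y : ℝ) ^ (1 / 2 + κ) * (Real.log X) ^ (2 + κ) + Y * (X₀ : ℝ) ^ (-c) := by
  obtain ⟨c₁, hc₁, x₁, hx₁⟩ := primeBases (κ / 2) (dl δ) 0 (by positivity) (dl_pos hδ) le_rfl
  obtain ⟨x₂, hx₂⟩ := unif_core κ δ c₁ hκ hδ hc₁
  obtain ⟨x₃, hx₃⟩ := ev_log_ge 1
  refine ⟨c₁ / 2, by positivity, max (max (2 * x₁) x₂) x₃, fun X₀ X hX₀ hX m hm hmω Y => ?_⟩
  have k1 : 2 * x₁ ≤ X₀ := ((le_max_left _ _).trans (le_max_left _ _)).trans hX₀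
  have k2 : x₂ ≤ X₀ := ((le_max_right _ _).trans (le_max_left _ _)).trans hX₀
  have hlX := hx₃ X (((le_max_right _ _).trans hX₀).trans hX)
  have hY : (Y : ℝ) ^ (1 / 2 + κ / 2) ≤ (Y : ℝ) ^ (1 / 2 + κ) := by
    rcases Nat.eq_zero_or_pos Y with h | h
    · subst h
      rw [Nat.cast_zero, Real.zero_rpow (by positivity), Real.zero_rpow (by positivity)]
    · exact Real.rpow_le_rpow_of_exponent_le (by exact_mod_cast h) (by linarith only [hκ])
  have h := hx₂ ((Finset.range (Y + 1)).filter (fun q : ℕ => q.Prime))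
    (fun q x => (artinCount (m * q) x : ℝ)) (fun q => artinCount_mono _)
    ((Y : ℝ) ^ (1 / 2 + κ / 2)) Y (by (clear * -; positivity)) (Nat.cast_nonneg Y) X₀ X k2 hX
    (fun x hx1 _ => by
      have h5 : (X₀ : ℝ) / 2 ≤ (x : ℝ) := by
        have : (X₀ : ℝ) ≤ 2 * (x : ℝ) := by exact_mod_cast hx1
        linarith only [this]
      have h6 := hx₁ x (by omega) m hm (hmω.trans (Real.sqrt_le_sqrt h5)) Y
      have e1 : (1 : ℝ) + 2 * 0 + κ / 2 = 1 + κ / 2 := by ring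
      rw [e1] at h6
      refine le_trans (le_of_eq ?_) h6
      congr 2
      ext q
      rw [mem_filter, mem_filter, mem_filter, Real.rpow_zero, div_one]
      (clear * -; tauto))
  refine le_trans (le_of_eq ?_) (h.trans ?_)
  · congr 2
    ext q
    rw [mem_filter, mem_filter, mem_filter]
    (clear * -; tauto)
  · exact add_le_add (mul_le_mul_of_nonneg_right hY (by positivity)) le_rfl

end Vale.Agent.P016
end
end

section

section

namespace Vale.Agent.P016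

open Finset

lemma SS_mono (y : ℕ) {v w : ℝ} (h : v ≤ w) : SS y w ⊆ SS y v := by
  intro a ha
  rw [mem_SS] at ha ⊢
  obtain ⟨h1, h2, q, hq, hqa, hwq⟩ := ha
  exact ⟨h1, h2, q, hq, hqa, h.trans hwq⟩

open Classical in
/-- Uniform exceptional-set bound. -/
theorem uniform_quant (D : ℕ) : ∃ C x₀ : ℕ, ∀ X₀ X y : ℕ, x₀ ≤ X₀ → X₀ ≤ X →
    (((SS y ((Real.log X) ^ C)).filter (fun a : ℤ => ∃ x : ℕ, X₀ ≤ x ∧ x ≤ X ∧
      artinMain x / (Real.log x) ^ D < |(artinCount a x : ℝ) - artinMain x|)).card : ℝ) ≤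
      (y : ℝ) / (Real.log X₀) ^ D := by
  obtain ⟨C, x₁, hC⟩ := per_x (2 * D + 7)
  obtain ⟨x₂, hx₂⟩ := artin_grid D
  obtain ⟨x₃, hx₃⟩ := ev_log_ge 2
  refine ⟨2 * C, max (max (2 * x₁) x₂) (max x₃ 2), fun X₀ X y hX₀ hX => ?_⟩
  have h1 : 2 * x₁ ≤ X₀ := (le_max_left _ _).trans ((le_max_left _ _).trans hX₀)
  have h2 : x₂ ≤ X₀ := (le_max_right _ _).trans ((le_max_left _ _).trans hX₀)
  have h3 : x₃ ≤ X := (le_max_left _ _).trans ((le_max_right _ _).trans (hX₀.trans hX))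
  have h4 : 2 ≤ X₀ := (le_max_right _ _).trans ((le_max_right _ _).trans hX₀)
  have hl := hx₃ X h3
  refine hx₂ (SS y ((Real.log X) ^ (2 * C))) y X₀ X (Nat.cast_nonneg y) h2 fun x hx1 hx2 => ?_
  refine le_trans ?_ (hC x (by omega) y)
  have hxpos : 0 < x := by omega
  have hXr : (0 : ℝ) < X := by exact_mod_cast (by omega : 0 < X)
  have hxr : (0 : ℝ) < x := by exact_mod_cast hxpos
  have hlx : Real.log x ≤ (Real.log X) ^ 2 := by
    have e1 : Real.log x ≤ Real.log (2 * X) := Real.log_le_log hxr (by exact_mod_cast hx2)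
    rw [Real.log_mul (by norm_num) hXr.ne'] at e1
    have e2 := Real.log_two_lt_d9
    nlinarith only [hl, e1, e2]
  have hlx0 : 0 ≤ Real.log x := Real.log_natCast_nonneg x
  have hle : (Real.log x) ^ C ≤ (Real.log X) ^ (2 * C) := by
    rw [pow_mul]
    exact pow_le_pow_left₀ hlx0 hlx C
  have : (SS y ((Real.log X) ^ (2 * C))).filter (fun a : ℤ =>
      artinMain x / (Real.log x) ^ (2 * D + 7) < |(artinCount a x : ℝ) - artinMain x|) ⊆
      (SS y ((Real.log x) ^ C)).filter (fun a : ℤ =>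
      artinMain x / (Real.log x) ^ (2 * D + 7) < |(artinCount a x : ℝ) - artinMain x|) :=
    Finset.filter_subset_filter _ (SS_mono y hle)
  exact_mod_cast Finset.card_le_card this

/-- integers with `|a| ≤ y` outside `SS y w` -/
lemma card_compl_SS_le (y z : ℕ) (w : ℝ) (hw : w ≤ z) (S : Finset ℕ)
    (hS : ∀ a : ℕ, 1 ≤ a → a ≤ y → (∀ q : ℕ, q.Prime → q ∣ a → q ≤ z) → a ∈ S) :
    (((Finset.Icc (-(y : ℤ)) (y : ℤ)) \ SS y w).card : ℝ) ≤ 1 + (S.card + S.card) := by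
  classical
  have hsub : (Finset.Icc (-(y : ℤ)) (y : ℤ)) \ SS y w ⊆
      ({0} : Finset ℤ) ∪ (S.image (fun n : ℕ => (n : ℤ)) ∪ S.image (fun n : ℕ => -(n : ℤ))) := by
    intro a ha
    rw [mem_sdiff, mem_Icc, mem_SS] at ha
    obtain ⟨⟨ha1, ha2⟩, hn⟩ := ha
    by_cases ha0 : a = 0
    · subst ha0; simp only [singleton_union, mem_insert, mem_union, mem_image, Int.natCast_eq_zero, exists_eq_right, neg_eq_zero, or_self, true_or]
    · have hmem : a.natAbs ∈ S := by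
        refine hS _ (by omega) (by omega) fun q hq hqa => ?_
        by_contra hc
        push Not at hc
        apply hn
        refine ⟨⟨ha1, ha2⟩, ha0, q, hq, Int.natCast_dvd.2 hqa, hw.trans ?_⟩
        exact_mod_cast hc.le
      rw [mem_union, mem_union, mem_image, mem_image]
      right
      rcases Int.natAbs_eq a with h | h
      · left; exact ⟨a.natAbs, hmem, h.symm⟩
      · right; exact ⟨a.natAbs, hmem, h.symm⟩
  have h3 : (({0} : Finset ℤ) ∪ (S.image (fun n : ℕ => (n : ℤ)) ∪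
      S.image (fun n : ℕ => -(n : ℤ)))).card ≤ 1 + (S.card + S.card) := by
    refine (Finset.card_union_le _ _).trans (add_le_add (by simp) ?_)
    exact (Finset.card_union_le _ _).trans (add_le_add Finset.card_image_le Finset.card_image_le)
  exact_mod_cast (Finset.card_le_card hsub).trans h3

open Classical in
/-- For almost all integers `a` the expected asymptotic holds for all `x` in a long range. -/
theorem uniform_almost (D : ℕ) (δ : ℝ) (hδ : 0 < δ) : ∃ K X₀ : ℕ, ∀ y : ℕ,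
    (((Finset.Icc (-(y : ℤ)) (y : ℤ)).filter (fun a : ℤ => ∃ x : ℕ, X₀ ≤ x ∧
      (Real.log x) ^ K ≤ y ∧
      artinMain x / (Real.log x) ^ D < |(artinCount a x : ℝ) - artinMain x|)).card : ℝ) ≤
      δ * y := by
  obtain ⟨C, x₁, hC⟩ := uniform_quant (D + 1)
  obtain ⟨H, y₀, hH⟩ := smooth_count (δ / 8) (by positivity)
  obtain ⟨x₂, hx₂⟩ := ev_log_ge (max (max 4 (4 / δ)) y₀)
  refine ⟨(C + 1) * H + 1, max x₁ x₂, fun y => ?_⟩
  set K := (C + 1) * H + 1 with hK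
  set X₀ := max x₁ x₂ with hX₀
  -- facts on logs
  have hlog : ∀ x : ℕ, X₀ ≤ x → 4 ≤ Real.log x ∧ 4 / δ ≤ Real.log x ∧ (y₀ : ℝ) ≤ Real.log x := by
    intro x hx
    have hl := hx₂ x ((le_max_right _ _).trans hx)
    exact ⟨(le_max_left _ _).trans ((le_max_left _ _).trans hl),
      (le_max_right _ _).trans ((le_max_left _ _).trans hl), (le_max_right _ _).trans hl⟩
  by_cases hne : ∃ x : ℕ, X₀ ≤ x ∧ (Real.log x) ^ K ≤ y
  swap
  · have : (Finset.Icc (-(y : ℤ)) (y : ℤ)).filter (fun a : ℤ => ∃ x : ℕ, X₀ ≤ x ∧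
      (Real.log x) ^ K ≤ y ∧
      artinMain x / (Real.log x) ^ D < |(artinCount a x : ℝ) - artinMain x|) = ∅ := by
      rw [Finset.eq_empty_iff_forall_notMem]
      intro a ha
      rw [mem_filter] at ha
      obtain ⟨-, x, hx1, hx2, -⟩ := ha
      exact hne ⟨x, hx1, hx2⟩
    rw [this]
    simp only [card_empty, CharP.cast_eq_zero, ge_iff_le]
    (clear * - hδ; positivity)
  -- the largest admissible x
  have hbound : ∀ x : ℕ, X₀ ≤ x → (Real.log x) ^ K ≤ y → x ≤ ⌈Real.exp y⌉₊ := by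
    intro x hx1 hx2
    obtain ⟨hl4, -, -⟩ := hlog x hx1
    have hl1 : 1 ≤ Real.log x := by linarith only [hl4]
    have h1 : Real.log x ≤ y := (le_self_pow₀ hl1 (by omega)).trans hx2
    have hx0 : (0 : ℝ) < x := by
      rcases Nat.eq_zero_or_pos x with h | h
      · subst h; simp only [CharP.cast_eq_zero, Real.log_zero] at hl4; linarith only [hl4]
      · exact_mod_cast h
    have h2 : (x : ℝ) ≤ Real.exp y := by
      rw [← Real.exp_log hx0]
      exact Real.exp_le_exp.2 h1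
    exact_mod_cast h2.trans (Nat.le_ceil _)
  obtain ⟨X, ⟨hX1, hX2⟩, hXmax⟩ : ∃ X : ℕ, (X₀ ≤ X ∧ (Real.log X) ^ K ≤ y) ∧
      ∀ x : ℕ, X₀ ≤ x → (Real.log x) ^ K ≤ y → x ≤ X := by
    obtain ⟨w, hw1, hw2⟩ := hne
    refine ⟨Nat.findGreatest (fun x => X₀ ≤ x ∧ (Real.log x) ^ K ≤ y) ⌈Real.exp y⌉₊, ?_, ?_⟩
    · exact Nat.findGreatest_spec (P := fun x => X₀ ≤ x ∧ (Real.log x) ^ K ≤ y)
        (hbound w hw1 hw2) ⟨hw1, hw2⟩
    · intro x hx1 hx2
      exact Nat.le_findGreatest (hbound x hx1 hx2) ⟨hx1, hx2⟩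
  obtain ⟨hl4, hlδ, hly⟩ := hlog X hX1
  obtain ⟨hm4, hmδ, -⟩ := hlog X₀ le_rfl
  have hUC := hC X₀ X y (le_max_left _ _) hX1
  set l := Real.log X with hldef
  have hl0 : 0 < l := by linarith only [hl4]
  have hl1 : 1 ≤ l := by linarith only [hl4]
  have hyl : l ≤ y := (le_self_pow₀ hl1 (by omega)).trans hX2
  set z := ⌈l ^ C⌉₊ with hz
  have hz1 : (z : ℝ) ≤ l ^ (C + 1) := by
    have h1 : (z : ℝ) < l ^ C + 1 := Nat.ceil_lt_add_one (by positivity)
    have h2 : (1 : ℝ) ≤ l ^ C := one_le_pow₀ hl1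
    rw [pow_succ]
    nlinarith only [h1, h2, hl4]
  have hzH : (max z 2) ^ H ≤ y := by
    have h1 : ((max z 2 : ℕ) : ℝ) ≤ l ^ (C + 1) := by
      rw [Nat.cast_max]
      refine max_le hz1 ?_
      have : l ≤ l ^ (C + 1) := le_self_pow₀ hl1 (by omega)
      push_cast
      linarith only [hl4, this]
    have h2 : (((max z 2) ^ H : ℕ) : ℝ) ≤ y := by
      push_cast
      push_cast at h1
      calc (max (z : ℝ) 2) ^ H ≤ (l ^ (C + 1)) ^ H := pow_le_pow_left₀ (by (clear * - hl4; positivity)) h1 H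
        _ = l ^ ((C + 1) * H) := by rw [pow_mul]
        _ ≤ l ^ ((C + 1) * H + 1) := pow_le_pow_right₀ hl1 (by omega)
        _ ≤ y := hX2
    exact_mod_cast h2
  have hsm := hH (max z 2) y (le_max_right _ _) (by exact_mod_cast hly.trans hyl) hzH
  set S := (Finset.Icc 1 y).filter (fun a => ∀ q : ℕ, q.Prime → q ∣ a → q ≤ max z 2) with hS
  have hcompl := card_compl_SS_le y (max z 2) (l ^ C)
    ((Nat.le_ceil _).trans (by exact_mod_cast le_max_left _ _)) S
    (fun a h1 h2 h3 => by rw [hS, mem_filter, mem_Icc]; exact ⟨⟨h1, h2⟩, h3⟩)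
  set T := (SS y (l ^ C)).filter (fun a : ℤ => ∃ x : ℕ, X₀ ≤ x ∧ x ≤ X ∧
      artinMain x / (Real.log x) ^ (D + 1) < |(artinCount a x : ℝ) - artinMain x|) with hT
  have hsub : (Finset.Icc (-(y : ℤ)) (y : ℤ)).filter (fun a : ℤ => ∃ x : ℕ, X₀ ≤ x ∧
      (Real.log x) ^ K ≤ y ∧
      artinMain x / (Real.log x) ^ D < |(artinCount a x : ℝ) - artinMain x|) ⊆
      ((Finset.Icc (-(y : ℤ)) (y : ℤ)) \ SS y (l ^ C)) ∪ T := by
    intro a ha
    rw [mem_filter] at ha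
    obtain ⟨ha1, x, hx1, hx2, hx3⟩ := ha
    by_cases hmem : a ∈ SS y (l ^ C)
    · rw [mem_union]; right
      rw [hT, mem_filter]
      refine ⟨hmem, x, hx1, hXmax x hx1 hx2, lt_of_le_of_lt ?_ hx3⟩
      obtain ⟨hlx4, -, -⟩ := hlog x hx1
      have hlx0 : 0 < Real.log x := by linarith only [hlx4]
      refine div_le_div_of_nonneg_left (artinMain_nonneg x) (by (clear * - hlx4; positivity)) ?_
      exact pow_le_pow_right₀ (by linarith only [hlx4]) (by omega)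
    · rw [mem_union]; left
      exact mem_sdiff.2 ⟨ha1, hmem⟩
  have hcard : (((Finset.Icc (-(y : ℤ)) (y : ℤ)).filter (fun a : ℤ => ∃ x : ℕ, X₀ ≤ x ∧
      (Real.log x) ^ K ≤ y ∧
      artinMain x / (Real.log x) ^ D < |(artinCount a x : ℝ) - artinMain x|)).card : ℝ) ≤
      (1 + (S.card + S.card)) + T.card := by
    have h1 := (Finset.card_le_card hsub).trans (Finset.card_union_le _ _)
    have h2 : (((Finset.Icc (-(y : ℤ)) (y : ℤ)).filter (fun a : ℤ => ∃ x : ℕ, X₀ ≤ x ∧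
      (Real.log x) ^ K ≤ y ∧
      artinMain x / (Real.log x) ^ D < |(artinCount a x : ℝ) - artinMain x|)).card : ℝ) ≤
      (((Finset.Icc (-(y : ℤ)) (y : ℤ)) \ SS y (l ^ C)).card : ℝ) + T.card := by
      exact_mod_cast h1
    linarith only [hcompl, h2]
  refine hcard.trans ?_
  have h1 : (1 : ℝ) ≤ δ / 4 * y := by
    rw [div_le_iff₀ hδ] at hlδ
    nlinarith only [hlδ, hδ, hyl]
  have hy0 : (0 : ℝ) ≤ y := Nat.cast_nonneg _
  have h2 : (y : ℝ) / (Real.log X₀) ^ (D + 1) ≤ δ / 4 * y := by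
    have e1 : (4 : ℝ) / δ ≤ (Real.log X₀) ^ (D + 1) :=
      hmδ.trans (le_self_pow₀ (by linarith only [hm4]) (by omega))
    have e0 : 0 < Real.log X₀ := by linarith only [hm4]
    rw [div_le_iff₀ (by positivity)]
    rw [div_le_iff₀ hδ] at e1
    nlinarith only [e1]
  have h3 : (S.card : ℝ) ≤ δ / 8 * y := hsm
  linarith only [hsm, hUC, h1, h2]

end Vale.Agent.P016
end
end

section

section

namespace Vale.Agent.P016

open Finset Filter Topology

open Classical in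
/-- **Prime bases, uniformly in `x`.** -/
theorem unif_primes (κ δ : ℝ) (hκ : 0 < κ) (hδ : 0 < δ) : ∃ c : ℝ, 0 < c ∧ ∃ x₀ : ℕ,
    ∀ X₀ : ℕ, x₀ ≤ X₀ → ∀ Y : ℕ,
      (((Finset.range (Y + 1)).filter (fun q : ℕ => q.Prime ∧ ∃ x : ℕ, X₀ ≤ x ∧
        (Real.log x) ^ (4 + κ) ≤ Y ∧ δ * (x / Real.log x) <
          |(artinCount q x : ℝ) - artinConst * (x / Real.log x)|)).card : ℝ) ≤
      (Y : ℝ) ^ (1 - c) + Y * (X₀ : ℝ) ^ (-c) := by
  set κ₀ := κ / (8 * (4 + κ)) with hκ₀def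
  have hκ₀ : 0 < κ₀ := by positivity
  obtain ⟨c₁, hc₁, x₁, hx₁⟩ := unif_m κ₀ δ hκ₀ hδ
  obtain ⟨x₂, hx₂⟩ := ev_log_ge 1
  refine ⟨min κ₀ c₁, lt_min hκ₀ hc₁, max (max x₁ x₂) 2, fun X₀ hX₀ Y => ?_⟩
  have k1 : x₁ ≤ X₀ := ((le_max_left _ _).trans (le_max_left _ _)).trans hX₀
  have k2 : x₂ ≤ X₀ := ((le_max_right _ _).trans (le_max_left _ _)).trans hX₀
  have k3 : 2 ≤ X₀ := (le_max_right _ _).trans hX₀
  have hX₀1 : (1 : ℝ) ≤ X₀ := by exact_mod_cast (by omega : 1 ≤ X₀)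
  by_cases hne : ∃ x : ℕ, X₀ ≤ x ∧ (Real.log x) ^ (4 + κ) ≤ (Y : ℝ)
  swap
  · have : (Finset.range (Y + 1)).filter (fun q : ℕ => q.Prime ∧ ∃ x : ℕ, X₀ ≤ x ∧
        (Real.log x) ^ (4 + κ) ≤ Y ∧ δ * (x / Real.log x) <
          |(artinCount q x : ℝ) - artinConst * (x / Real.log x)|) = ∅ := by
      rw [Finset.eq_empty_iff_forall_notMem]
      intro q hq
      rw [mem_filter] at hq
      obtain ⟨-, -, x, hx1, hx2, -⟩ := hq
      exact hne ⟨x, hx1, hx2⟩
    rw [this]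
    simp only [card_empty, Nat.cast_zero]
    (clear * - k3; positivity)
  obtain ⟨X, ⟨hX1, hX2⟩, hXmax⟩ := exists_max_x (4 + κ) (by linarith only [hκ]) X₀ Y
    (fun x hx => hx₂ x (k2.trans hx)) hne
  have hlX := hx₂ X (k2.trans hX1)
  have hYl : (1 : ℝ) ≤ Y := by
    refine le_trans ?_ hX2
    exact Real.one_le_rpow hlX (by linarith only [hκ])
  have h := hx₁ X₀ X k1 hX1 1 one_ne_zero (by
    simp only [Int.natAbs_one, Nat.primeFactors_one, card_empty, Nat.cast_zero]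
    exact Real.sqrt_nonneg _) Y
  have hsub : (Finset.range (Y + 1)).filter (fun q : ℕ => q.Prime ∧ ∃ x : ℕ, X₀ ≤ x ∧
        (Real.log x) ^ (4 + κ) ≤ Y ∧ δ * (x / Real.log x) <
          |(artinCount q x : ℝ) - artinConst * (x / Real.log x)|) ⊆
      (Finset.range (Y + 1)).filter (fun q : ℕ => q.Prime ∧ ∃ x : ℕ, X₀ ≤ x ∧ x ≤ X ∧
        δ * (x / Real.log x) <
          |(artinCount (1 * q) x : ℝ) - artinConst * (x / Real.log x)|) := by
    intro q hq
    rw [mem_filter] at hq ⊢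
    obtain ⟨h1, h2, x, hx1, hx2, hx3⟩ := hq
    refine ⟨h1, h2, x, hx1, hXmax x hx1 hx2, ?_⟩
    rw [one_mul]
    exact hx3
  have hcard : (((Finset.range (Y + 1)).filter (fun q : ℕ => q.Prime ∧ ∃ x : ℕ, X₀ ≤ x ∧
        (Real.log x) ^ (4 + κ) ≤ Y ∧ δ * (x / Real.log x) <
          |(artinCount q x : ℝ) - artinConst * (x / Real.log x)|)).card : ℝ) ≤
      (Y : ℝ) ^ (1 / 2 + κ₀) * (Real.log X) ^ (2 + κ₀) + Y * (X₀ : ℝ) ^ (-c₁) := by
    refine le_trans ?_ h
    exact_mod_cast Finset.card_le_card hsub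
  refine hcard.trans (add_le_add ?_ ?_)
  · have h1 : (Real.log X) ^ (2 + κ₀) ≤ (Y : ℝ) ^ ((2 + κ₀) / (4 + κ)) := by
      have e1 : (Real.log X) ^ (2 + κ₀) = ((Real.log X) ^ (4 + κ)) ^ ((2 + κ₀) / (4 + κ)) := by
        rw [← Real.rpow_mul (by linarith only [hlX])]
        congr 1
        field_simp
      rw [e1]
      exact Real.rpow_le_rpow (by positivity) hX2 (by positivity)
    calc (Y : ℝ) ^ (1 / 2 + κ₀) * (Real.log X) ^ (2 + κ₀)
        ≤ (Y : ℝ) ^ (1 / 2 + κ₀) * (Y : ℝ) ^ ((2 + κ₀) / (4 + κ)) :=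
          mul_le_mul_of_nonneg_left h1 (by (clear * - hYl; positivity))
      _ = (Y : ℝ) ^ (1 / 2 + κ₀ + (2 + κ₀) / (4 + κ)) := by
          rw [← Real.rpow_add (by linarith only [hYl])]
      _ ≤ (Y : ℝ) ^ (1 - min κ₀ c₁) := by
          refine Real.rpow_le_rpow_of_exponent_le hYl ?_
          have e2 : (2 + κ₀) / (4 + κ) = 1 / 2 - 4 * κ₀ + κ₀ / (4 + κ) := by
            rw [hκ₀def]
            field_simp
            ring
          have e3 : κ₀ / (4 + κ) ≤ κ₀ / 4 :=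
            div_le_div_of_nonneg_left hκ₀.le (by norm_num) (by linarith only [hκ])
          have e4 := min_le_left κ₀ c₁
          rw [e2]
          linarith only [hκ₀, e3, e4]
  · refine mul_le_mul_of_nonneg_left ?_ (by linarith only [hYl])
    exact Real.rpow_le_rpow_of_exponent_le hX₀1 (neg_le_neg (min_le_right _ _))

open Classical in
/-- **Integers with a large prime factor, uniformly in `x`.** -/
theorem unif_int (κ δ : ℝ) (hκ : 0 < κ) (hδ : 0 < δ) : ∃ c : ℝ, 0 < c ∧ ∃ x₀ : ℕ,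
    ∀ X₀ X : ℕ, x₀ ≤ X₀ → X₀ ≤ X → ∀ z : ℝ, 1 ≤ z → ∀ y : ℕ,
      (((Finset.Icc (-(y : ℤ)) (y : ℤ)).filter (fun a : ℤ => a ≠ 0 ∧
        (∃ q : ℕ, q.Prime ∧ (q : ℤ) ∣ a ∧ z < q) ∧ ∃ x : ℕ, X₀ ≤ x ∧ x ≤ X ∧
        δ * (x / Real.log x) <
          |(artinCount a x : ℝ) - artinConst * (x / Real.log x)|)).card : ℝ) ≤
      y * (z ^ (-(1 / 2) + κ) * (Real.log X) ^ (2 + κ) + (X₀ : ℝ) ^ (-c)) := by
  obtain ⟨c₁, hc₁, x₁, hx₁⟩ := intBases (κ / 2) (dl δ) 0 (by positivity) (dl_pos hδ) le_rfl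
  obtain ⟨x₂, hx₂⟩ := unif_core κ δ c₁ hκ hδ hc₁
  obtain ⟨x₃, hx₃⟩ := ev_log_ge 1
  refine ⟨c₁ / 2, by positivity, max (max (2 * x₁) x₂) x₃, fun X₀ X hX₀ hX z hz y => ?_⟩
  have k1 : 2 * x₁ ≤ X₀ := ((le_max_left _ _).trans (le_max_left _ _)).trans hX₀
  have k2 : x₂ ≤ X₀ := ((le_max_right _ _).trans (le_max_left _ _)).trans hX₀
  have hlX := hx₃ X (((le_max_right _ _).trans hX₀).trans hX)
  have hz0 : 0 ≤ z := by linarith only [hz]
  have h := hx₂ ((Finset.Icc (-(y : ℤ)) (y : ℤ)).filter (fun a : ℤ => a ≠ 0 ∧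
        (∃ q : ℕ, q.Prime ∧ (q : ℤ) ∣ a ∧ z < q)))
    (fun a x => (artinCount a x : ℝ)) (fun a => artinCount_mono _)
    (y * z ^ (-(1 / 2) + κ / 2)) y (by (clear * - hz; positivity)) (Nat.cast_nonneg y) X₀ X k2 hX
    (fun x hx1 _ => by
      have h6 := hx₁ x (by omega) z hz y
      have e1 : (1 : ℝ) + 2 * 0 + κ / 2 = 1 + κ / 2 := by ring
      rw [e1, mul_add, ← mul_assoc] at h6
      refine le_trans (le_of_eq ?_) h6
      congr 2
      unfold BadA
      ext a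
      rw [mem_filter, mem_filter, mem_filter, Real.rpow_zero, div_one]
      (clear * -; tauto))
  refine le_trans (le_of_eq ?_) (h.trans ?_)
  · congr 2
    ext q
    rw [mem_filter, mem_filter, mem_filter]
    (clear * -; tauto)
  · rw [mul_add, ← mul_assoc]
    refine add_le_add (mul_le_mul_of_nonneg_right ?_ (by positivity)) le_rfl
    refine mul_le_mul_of_nonneg_left ?_ (Nat.cast_nonneg y)
    exact Real.rpow_le_rpow_of_exponent_le hz (by linarith only [hκ])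

open Classical in
/-- **Almost all integers**: the predicted asymptotic for all `x` in a long range. -/
theorem unif_almost_const (δ : ℝ) (hδ : 0 < δ) : ∃ K X₀ : ℕ, ∀ y : ℕ,
    (((Finset.Icc (-(y : ℤ)) (y : ℤ)).filter (fun a : ℤ => ∃ x : ℕ, X₀ ≤ x ∧
      (Real.log x) ^ K ≤ y ∧ δ * (x / Real.log x) <
        |(artinCount a x : ℝ) - artinConst * (x / Real.log x)|)).card : ℝ) ≤ δ * y := by
  have hA := artinConst_pos
  obtain ⟨K, x₁, hx₁⟩ := uniform_almost 1 δ hδ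
  obtain ⟨x₂, hx₂⟩ := artinMain_approx (min (δ / 2) 1) (by positivity)
  obtain ⟨x₃, hx₃⟩ := ev_log_ge (max 1 (2 * (artinConst + 1) / δ))
  -- enlarge X₀
  refine ⟨K, max x₁ (max x₂ (max x₃ 3)), fun y => ?_⟩
  refine le_trans ?_ (hx₁ y)
  have hsub : (Finset.Icc (-(y : ℤ)) (y : ℤ)).filter (fun a : ℤ => ∃ x : ℕ,
      max x₁ (max x₂ (max x₃ 3)) ≤ x ∧
      (Real.log x) ^ K ≤ y ∧ δ * (x / Real.log x) <
        |(artinCount a x : ℝ) - artinConst * (x / Real.log x)|) ⊆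
      (Finset.Icc (-(y : ℤ)) (y : ℤ)).filter (fun a : ℤ => ∃ x : ℕ, x₁ ≤ x ∧
      (Real.log x) ^ K ≤ y ∧
      artinMain x / (Real.log x) ^ 1 < |(artinCount a x : ℝ) - artinMain x|) := by
    intro a ha
    rw [mem_filter] at ha ⊢
    obtain ⟨h1, x, hx1, hx2, hx3⟩ := ha
    refine ⟨h1, x, (le_max_left _ _).trans hx1, hx2, ?_⟩
    have e2 : x₂ ≤ x := ((le_max_left _ _).trans (le_max_right _ _)).trans hx1
    have e3 : x₃ ≤ x := ((le_max_left _ _).trans ((le_max_right _ _).trans (le_max_right _ _))).trans hx1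
    have e4 : 3 ≤ x := ((le_max_right _ _).trans ((le_max_right _ _).trans (le_max_right _ _))).trans hx1
    have a1 := hx₂ x e2
    have hl := hx₃ x e3
    have hl1 : 1 ≤ Real.log x := (le_max_left _ _).trans hl
    have hl2 : 2 * (artinConst + 1) / δ ≤ Real.log x := (le_max_right _ _).trans hl
    have hlog : 0 < Real.log x := by linarith only [hl1]
    have hx0 : (0 : ℝ) < x := by exact_mod_cast (by omega : 0 < x)
    set R : ℝ := x / Real.log x with hR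
    have hR0 : 0 < R := by (clear * - e4 hl1; positivity)
    have a2 : |artinMain x - artinConst * R| ≤ δ / 2 * R :=
      a1.trans (mul_le_mul_of_nonneg_right (min_le_left _ _) hR0.le)
    have a3 : |artinMain x - artinConst * R| ≤ 1 * R :=
      a1.trans (mul_le_mul_of_nonneg_right (min_le_right _ _) hR0.le)
    have a4 : artinMain x ≤ (artinConst + 1) * R := by
      rw [abs_le] at a3
      linarith only [a3, a3.2]
    have a5 : artinMain x / (Real.log x) ^ 1 ≤ δ / 2 * R := by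
      rw [pow_one, div_le_iff₀ hlog]
      rw [div_le_iff₀ hδ] at hl2
      have : (artinConst + 1) * R ≤ (Real.log x * δ / 2) * R :=
        mul_le_mul_of_nonneg_right (by linarith only [hl2]) hR0.le
      linarith only [a4, this]
    have a6 : |(artinCount a x : ℝ) - artinConst * R| ≤ |(artinCount a x : ℝ) - artinMain x| +
        |artinMain x - artinConst * R| := abs_sub_le _ _ _
    linarith only [hx3, a2, a5, a6]
  exact_mod_cast Finset.card_le_card hsub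

end Vale.Agent.P016
end
end
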